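import Vale.Agent.P092.H821.HTgt2
import Vale.Agent.P092.H387.Qt1

/-!
P092 (helper821), row CLASS-H (U3), part 3: the closed subgroups of the isometry group of `hypD q ε J₀`
are target groups of rank `q`.
-/

set_option linter.all false

namespace Vale.Agent.P092.H821

open Matrix Filter Topology
open Vale.Agent.P092.H515 (Tgt)
open Vale.Agent.P092.H933 (LocK)
open Vale.Agent.P092.H465.DA
open Vale.Agent.P092.H103.QH
open Vale.Agent.P092.H899.Qu

section top
variable {k : Type} [NontriviallyNormedField k] [ProperSpace k]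
  {n D : Type} [Fintype n] [DecidableEq n] [NormedDivisionRing D] [NormedAlgebra k D]
  [FiniteDimensional k D] [StarRing D]

/-- The involution is continuous. -/
theorem continuous_star_of (hst : ∀ t : k, star (algebraMap k D t) = algebraMap k D t) :
    Continuous (star : D → D) := by
  let f : D →ₗ[k] D :=
    { toFun := star
      map_add' := star_add
      map_smul' := fun t x => star_smul_alg hst t x }
  exact f.continuous_of_finiteDimensional

theorem continuous_conjTranspose_of
    (hst : ∀ t : k, star (algebraMap k D t) = algebraMap k D t) :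
    Continuous fun M : Matrix n n D => Mᴴ :=
  continuous_matrix fun i j => (continuous_star_of hst).comp (continuous_id.matrix_elem j i)

/-- The matrix of a nondegenerate form is invertible. -/
theorem isUnit_frm (k : Type) [NontriviallyNormedField k] [ProperSpace k] [NormedAlgebra k D]
    [FiniteDimensional k D] {ε : D} {J : Matrix n n D} (hF : Frm ε J) : IsUnit J := by
  refine isUnit_of_nmk k n D fun h0 => ?_
  have hinj : Function.Injective (lmul k n D J) := by
    refine (injective_iff_map_eq_zero _).2 fun y hy => ?_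
    rw [lmul_apply] at hy
    by_contra hne
    have hne' : star y ≠ 0 := fun h => hne (by
      have := congrArg star h
      rwa [star_star, star_zero] at this)
    obtain ⟨x, hx⟩ := hF.nondeg _ hne'
    refine hx ?_
    rw [hF.herm]
    have h1 : hf J x (star y) = 0 := by
      unfold hf
      rw [star_star, hy, dotProduct_zero]
    rw [h1, star_zero, mul_zero]
  have hu : IsUnit (lmul k n D J) :=
    (Module.End.isUnit_iff _).2 ⟨hinj, LinearMap.surjective_of_injective hinj⟩
  have h2 := hu.map (LinearMap.toMatrixAlgEquiv (bs k n D))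
  have h3 : IsUnit (rep k n D J).det := (Matrix.isUnit_iff_isUnit_det _).1 h2
  exact h3.ne_zero h0

/-- The isometries are closed in the matrices. -/
theorem isClosedEmbedding_FG (hst : ∀ t : k, star (algebraMap k D t) = algebraMap k D t)
    {J : Matrix n n D} (hJ : IsUnit J) : IsClosedEmbedding fun g : FG J => g.1.1 := by
  obtain ⟨J', rfl⟩ := hJ
  have hc : Continuous fun g : FG J'.1 => g.1.1 :=
    Units.continuous_val.comp continuous_subtype_val
  refine ⟨⟨?_, fun a b h => Subtype.ext (Units.ext h)⟩, ?_⟩
  · have hF : Continuous fun M : Matrix n n D =>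
        (M, MulOpposite.op (J'.1 * Mᴴ * (J'⁻¹).1)) := by
      refine continuous_id.prodMk (MulOpposite.continuous_op.comp ?_)
      exact (continuous_const.matrix_mul (continuous_conjTranspose_of hst)).matrix_mul
        continuous_const
    have hh : IsInducing ((fun M : Matrix n n D =>
        (M, MulOpposite.op (J'.1 * Mᴴ * (J'⁻¹).1))) ∘ fun g : FG J'.1 => g.1.1) := by
      have e : ((fun M : Matrix n n D => (M, MulOpposite.op (J'.1 * Mᴴ * (J'⁻¹).1))) ∘
          fun g : FG J'.1 => g.1.1) = (Units.embedProduct (Matrix n n D)) ∘ Subtype.val := by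
        funext g
        show (g.1.1, MulOpposite.op (J'.1 * (g.1.1)ᴴ * (J'⁻¹).1)) =
          (g.1.1, MulOpposite.op (g.1⁻¹).1)
        have h1 : J'.1 * (g.1.1)ᴴ * (J'⁻¹).1 = (g.1⁻¹).1 := by
          have h2 : g.1.1 * J'.1 * (g.1.1)ᴴ = J'.1 := g.2
          calc J'.1 * (g.1.1)ᴴ * (J'⁻¹).1
              = (g.1⁻¹).1 * g.1.1 * (J'.1 * (g.1.1)ᴴ * (J'⁻¹).1) := by
                rw [Units.inv_mul, Matrix.one_mul]
            _ = (g.1⁻¹).1 * (g.1.1 * J'.1 * (g.1.1)ᴴ) * (J'⁻¹).1 := by
                simp only [Matrix.mul_assoc]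
            _ = (g.1⁻¹).1 := by
                rw [h2, Matrix.mul_assoc, Units.mul_inv, Matrix.mul_one]
        rw [h1]
      rw [e]
      exact Units.isInducing_embedProduct.comp IsInducing.subtypeVal
    exact hh.of_comp hc hF
  · have e : Set.range (fun g : FG J'.1 => g.1.1) = {M | M * J'.1 * Mᴴ = J'.1} := by
      ext M
      constructor
      · rintro ⟨g, rfl⟩
        exact g.2
      · intro hM
        have hM' : M * J'.1 * Mᴴ = J'.1 := hM
        have h1 : nmk k n D M ≠ 0 := by
          intro h0
          have h2 := congrArg (nmk k n D) hM'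
          rw [nmk_mul, nmk_mul, h0, zero_mul, zero_mul] at h2
          have h3 : nmk k n D J'.1 * nmk k n D (J'⁻¹).1 = 1 := by
            rw [← nmk_mul, Units.mul_inv, nmk_one]
          rw [← h2, zero_mul] at h3
          exact zero_ne_one h3
        obtain ⟨u, rfl⟩ := isUnit_of_nmk k n D h1
        exact ⟨⟨u, hM⟩, rfl⟩
    rw [e]
    exact isClosed_eq ((continuous_id.matrix_mul continuous_const).matrix_mul
      (continuous_conjTranspose_of hst)) continuous_const

/-- Closed subgroups of the isometries are closed in the matrices. -/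
theorem isClosedEmbedding_le_FG (hst : ∀ t : k, star (algebraMap k D t) = algebraMap k D t)
    {J : Matrix n n D} (hJ : IsUnit J) {G : Subgroup (Matrix n n D)ˣ} (hG : G ≤ FG J)
    (hcl : IsClosed (G : Set (Matrix n n D)ˣ)) : IsClosedEmbedding fun g : G => g.1.1 := by
  have h : IsClosedEmbedding (Subgroup.inclusion hG) := by
    refine ⟨⟨?_, Subgroup.inclusion_injective hG⟩, ?_⟩
    · have h : IsInducing (Subtype.val ∘ Subgroup.inclusion hG) := by
        have e : (Subtype.val ∘ Subgroup.inclusion hG) =
          (Subtype.val : G → (Matrix n n D)ˣ) := rfl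
        rw [e]
        exact IsInducing.subtypeVal
      exact (IsInducing.subtypeVal.of_comp_iff).1 h
    · have e : Set.range (Subgroup.inclusion hG) =
          (Subtype.val : FG J → (Matrix n n D)ˣ) ⁻¹' (G : Set (Matrix n n D)ˣ) := by
        ext g
        constructor
        · rintro ⟨x, rfl⟩
          exact x.2
        · intro hg
          exact ⟨⟨g.1, hg⟩, rfl⟩
      rw [e]
      exact hcl.preimage continuous_subtype_val
  exact (isClosedEmbedding_FG hst hJ).comp h

/-- The isometries form a closed subgroup of `GL_n(D)`. -/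
theorem isClosed_FG (hst : ∀ t : k, star (algebraMap k D t) = algebraMap k D t)
    (J : Matrix n n D) : IsClosed (FG J : Set (Matrix n n D)ˣ) := by
  have e : (FG J : Set (Matrix n n D)ˣ) = {g | g.1 * J * (g.1)ᴴ = J} := rfl
  rw [e]
  exact isClosed_eq ((Units.continuous_val.matrix_mul continuous_const).matrix_mul
    ((continuous_conjTranspose_of hst).comp Units.continuous_val)) continuous_const

end top

section quat
variable {k : Type} [NontriviallyNormedField k] [ProperSpace k]
  {ι D : Type} [Fintype ι] [DecidableEq ι] [NormedDivisionRing D] [NormedAlgebra k D]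
  [FiniteDimensional k D] [StarRing D] {ε : D} {J₀ : Matrix ι ι D} {q : ℕ}
  {G : Subgroup (Matrix ((Fin q ⊕ Fin q) ⊕ ι) ((Fin q ⊕ Fin q) ⊕ ι) D)ˣ}

/-- **The closed groups of isometries of `hypD q ε J₀`, `J₀` anisotropic, are target groups of rank
`q`.** -/
theorem tgt_quat (hk : LocK k) (hst : ∀ t : k, star (algebraMap k D t) = algebraMap k D t)
    (hF : Frm ε (hypD q ε J₀)) (hJ : ∀ v : ι → D, v ≠ 0 → hf J₀ v v ≠ 0)
    (hG : G ≤ FG (hypD q ε J₀))
    (hcl : IsClosed (G : Set (Matrix ((Fin q ⊕ Fin q) ⊕ ι) ((Fin q ⊕ Fin q) ⊕ ι) D)ˣ)) :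
    Tgt G q := by
  have hne : Nonempty ((Fin q ⊕ Fin q) ⊕ ι) := by
    obtain ⟨u, hu, -⟩ := hF.iso
    obtain ⟨i, -⟩ := Function.ne_iff.1 hu
    exact ⟨i⟩
  exact tgt_FG_of hk hst hF.nondeg (fun W hW => wittD hst hF.eps hJ W hW) hG
    (isClosedEmbedding_le_FG hst (isUnit_frm k hF) hG hcl)

/-- **Their quotients by finite central subgroups.** -/
theorem tgt_quat_quo (hk : LocK k) (hst : ∀ t : k, star (algebraMap k D t) = algebraMap k D t)
    (hF : Frm ε (hypD q ε J₀)) (hJ : ∀ v : ι → D, v ≠ 0 → hf J₀ v v ≠ 0)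
    (hG : G ≤ FG (hypD q ε J₀))
    (hcl : IsClosed (G : Set (Matrix ((Fin q ⊕ Fin q) ⊕ ι) ((Fin q ⊕ Fin q) ⊕ ι) D)ˣ))
    {H : Type} [Group H] [TopologicalSpace H] (π : G →* H) (hπ : Continuous π)
    (hsur : Function.Surjective π) (hfin : Finite π.ker) (hc : π.ker ≤ Subgroup.center G) :
    Tgt H q :=
  Vale.Agent.P092.H387.Qt.tgt_quo (tgt_quat hk hst hF hJ hG hcl) π hπ hsur hfin hc

end quat

end Vale.Agent.P092.H821
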