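import Vale.Agent.P092.H515.FormTgt

/-!
P092 (helper821): matrix groups over a local field commuting with an algebra all of whose invariant
subspaces have dimension divisible by `δ` (inner forms of type `A`): target groups of rank
`N / δ - 1`.
-/

set_option linter.all false

namespace Vale.Agent.P092.H821

open Matrix Filter Topology
open Vale.Agent.P092.H515 (Tgt GSys)
open Vale.Agent.P092.H933 (LocK BCart gsys_gl)

section div
variable {G : Type} [Group G] {k : Type} [NontriviallyNormedField k] [ProperSpace k] {N : ℕ}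
  {m : G → Matrix (Fin N) (Fin N) k}

theorem isCompact_bdd (C : ℝ) :
    IsCompact {A : Matrix (Fin N) (Fin N) k | ∀ i l, ‖A i l‖ ≤ C} := by
  have h : IsCompact (Set.univ.pi fun _ : Fin N => Set.univ.pi fun _ : Fin N =>
      Metric.closedBall (0 : k) C) :=
    isCompact_univ_pi fun _ => isCompact_univ_pi fun _ => isCompact_closedBall 0 C
  have e : {A : Matrix (Fin N) (Fin N) k | ∀ i l, ‖A i l‖ ≤ C} =
      (Set.univ.pi fun _ : Fin N => Set.univ.pi fun _ : Fin N => Metric.closedBall (0 : k) C) := by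
    refine Set.ext fun A => ⟨fun hA i _ l _ => mem_closedBall_zero_iff.2 (hA i l), fun hA i l => ?_⟩
    exact mem_closedBall_zero_iff.1 (hA i (Set.mem_univ _) l (Set.mem_univ _))
  rw [e]
  exact h

theorem finrank_ker_top {P Q : Matrix (Fin N) (Fin N) k} (hPQ : P * Q = 1) {j : ℕ} (hj : j + 1 ≤ N) :
    Module.finrank k (LinearMap.ker ((LinearMap.funLeft k k (Fin.castLE hj)) ∘ₗ P.mulVecLin)) =
      N - (j + 1) := by
  have hs : Function.Surjective ((LinearMap.funLeft k k (Fin.castLE hj)) ∘ₗ P.mulVecLin) := by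
    rw [LinearMap.coe_comp]
    refine (LinearMap.funLeft_surjective_of_injective k k _ (Fin.castLE_injective hj)).comp ?_
    intro v
    exact ⟨Q *ᵥ v, by rw [mulVecLin_apply, mulVec_mulVec, hPQ, one_mulVec]⟩
  have h := LinearMap.finrank_range_add_finrank_ker
    ((LinearMap.funLeft k k (Fin.castLE hj)) ∘ₗ P.mulVecLin)
  rw [LinearMap.range_eq_top.2 hs, finrank_top, Module.finrank_fin_fun, Module.finrank_fin_fun] at h
  omega

/-- A large gap gives an invariant subspace of complementary dimension. -/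
theorem gap_bdd {gp : Fin (N - 1) → G → ℝ} {c C : ℝ} (hc : 0 < c)
    (hcar : ∀ g, BCart (m g) (fun j => gp j g) c C) {S : Set (Matrix (Fin N) (Fin N) k)}
    (hcomm : ∀ g, ∀ X ∈ S, m g * X = X * m g) {δ : ℕ}
    (hdiv : ∀ W : Submodule k (Fin N → k), (∀ X ∈ S, ∀ w ∈ W, X *ᵥ w ∈ W) →
      δ ∣ Module.finrank k W) (j : Fin (N - 1)) (hj : ¬ δ ∣ (j : ℕ) + 1) :
    ∃ R : ℝ, ∀ g, gp j g ≤ R := by
  by_contra hcon
  push Not at hcon
  have hjN : (j : ℕ) + 1 < N := by have := j.2; omega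
  choose g hg using fun n : ℕ => hcon n
  choose κ κi κ' κi' a h1 h2 h3 h4 h5 h6 h7 using fun n => hcar (g n)
  have : FirstCountableTopology (Matrix (Fin N) (Fin N) k) :=
    inferInstanceAs (FirstCountableTopology (Fin N → Fin N → k))
  obtain ⟨⟨P, Q⟩, -, φ, hφ, hlim⟩ := ((isCompact_bdd (k := k) (N := N) C).prod
    (isCompact_bdd (k := k) (N := N) C)).tendsto_subseq (x := fun n => (κ' n, κi' n))
    (fun n => ⟨fun i l => (h3 n i l).2.2.1, fun i l => (h3 n i l).2.2.2⟩)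
  have hP : Tendsto (fun n => κ' (φ n)) atTop (𝓝 P) := (continuous_fst.tendsto _).comp hlim
  have hQ : Tendsto (fun n => κi' (φ n)) atTop (𝓝 Q) := (continuous_snd.tendsto _).comp hlim
  have hPQ : P * Q = 1 := by
    refine tendsto_nhds_unique (f := fun n => κ' (φ n) * κi' (φ n)) (hP.mul hQ) ?_
    simp only [h2]
    exact tendsto_const_nhds
  have hQP : Q * P = 1 := mul_eq_one_comm.1 hPQ
  -- the limit is block triangular
  have hblk : ∀ X ∈ S, ∀ i l : Fin N, (i : ℕ) ≤ j → (j : ℕ) < l → (P * X * Q) i l = 0 := by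
    intro X hX i l hi hl
    have t1 : Tendsto (fun n => (κ' (φ n) * X * κi' (φ n)) i l) atTop (𝓝 ((P * X * Q) i l)) := by
      have t := (hP.mul (tendsto_const_nhds (x := X))).mul hQ
      exact (((continuous_apply_apply i l).tendsto _).comp t)
    refine tendsto_nhds_unique t1 ?_
    obtain ⟨B, hB0, hB⟩ : ∃ B : ℝ, 0 ≤ B ∧ ∀ n, ‖(κi n * X * κ n) i l‖ ≤ B := by
      refine ⟨∑ y, (∑ x, C * ‖X x y‖) * C, ?_, fun n => ?_⟩
      · have hC0 : 0 ≤ C := (norm_nonneg _).trans (h3 0 i l).1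
        positivity
      · have hC0 : 0 ≤ C := (norm_nonneg _).trans (h3 0 i l).1
        rw [Matrix.mul_apply]
        refine (norm_sum_le _ _).trans (Finset.sum_le_sum fun y _ => ?_)
        rw [norm_mul]
        refine mul_le_mul ?_ (h3 n y l).1 (norm_nonneg _) (by positivity)
        rw [Matrix.mul_apply]
        refine (norm_sum_le _ _).trans (Finset.sum_le_sum fun x _ => ?_)
        rw [norm_mul]
        exact mul_le_mul_of_nonneg_right (h3 n i x).2.1 (norm_nonneg _)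
    have hrel : ∀ n, (κ' n * X * κi' n) i l = (κi n * X * κ n) i l * (a n l / a n i) := by
      intro n
      have hcX := hcomm (g n) X hX
      rw [h6 n] at hcX
      have e1 : diagonal (a n) * (κ' n * X * κi' n) = (κi n * X * κ n) * diagonal (a n) := by
        have hκ : κi n * κ n = 1 := mul_eq_one_comm.1 (h1 n)
        calc diagonal (a n) * (κ' n * X * κi' n)
            = κi n * κ n * diagonal (a n) * (κ' n * X * κi' n) := by rw [hκ, one_mul]
          _ = κi n * (κ n * diagonal (a n) * κ' n * X) * κi' n := by simp only [Matrix.mul_assoc]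
          _ = κi n * (X * (κ n * diagonal (a n) * κ' n)) * κi' n := by rw [hcX]
          _ = κi n * X * κ n * diagonal (a n) * (κ' n * κi' n) := by simp only [Matrix.mul_assoc]
          _ = _ := by rw [h2 n, Matrix.mul_one]
      have e2 := congrFun (congrFun e1 i) l
      rw [diagonal_mul, mul_diagonal] at e2
      have hne := h4 n i
      field_simp
      linear_combination e2
    have hra : ∀ n, ‖a n l / a n i‖ ≤ Real.exp (-((n - C) / c)) := by
      intro n
      have hpi : 0 < ‖a n i‖ := norm_pos_iff.2 (h4 n i)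
      have hpl : 0 < ‖a n l‖ := norm_pos_iff.2 (h4 n l)
      have hpj : 0 < ‖a n ⟨j, by omega⟩‖ := norm_pos_iff.2 (h4 n _)
      have hpj' : 0 < ‖a n ⟨(j : ℕ) + 1, hjN⟩‖ := norm_pos_iff.2 (h4 n _)
      have c1 : ‖a n ⟨j, by omega⟩‖ ≤ ‖a n i‖ := h5 n (Fin.le_def.2 hi)
      have c2 : ‖a n l‖ ≤ ‖a n ⟨(j : ℕ) + 1, hjN⟩‖ := h5 n (Fin.le_def.2 hl)
      have c3 := (abs_le.1 (h7 n j)).2
      have c4 := hg n
      dsimp only at c3
      have c5 : (n - C) / c ≤ Real.log ‖a n ⟨j, by omega⟩‖ - Real.log ‖a n ⟨(j : ℕ) + 1, hjN⟩‖ := by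
        rw [div_le_iff₀ hc]
        have c6 : c * (Real.log ‖a n ⟨j, by omega⟩‖ - Real.log ‖a n ⟨(j : ℕ) + 1, hjN⟩‖) =
          (Real.log ‖a n ⟨j, by omega⟩‖ - Real.log ‖a n ⟨(j : ℕ) + 1, hjN⟩‖) * c := mul_comm _ _
        linarith
      rw [norm_div, ← Real.exp_log (div_pos hpl hpi), Real.exp_le_exp, Real.log_div hpl.ne' hpi.ne']
      have d1 := Real.log_le_log hpj c1
      have d2 := Real.log_le_log hpl c2
      linarith
    have t2 : Tendsto (fun n : ℕ => B * Real.exp (-(((φ n : ℕ) - C) / c))) atTop (𝓝 0) := by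
      have u1 : Tendsto (fun n : ℕ => ((φ n : ℕ) : ℝ)) atTop atTop :=
        tendsto_natCast_atTop_atTop.comp hφ.tendsto_atTop
      have u2 : Tendsto (fun n : ℕ => (((φ n : ℕ) : ℝ) - C) / c) atTop atTop :=
        (tendsto_atTop_add_const_right _ (-C) u1).atTop_div_const hc
      have u3 := (Real.tendsto_exp_neg_atTop_nhds_zero.comp u2).const_mul B
      rw [mul_zero] at u3
      exact u3
    rw [tendsto_zero_iff_norm_tendsto_zero]
    refine squeeze_zero (fun _ => norm_nonneg _) (fun n => ?_) t2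
    rw [hrel, norm_mul]
    exact mul_le_mul (hB _) (hra _) (norm_nonneg _) hB0
  -- the invariant subspace
  have hinv : ∀ X ∈ S, ∀ w ∈ LinearMap.ker ((LinearMap.funLeft k k (Fin.castLE hjN.le)) ∘ₗ
      P.mulVecLin), X *ᵥ w ∈ LinearMap.ker ((LinearMap.funLeft k k (Fin.castLE hjN.le)) ∘ₗ
      P.mulVecLin) := by
    intro X hX w hw
    rw [LinearMap.mem_ker] at hw ⊢
    have hw' : ∀ i : Fin N, (i : ℕ) ≤ j → (P *ᵥ w) i = 0 := fun i hi => by
      have := congrFun hw ⟨i, by omega⟩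
      exact this
    funext i
    change (P *ᵥ (X *ᵥ w)) (Fin.castLE hjN.le i) = 0
    have e : P *ᵥ (X *ᵥ w) = (P * X * Q) *ᵥ (P *ᵥ w) := by
      rw [mulVec_mulVec, mulVec_mulVec, Matrix.mul_assoc (P * X) Q P, hQP, Matrix.mul_one]
    rw [e, mulVec, dotProduct]
    refine Finset.sum_eq_zero fun l _ => ?_
    by_cases hl : (l : ℕ) ≤ j
    · rw [hw' l hl, mul_zero]
    · rw [hblk X hX _ l (by have := i.2; simp only [Fin.val_castLE]; omega) (not_le.1 hl), zero_mul]
  have d1 := hdiv _ hinv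
  rw [finrank_ker_top hPQ] at d1
  have d2 := hdiv ⊤ (fun _ _ _ _ => trivial)
  rw [finrank_top, Module.finrank_fin_fun] at d2
  exact hj ((Nat.dvd_sub_iff_right hjN.le d2).1 d1)

/-- **Target groups from commuting algebras.** -/
theorem tgt_div [TopologicalSpace G] (hk : LocK k) (hN : 0 < N)
    (hmul : ∀ g h, m (g * h) = m g * m h) (hdet : ∀ g, ‖(m g).det‖ = 1)
    (proper : ∀ R : ℝ, ∃ K : Set G, IsCompact K ∧ ∀ g, (∀ i j, ‖m g i j‖ ≤ R) → g ∈ K)
    {S : Set (Matrix (Fin N) (Fin N) k)} (hcomm : ∀ g, ∀ X ∈ S, m g * X = X * m g) {δ r : ℕ}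
    (hdiv : ∀ W : Submodule k (Fin N → k), (∀ X ∈ S, ∀ w ∈ W, X *ᵥ w ∈ W) →
      δ ∣ Module.finrank k W) (hNr : N = (r + 1) * δ) : Tgt G r := by
  obtain ⟨gp, w, c, C, hc, hs, hw, hcar⟩ := gsys_gl hk hN hmul hdet
  have hb : ∀ j : Fin (N - 1), ∃ R : ℝ, ¬ δ ∣ (j : ℕ) + 1 → ∀ g, gp j g ≤ R := by
    intro j
    by_cases h : δ ∣ (j : ℕ) + 1
    · exact ⟨0, fun h' => absurd h h'⟩
    · obtain ⟨R, hR⟩ := gap_bdd hc hcar hcomm hdiv j h
      exact ⟨R, fun _ => hR⟩
  choose Rj hRj using hb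
  obtain ⟨R0, hR0⟩ : ∃ R0 : ℝ, ∀ j, Rj j ≤ R0 := by
    obtain ⟨R0, -, h⟩ := H515.exists_le_all Rj
    exact ⟨R0, h⟩
  have hδ : 0 < δ := by
    rcases Nat.eq_zero_or_pos δ with h | h
    · rw [h, mul_zero] at hNr
      omega
    · exact h
  have hlt : ∀ j : {i : Fin (N - 1) // δ ∣ (i : ℕ) + 1}, ((j : Fin (N - 1)) + 1 : ℕ) / δ - 1 < r := by
    rintro ⟨j, hj⟩
    have hj2 := j.2
    have h1 : ((j : ℕ) + 1) / δ < r + 1 := by
      rw [Nat.div_lt_iff_lt_mul hδ, ← hNr]
      omega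
    have h2 : 0 < ((j : ℕ) + 1) / δ := Nat.div_pos (Nat.le_of_dvd (Nat.succ_pos _) hj) hδ
    simp only
    omega
  refine ⟨{i : Fin (N - 1) // δ ∣ (i : ℕ) + 1}, inferInstance, fun j => gp j, w,
    fun j => ⟨_, hlt j⟩, hs.restrict (Function.Embedding.subtype _) (R0 := R0)
      (fun j hj g => ?_), fun R => ⟨R, fun i j hij g hg => ?_⟩, fun R => ?_⟩
  · exact (hRj j (fun h => hj ⟨j, h⟩ rfl) g).trans (hR0 j)
  · have h1 : ((i : Fin (N - 1)) + 1 : ℕ) / δ - 1 = ((j : Fin (N - 1)) + 1 : ℕ) / δ - 1 :=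
      congrArg Fin.val hij
    have h2 : 0 < (((i : Fin (N - 1)) : ℕ) + 1) / δ :=
      Nat.div_pos (Nat.le_of_dvd (Nat.succ_pos _) i.2) hδ
    have h3 : 0 < (((j : Fin (N - 1)) : ℕ) + 1) / δ :=
      Nat.div_pos (Nat.le_of_dvd (Nat.succ_pos _) j.2) hδ
    have h4 := Nat.div_mul_cancel i.2
    have h5 := Nat.div_mul_cancel j.2
    have h6 : (((i : Fin (N - 1)) : ℕ) + 1) / δ = (((j : Fin (N - 1)) : ℕ) + 1) / δ := by omega
    have h7 : ((i : Fin (N - 1)) : ℕ) = ((j : Fin (N - 1)) : ℕ) := by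
      rw [h6] at h4
      omega
    have h8 : i = j := Subtype.ext (Fin.ext h7)
    rw [← h8]
    exact hg
  · obtain ⟨R', hR⟩ := hw R
    obtain ⟨K, hK, h1⟩ := proper R'
    exact ⟨K, hK, fun g hg => h1 g (hR g hg)⟩

end div

end Vale.Agent.P092.H821
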