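import Vale.Agent.P092.H465.DA3
import Vale.Agent.P092.H821.DTgt

/-!
P092 (helper821), row CLASS-D (4): `SL_{r+1}(D)` is a target group of rank `r`.
-/

set_option linter.all false

namespace Vale.Agent.P092.H821

open Matrix Filter Topology
open Vale.Agent.P092.H515 (Tgt GSys)
open Vale.Agent.P092.H933 (LocK)
open Vale.Agent.P092.H465.DA

section dim
variable {k : Type} [Field k] {D : Type} [DivisionRing D] [Algebra k D]
  [FiniteDimensional k D] {n : Type} [Fintype n]

/-- Subspaces of `D ^ n` invariant under the right multiplications. -/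
theorem dvd_finrank (W : Submodule k (n → D)) (h : ∀ w ∈ W, ∀ d : D, (fun i => w i * d) ∈ W) :
    Module.finrank k D ∣ Module.finrank k W := by
  have hT : IsScalarTower k Dᵐᵒᵖ (n → D) := by
    refine ⟨fun c d x => ?_⟩
    funext i
    show x i * (c • d.unop) = c • (x i * d.unop)
    rw [mul_smul_comm]
  let W' : Submodule Dᵐᵒᵖ (n → D) :=
    { carrier := W
      add_mem' := fun ha hb => W.add_mem ha hb
      zero_mem' := W.zero_mem
      smul_mem' := fun d w hw => h w hw d.unop }
  have e : Module.finrank k W' = Module.finrank k W := by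
    refine LinearEquiv.finrank_eq (?_ : W' ≃ₗ[k] W)
    exact { toFun := fun x => ⟨x.1, x.2⟩
            map_add' := fun _ _ => rfl
            map_smul' := fun _ _ => rfl
            invFun := fun x => ⟨x.1, x.2⟩
            left_inv := fun _ => rfl
            right_inv := fun _ => rfl }
  have e2 : Module.finrank k Dᵐᵒᵖ = Module.finrank k D :=
    (LinearEquiv.finrank_eq (MulOpposite.opLinearEquiv k)).symm
  have e3 := Module.finrank_mul_finrank k Dᵐᵒᵖ W'
  rw [e, e2] at e3
  exact ⟨_, e3.symm⟩

end dim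

section
variable (k : Type) [NontriviallyNormedField k] [ProperSpace k] (D : Type) [NormedDivisionRing D]
  [NormedAlgebra k D] [FiniteDimensional k D]

/-- right multiplication as a linear map -/
def rmul {n : Type} (d : D) : (n → D) →ₗ[k] (n → D) where
  toFun x := fun i => x i * d
  map_add' x y := funext fun i => add_mul _ _ _
  map_smul' c x := funext fun i => smul_mul_assoc _ _ _

theorem lmul_rmul {n : Type} [Fintype n] [DecidableEq n] (M : Matrix n n D) (d : D) :
    (lmul k n D M) ∘ₗ (rmul k D d) = (rmul k D d) ∘ₗ (lmul k n D M) := by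
  refine LinearMap.ext fun x => ?_
  funext i
  show ∑ j, M i j * (x j * d) = (∑ j, M i j * x j) * d
  rw [Finset.sum_mul]
  exact Finset.sum_congr rfl fun j _ => (mul_assoc _ _ _).symm

theorem tgt_KN (hk : LocK k) (r : ℕ) : Tgt (KN k (Fin (r + 1)) D) r := by
  have hdm : dm k (Fin (r + 1)) D = (r + 1) * Module.finrank k D := by
    rw [dm, Module.finrank_pi_fintype, Finset.sum_const, Finset.card_univ, Fintype.card_fin,
      smul_eq_mul]
  have hδ : 0 < Module.finrank k D := Module.finrank_pos
  refine tgt_div (m := fun g : KN k (Fin (r + 1)) D => rep k (Fin (r + 1)) D g.1.1)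
    (S := Set.range fun d : D => LinearMap.toMatrix (bs k (Fin (r + 1)) D) (bs k (Fin (r + 1)) D)
      (rmul k D d)) (δ := Module.finrank k D) hk (by rw [hdm]; positivity) (fun g h => ?_)
    (fun g => ?_) (fun R => ?_) (fun g X hX => ?_) (fun W hW => ?_) hdm
  · rw [← map_mul]
    rfl
  · have h1 : (rep k (Fin (r + 1)) D g.1.1).det = 1 := g.2
    rw [h1, norm_one]
  · have h1 : IsClosedEmbedding fun g : KN k (Fin (r + 1)) D => rep k (Fin (r + 1)) D g.1.1 :=
      (isClosedEmbedding_rep k (Fin (r + 1)) D).comp (isClosedEmbedding_KN k (Fin (r + 1)) D)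
    exact ⟨_, h1.isCompact_preimage (isCompact_bdd R), fun g hg => hg⟩
  · obtain ⟨d, rfl⟩ := hX
    dsimp only
    rw [rep_apply, ← LinearMap.toMatrix_comp, ← LinearMap.toMatrix_comp, lmul_rmul]
  · have e : Module.finrank k W =
        Module.finrank k (W.comap (bs k (Fin (r + 1)) D).equivFun.toLinearMap) := by
      refine (LinearEquiv.finrank_eq ?_).symm
      exact (bs k (Fin (r + 1)) D).equivFun.submoduleMap
        (W.comap (bs k (Fin (r + 1)) D).equivFun.toLinearMap) ≪≫ₗ
        LinearEquiv.ofEq _ _ (Submodule.map_comap_eq_of_surjective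
          (bs k (Fin (r + 1)) D).equivFun.surjective W)
    rw [e]
    refine dvd_finrank _ fun w hw d => ?_
    rw [Submodule.mem_comap] at hw ⊢
    have h1 := hW _ ⟨d, rfl⟩ _ hw
    have h2 : LinearMap.toMatrix (bs k (Fin (r + 1)) D) (bs k (Fin (r + 1)) D) (rmul k D d) *ᵥ
        ((bs k (Fin (r + 1)) D).equivFun w) = (bs k (Fin (r + 1)) D).equivFun (rmul k D d w) := by
      have := LinearMap.toMatrix_mulVec_repr (bs k (Fin (r + 1)) D) (bs k (Fin (r + 1)) D)
        (rmul k D d) w
      exact this
    have h3 : LinearMap.toMatrix (bs k (Fin (r + 1)) D) (bs k (Fin (r + 1)) D) (rmul k D d) *ᵥ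
        ((bs k (Fin (r + 1)) D).equivFun.toLinearMap w) ∈ W := h1
    exact h2 ▸ h3

/-- **`SL_{r+1}(D)` is a target group of rank `r`.** -/
theorem tgt_sld (hk : LocK k) {r : ℕ} (hr : 1 ≤ r)
    (hcl : IsClosed (SLD (Fin (r + 1)) D : Set (Matrix (Fin (r + 1)) (Fin (r + 1)) D)ˣ)) :
    Tgt (SLD (Fin (r + 1)) D) r := by
  have hle : SLD (Fin (r + 1)) D ≤ KN k (Fin (r + 1)) D :=
    SLD_le_KN k (Fin (r + 1)) D (by rw [Fintype.card_fin]; omega)
  refine (tgt_KN k D hk r).of_isClosedEmbedding (Subgroup.inclusion hle) ?_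
  refine ⟨⟨?_, Subgroup.inclusion_injective hle⟩, ?_⟩
  · have h : IsInducing (Subtype.val ∘ Subgroup.inclusion hle) := by
      have e : (Subtype.val ∘ Subgroup.inclusion hle) =
        (Subtype.val : SLD (Fin (r + 1)) D → (Matrix (Fin (r + 1)) (Fin (r + 1)) D)ˣ) := rfl
      rw [e]
      exact IsInducing.subtypeVal
    exact (IsInducing.subtypeVal.of_comp_iff).1 h
  · have e : Set.range (Subgroup.inclusion hle) =
        (Subtype.val : KN k (Fin (r + 1)) D → (Matrix (Fin (r + 1)) (Fin (r + 1)) D)ˣ) ⁻¹'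
          (SLD (Fin (r + 1)) D : Set (Matrix (Fin (r + 1)) (Fin (r + 1)) D)ˣ) := by
      ext g
      constructor
      · rintro ⟨x, rfl⟩
        exact x.2
      · intro hg
        exact ⟨⟨g.1, hg⟩, rfl⟩
    rw [e]
    exact hcl.preimage continuous_subtype_val

end

end Vale.Agent.P092.H821
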