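import Vale.Agent.P092.H978.Supp
import Vale.Agent.P092.PA.Defs

/-!
P092-Q (helper821), block [Q-DIFF], abstract part.

`E` is a star representation of `C₀(H₁)` on a Hilbert space `L` on which the group `H₂` acts by
unitaries; `Γ` is a lattice in `H₁ × H₂` and `E` is covariant for `Γ`.  If every point other than
`1` of `H₁` has a neighbourhood with infinitely many pairwise disjoint conjugates, then `E` is
supported at `1`.  No measure on `H₁` is used.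
-/

set_option linter.all false

open MeasureTheory Filter Topology
open scoped ZeroAtInfty InnerProductSpace

namespace Vale.Agent.P092.H821

open Vale.Agent.P092.H978

section c0

variable {X : Type*} [TopologicalSpace X]

theorem norm_le_of {f : C₀(X, ℂ)} {C : ℝ} (hC : 0 ≤ C) (h : ∀ x, ‖f x‖ ≤ C) : ‖f‖ ≤ C := by
  rw [← ZeroAtInftyContinuousMap.norm_toBCF_eq_norm]
  exact (BoundedContinuousFunction.norm_le hC).2 h

theorem apply_le_norm (f : C₀(X, ℂ)) (x : X) : ‖f x‖ ≤ ‖f‖ := by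
  rw [← ZeroAtInftyContinuousMap.norm_toBCF_eq_norm]
  exact BoundedContinuousFunction.norm_coe_le_norm f.toBCF x

/-- a function of `C₀` with value `1` at `x`, vanishing off a neighbourhood of `x` -/
theorem exists_bump [T2Space X] [LocallyCompactSpace X] {x : X} {U : Set X} (hU : U ∈ 𝓝 x) :
    ∃ f : C₀(X, ℂ), f x = 1 ∧ ∀ t, t ∉ U → f t = 0 := by
  have hd : Disjoint ({x} : Set X) (interior U)ᶜ := by
    rw [Set.disjoint_compl_right_iff_subset]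
    exact Set.singleton_subset_iff.2 (mem_interior_iff_mem_nhds.2 hU)
  obtain ⟨f, hf1, hf0, hfc, -⟩ := exists_continuous_one_zero_of_isCompact
    (isCompact_singleton (x := x)) isOpen_interior.isClosed_compl hd
  refine ⟨⟨⟨fun t => ((f t : ℝ) : ℂ), Complex.continuous_ofReal.comp f.continuous⟩, ?_⟩, ?_, ?_⟩
  · have h1 : HasCompactSupport (fun t => ((f t : ℝ) : ℂ)) :=
      hfc.comp_left (g := fun r : ℝ => (r : ℂ)) (by simp)
    exact h1.is_zero_at_infty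
  · change ((f x : ℝ) : ℂ) = 1
    rw [hf1 (Set.mem_singleton x)]
    simp
  · intro t ht
    change ((f t : ℝ) : ℂ) = 0
    rw [hf0 (fun h => ht (interior_subset h))]
    simp

end c0

section cj

variable {H : Type*} [Group H] [TopologicalSpace H] [IsTopologicalGroup H]

theorem cjF_cjF (s t : H) (f : C₀(H, ℂ)) : cjF s (cjF t f) = cjF (s * t) f := by
  ext x
  simp only [cjF_apply]
  congr 1
  group

theorem cjF_one (f : C₀(H, ℂ)) : cjF 1 f = f := by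
  ext x
  simp only [cjF_apply]
  congr 1
  group

theorem norm_cjF_le (s : H) (f : C₀(H, ℂ)) : ‖cjF s f‖ ≤ ‖f‖ :=
  norm_le_of (norm_nonneg _) fun x => by rw [cjF_apply]; exact apply_le_norm f _

/-- the conjugation action on `C₀(H)` is norm continuous -/
theorem continuous_cjF [LocallyCompactSpace H] (f : C₀(H, ℂ)) : Continuous fun s => cjF s f := by
  rw [continuous_iff_continuousAt]
  intro s₀
  refine Metric.tendsto_nhds.2 fun ε hε => ?_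
  obtain ⟨C, hC, hCf⟩ : ∃ C : Set H, IsCompact C ∧ ∀ t, t ∉ C → ‖f t‖ < ε / 4 := by
    have h0 : ∀ᶠ x in cocompact H, ‖f x‖ < ε / 4 := by
      have h1 := (f.zero_at_infty').norm
      rw [norm_zero] at h1
      exact h1.eventually (gt_mem_nhds (by positivity))
    obtain ⟨C, hC, hCs⟩ := mem_cocompact.1 h0
    exact ⟨C, hC, fun t ht => hCs ht⟩
  obtain ⟨S, hS, hS0⟩ := exists_compact_mem_nhds s₀
  set D : Set H := (fun p : H × H => p.1 * p.2 * p.1⁻¹) '' (S ×ˢ C) with hD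
  have hDc : IsCompact D := (hS.prod hC).image (by fun_prop)
  have h2 : ∀ᶠ s in 𝓝 s₀, ∀ t ∈ D, ‖f (s⁻¹ * t * s) - f (s₀⁻¹ * t * s₀)‖ < ε / 2 := by
    refine hDc.eventually_forall_of_forall_eventually fun t _ => ?_
    have hc : Continuous fun z : H × H => ‖f (z.1⁻¹ * z.2 * z.1) - f (s₀⁻¹ * z.2 * s₀)‖ := by
      have h3 : Continuous fun z : H × H => f (z.1⁻¹ * z.2 * z.1) :=
        (map_continuous f).comp (by fun_prop)
      have h4 : Continuous fun z : H × H => f (s₀⁻¹ * z.2 * s₀) :=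
        (map_continuous f).comp (by fun_prop)
      exact (h3.sub h4).norm
    have h5 := hc.tendsto (s₀, t)
    simp only [sub_self, norm_zero] at h5
    exact h5.eventually (gt_mem_nhds (by positivity))
  filter_upwards [h2, hS0] with s hs hsS
  rw [dist_eq_norm]
  refine lt_of_le_of_lt (norm_le_of (C := ε / 2) (by positivity) fun t => ?_) (by linarith)
  change ‖cjF s f t - cjF s₀ f t‖ ≤ ε / 2
  rw [cjF_apply, cjF_apply]
  by_cases ht : t ∈ D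
  · exact (hs t ht).le
  · have key : ∀ r ∈ S, ‖f (r⁻¹ * t * r)‖ < ε / 4 := by
      intro r hr
      refine hCf _ fun hmem => ht ?_
      refine ⟨(r, r⁻¹ * t * r), ⟨hr, hmem⟩, ?_⟩
      change r * (r⁻¹ * t * r) * r⁻¹ = t
      group
    have h3 := key s hsS
    have h4 := key s₀ (mem_of_mem_nhds hS0)
    refine (norm_sub_le _ _).trans ?_
    linarith

end cj

section orth

variable {X : Type*} [TopologicalSpace X]
variable {L : Type*} [NormedAddCommGroup L] [InnerProductSpace ℂ L] [CompleteSpace L]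

theorem norm_E_le (E : C₀(X, ℂ) →⋆ₙₐ[ℂ] (L →L[ℂ] L)) (f : C₀(X, ℂ)) (η : L) :
    ‖E f η‖ ≤ ‖f‖ * ‖η‖ :=
  ((E f).le_opNorm η).trans
    (mul_le_mul_of_nonneg_right (NonUnitalStarAlgHom.norm_apply_le E f) (norm_nonneg _))

theorem inner_E (E : C₀(X, ℂ) →⋆ₙₐ[ℂ] (L →L[ℂ] L)) (f g : C₀(X, ℂ)) (η ζ : L) :
    ⟪E f η, E g ζ⟫_ℂ = ⟪η, E (star f * g) ζ⟫_ℂ := by
  rw [map_mul, map_star, ContinuousLinearMap.star_eq_adjoint, mul_apply_eq_comp,
    ContinuousLinearMap.adjoint_inner_right]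

theorem inner_E_zero (E : C₀(X, ℂ) →⋆ₙₐ[ℂ] (L →L[ℂ] L)) {f g : C₀(X, ℂ)}
    (h : ∀ t, f t = 0 ∨ g t = 0) (η ζ : L) : ⟪E f η, E g ζ⟫_ℂ = 0 := by
  rw [inner_E]
  have h1 : star f * g = 0 := by
    ext t
    change star (f t) * g t = 0
    rcases h t with h0 | h0 <;> simp [h0]
  rw [h1, map_zero]
  simp

/-- a family of functions with disjoint supports -/
theorem sum_le (E : C₀(X, ℂ) →⋆ₙₐ[ℂ] (L →L[ℂ] L)) (g : ℕ → C₀(X, ℂ))
    (hd : ∀ i j, i ≠ j → ∀ t, g i t = 0 ∨ g j t = 0) {C : ℝ} (hC0 : 0 ≤ C)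
    (hC : ∀ i t, ‖g i t‖ ≤ C) (η : L) (N : ℕ) :
    ∑ i ∈ Finset.range N, ‖E (g i) η‖ ^ 2 ≤ (C * ‖η‖) ^ 2 := by
  have h1 : ∀ n : ℕ, ‖E (∑ i ∈ Finset.range n, g i) η‖ ^ 2 =
      ∑ i ∈ Finset.range n, ‖E (g i) η‖ ^ 2 := by
    intro n
    induction n with
    | zero => simp
    | succ n ih =>
      rw [Finset.sum_range_succ, Finset.sum_range_succ, ← ih, map_add,
        add_apply, norm_add_sq (𝕜 := ℂ)]
      have h2 : ⟪E (∑ i ∈ Finset.range n, g i) η, E (g n) η⟫_ℂ = 0 := by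
        refine inner_E_zero E (fun t => ?_) η η
        by_cases h3 : g n t = 0
        · exact Or.inr h3
        · left
          have h4 : (∑ i ∈ Finset.range n, g i) t = ∑ i ∈ Finset.range n, g i t := by
            induction (Finset.range n) using Finset.induction_on with
            | empty => rfl
            | insert a s ha ih2 =>
              rw [Finset.sum_insert ha, Finset.sum_insert ha, ← ih2]; rfl
          rw [h4]
          refine Finset.sum_eq_zero fun i hi => ?_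
          exact (hd i n (Finset.mem_range.1 hi).ne t).resolve_right h3
      rw [h2]
      simp
  rw [← h1 N]
  have h5 : ‖∑ i ∈ Finset.range N, g i‖ ≤ C := by
    refine norm_le_of hC0 fun t => ?_
    have h4 : (∑ i ∈ Finset.range N, g i) t = ∑ i ∈ Finset.range N, g i t := by
      induction (Finset.range N) using Finset.induction_on with
      | empty => rfl
      | insert a s ha ih2 =>
        rw [Finset.sum_insert ha, Finset.sum_insert ha, ← ih2]; rfl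
    rw [h4]
    by_cases h6 : ∃ j ∈ Finset.range N, g j t ≠ 0
    · obtain ⟨j, hj, hjt⟩ := h6
      rw [Finset.sum_eq_single_of_mem j hj fun i _ hij => (hd i j hij t).resolve_right hjt]
      exact hC j t
    · push Not at h6
      rw [Finset.sum_eq_zero h6, norm_zero]
      exact hC0
  have h6 := norm_E_le E (∑ i ∈ Finset.range N, g i) η
  exact pow_le_pow_left₀ (norm_nonneg _)
    (h6.trans (mul_le_mul_of_nonneg_right h5 (norm_nonneg _))) 2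

end orth

section main

variable {Γ H₁ H₂ L : Type} [Group Γ] [Group H₁] [TopologicalSpace H₁] [IsTopologicalGroup H₁]
  [T2Space H₁] [LocallyCompactSpace H₁] [Group H₂] [TopologicalSpace H₂] [IsTopologicalGroup H₂]
  [MeasurableSpace (H₁ × H₂)] [OpensMeasurableSpace (H₁ × H₂)]
  [NormedAddCommGroup L] [InnerProductSpace ℂ L] [CompleteSpace L]
  {κ₁ : Γ →* H₁} {κ₂ : Γ →* H₂} {m : Measure (H₁ × H₂)}
  {α : H₂ →* (L →L[ℂ] L)} {E : C₀(H₁, ℂ) →⋆ₙₐ[ℂ] (L →L[ℂ] L)}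

/-- the function which is averaged -/
noncomputable def Fn (α : H₂ →* (L →L[ℂ] L)) (E : C₀(H₁, ℂ) →⋆ₙₐ[ℂ] (L →L[ℂ] L)) (ξ : L)
    (g : C₀(H₁, ℂ)) (h : H₁ × H₂) : ℝ := ‖E (cjF h.1 g) (α h.2 ξ)‖ ^ 2

theorem Fn_nonneg (ξ : L) (g : C₀(H₁, ℂ)) (h : H₁ × H₂) : 0 ≤ Fn α E ξ g h := by
  unfold Fn; positivity

theorem Fn_le (hα : ∀ h x, ‖α h x‖ = ‖x‖) (ξ : L) (g : C₀(H₁, ℂ)) (h : H₁ × H₂) :
    Fn α E ξ g h ≤ (‖g‖ * ‖ξ‖) ^ 2 := by
  unfold Fn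
  refine pow_le_pow_left₀ (norm_nonneg _) ((norm_E_le E _ _).trans ?_) 2
  rw [hα]
  exact mul_le_mul_of_nonneg_right (norm_cjF_le _ _) (norm_nonneg _)

theorem continuous_Fn (hc : ∀ x, Continuous fun h => α h x) (ξ : L) (g : C₀(H₁, ℂ)) :
    Continuous (Fn α E ξ g) := by
  have hE : Continuous E := AddMonoidHomClass.continuous_of_bound E 1 fun x => by
      rw [one_mul]; exact NonUnitalStarAlgHom.norm_apply_le E x
  unfold Fn
  refine Continuous.pow (Continuous.norm ?_) 2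
  refine Continuous.clm_apply ?_ ?_
  · exact hE.comp ((continuous_cjF g).comp continuous_fst)
  · exact (hc ξ).comp continuous_snd

theorem Fn_mul_right (ξ : L) (g : C₀(H₁, ℂ)) (h : H₁ × H₂) (s : H₁) :
    Fn α E ξ g (h * (s, 1)) = Fn α E ξ (cjF s g) h := by
  unfold Fn
  rw [cjF_cjF, Prod.fst_mul, Prod.snd_mul, mul_one]

theorem Fn_inv (hα : ∀ h x, ‖α h x‖ = ‖x‖)
    (hcov : ∀ g f, α (κ₂ g) * E f * α (κ₂ g)⁻¹ = E (cjF (κ₁ g) f)) (ξ : L) (g : C₀(H₁, ℂ))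
    (v : Γ) (h : H₁ × H₂) : Fn α E ξ g ((κ₁.prod κ₂) v * h) = Fn α E ξ g h := by
  unfold Fn
  have e : E (cjF (((κ₁.prod κ₂) v * h).1) g) (α (((κ₁.prod κ₂) v * h).2) ξ) =
      α (κ₂ v) (E (cjF h.1 g) (α h.2 ξ)) := by
    have e1 : ((κ₁.prod κ₂) v * h).1 = κ₁ v * h.1 := rfl
    have e2 : ((κ₁.prod κ₂) v * h).2 = κ₂ v * h.2 := rfl
    rw [e1, e2, ← cjF_cjF, ← hcov v, map_mul]
    simp only [mul_apply_eq_comp]
    have e3 : α (κ₂ v)⁻¹ (α (κ₂ v) (α h.2 ξ)) = α h.2 ξ := by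
      rw [← mul_apply_eq_comp, ← map_mul, inv_mul_cancel, map_one]
      rfl
    rw [e3]
  rw [e, hα]

/-- **the support of `E` is contained in `{1}`** -/
theorem supp_sub_one (hm : PA.Lat (κ₁.prod κ₂) m) (hα : ∀ h x, ‖α h x‖ = ‖x‖)
    (hc : ∀ x, Continuous fun h => α h x)
    (hcov : ∀ g f, α (κ₂ g) * E f * α (κ₂ g)⁻¹ = E (cjF (κ₁ g) f))
    (hrec : ∀ z : H₁, z ≠ 1 → ∃ U ∈ 𝓝 z, ∃ a : ℕ → H₁,
      Pairwise fun i j => Disjoint ((fun y => a i * y * (a i)⁻¹) '' U)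
        ((fun y => a j * y * (a j)⁻¹) '' U)) : supp E ⊆ {1} := by
  intro z hz
  by_contra hne
  obtain ⟨U, hU, a, ha⟩ := hrec z hne
  obtain ⟨g, hg1, hg0⟩ := exists_bump hU
  have hprob : IsProbabilityMeasure m := hm.prob
  have hEg : E g = 0 := by
    refine ContinuousLinearMap.ext fun ξ => ?_
    -- the averages of the translates agree
    have hbd : ∀ (f : C₀(H₁, ℂ)) h, Fn α E ξ f h ≤ (‖f‖ * ‖ξ‖) ^ 2 := fun f h => Fn_le hα ξ f h
    have hnn : ∀ (f : C₀(H₁, ℂ)) h, 0 ≤ Fn α E ξ f h := fun f h => Fn_nonneg ξ f h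
    have hcont : ∀ f : C₀(H₁, ℂ), Continuous (Fn α E ξ f) := fun f => continuous_Fn hc ξ f
    have hint : ∀ f : C₀(H₁, ℂ), Integrable (Fn α E ξ f) m := fun f =>
      Integrable.of_bound (hcont f).aestronglyMeasurable ((‖f‖ * ‖ξ‖) ^ 2)
        (Eventually.of_forall fun h => by
          rw [Real.norm_of_nonneg (hnn f h)]; exact hbd f h)
    have hav : ∀ s : H₁, ∫ h, Fn α E ξ (cjF s g) h ∂m = ∫ h, Fn α E ξ g h ∂m := by
      intro s
      have h1 := hm.inv (fun h => ((Fn α E ξ g h : ℝ) : ℂ))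
        (Complex.continuous_ofReal.comp (hcont g))
        ⟨(‖g‖ * ‖ξ‖) ^ 2, fun h => by
          rw [Complex.norm_real, Real.norm_of_nonneg (hnn g h)]; exact hbd g h⟩
        (fun v h => by rw [Fn_inv hα hcov]) (s, 1)
      simp only [Fn_mul_right] at h1
      rw [integral_complex_ofReal, integral_complex_ofReal] at h1
      exact_mod_cast h1
    -- the sum of `N` of them is bounded
    have hsum : ∀ N : ℕ, (N : ℝ) * ∫ h, Fn α E ξ g h ∂m ≤ (‖g‖ * ‖ξ‖) ^ 2 := by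
      intro N
      have h1 : ∑ i ∈ Finset.range N, ∫ h, Fn α E ξ (cjF (a i) g) h ∂m =
          (N : ℝ) * ∫ h, Fn α E ξ g h ∂m := by
        rw [Finset.sum_congr rfl fun i _ => hav (a i)]
        simp
      rw [← h1, ← integral_finsetSum _ fun i _ => hint _]
      have h2 : ∀ h, ∑ i ∈ Finset.range N, Fn α E ξ (cjF (a i) g) h ≤ (‖g‖ * ‖ξ‖) ^ 2 := by
        intro h
        unfold Fn
        have h3 := sum_le E (fun i => cjF h.1 (cjF (a i) g)) (C := ‖g‖) ?_ (norm_nonneg _) ?_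
          (α h.2 ξ) N
        · rw [hα] at h3
          exact h3
        · intro i j hij t
          by_contra hcon
          push Not at hcon
          obtain ⟨h4, h5⟩ := hcon
          simp only [cjF_apply] at h4 h5
          set y := h.1⁻¹ * t * h.1 with hy
          have h6 : (a i)⁻¹ * y * a i ∈ U := by
            by_contra h7; exact h4 (hg0 _ h7)
          have h7 : (a j)⁻¹ * y * a j ∈ U := by
            by_contra h7; exact h5 (hg0 _ h7)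
          have h8 : y ∈ (fun y => a i * y * (a i)⁻¹) '' U :=
            ⟨_, h6, by change a i * ((a i)⁻¹ * y * a i) * (a i)⁻¹ = y; group⟩
          have h9 : y ∈ (fun y => a j * y * (a j)⁻¹) '' U :=
            ⟨_, h7, by change a j * ((a j)⁻¹ * y * a j) * (a j)⁻¹ = y; group⟩
          exact Set.disjoint_left.1 (ha hij) h8 h9
        · intro i t
          simp only [cjF_apply]
          exact apply_le_norm g _
      calc ∫ h, ∑ i ∈ Finset.range N, Fn α E ξ (cjF (a i) g) h ∂m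
          ≤ ∫ h, (‖g‖ * ‖ξ‖) ^ 2 ∂m :=
            integral_mono (integrable_finsetSum _ fun i _ => hint _) (integrable_const _) h2
        _ = (‖g‖ * ‖ξ‖) ^ 2 := by simp
    have h0 : 0 ≤ ∫ h, Fn α E ξ g h ∂m := integral_nonneg fun h => hnn g h
    have hzero : ∫ h, Fn α E ξ g h ∂m = 0 := by
      by_contra hcon
      have hpos : 0 < ∫ h, Fn α E ξ g h ∂m := lt_of_le_of_ne h0 (Ne.symm hcon)
      obtain ⟨N, hN⟩ := exists_nat_gt ((‖g‖ * ‖ξ‖) ^ 2 / ∫ h, Fn α E ξ g h ∂m)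
      rw [div_lt_iff₀ hpos] at hN
      linarith [hsum N]
    have h1 := hm.faith (Fn α E ξ g) (hcont g) ⟨_, hbd g⟩ (hnn g)
      (fun v h => Fn_inv hα hcov ξ g v h) hzero 1
    unfold Fn at h1
    rw [Prod.fst_one, Prod.snd_one, cjF_one, map_one] at h1
    have h2 : ‖E g ξ‖ = 0 := by
      have h3 : (1 : L →L[ℂ] L) ξ = ξ := rfl
      rw [h3] at h1
      exact pow_eq_zero_iff (two_ne_zero) |>.1 h1
    rw [zero_apply]
    exact norm_eq_zero.1 h2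
  have h1 := hz g hEg
  rw [hg1] at h1
  exact one_ne_zero h1

end main

section exch

variable {H₁ H₂ L₁ L₂ : Type*} [Group H₁] [TopologicalSpace H₁] [Group H₂] [TopologicalSpace H₂]
  [NormedAddCommGroup L₁] [InnerProductSpace ℂ L₁] [CompleteSpace L₁]
  [NormedAddCommGroup L₂] [InnerProductSpace ℂ L₂] [CompleteSpace L₂]

/-- the exchange formula for two groups: `H₁` acts on `L₁`, `H₂` on `L₂`,
`⟪z, E₂ (t ↦ ⟪c, α₁ t b⟫) x⟫ = ⟪c, E₁ (t ↦ ⟪z, α₂ t⁻¹ x⟫) b⟫`. -/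
def Exch2 (α₁ : H₁ →* (L₁ →L[ℂ] L₁)) (α₂ : H₂ →* (L₂ →L[ℂ] L₂))
    (E₁ : C₀(H₂, ℂ) →⋆ₙₐ[ℂ] (L₁ →L[ℂ] L₁)) (E₂ : C₀(H₁, ℂ) →⋆ₙₐ[ℂ] (L₂ →L[ℂ] L₂)) : Prop :=
  ∀ (b c : L₁) (x z : L₂), ∃ (φ : C₀(H₁, ℂ)) (ψ : C₀(H₂, ℂ)), (∀ t, φ t = ⟪c, α₁ t b⟫_ℂ) ∧
    (∀ t, ψ t = ⟪z, α₂ t⁻¹ x⟫_ℂ) ∧ ⟪z, E₂ φ x⟫_ℂ = ⟪c, E₁ ψ b⟫_ℂ

variable {α₁ : H₁ →* (L₁ →L[ℂ] L₁)} {α₂ : H₂ →* (L₂ →L[ℂ] L₂)}
  {E₁ : C₀(H₂, ℂ) →⋆ₙₐ[ℂ] (L₁ →L[ℂ] L₁)} {E₂ : C₀(H₁, ℂ) →⋆ₙₐ[ℂ] (L₂ →L[ℂ] L₂)}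

/-- the case `supp E₂ ⊆ {1}` -/
theorem Exch2.eq_one [IsTopologicalGroup H₁] [LocallyCompactSpace H₁]
    (h : Exch2 α₁ α₂ E₁ E₂) (hs : supp E₂ ⊆ {1})
    (hne : ∃ (φ : C₀(H₁, ℂ)) (b c : L₁) (x z : L₂), (∀ t, φ t = ⟪c, α₁ t b⟫_ℂ) ∧
      ⟪z, E₂ φ x⟫_ℂ ≠ 0) (f : C₀(H₁, ℂ)) : E₂ f = f 1 • (1 : L₂ →L[ℂ] L₂) := by
  obtain ⟨u, hu⟩ := exists_unit_at (H := H₁)
  have hE₂ := supp_one E₂ hs hu
  set p := E₂ u with hp
  have hpp : p * p = p := by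
    rw [hp, ← map_mul, hE₂ (u * u)]
    change (u 1 * u 1) • E₂ u = E₂ u
    rw [hu, one_mul, one_smul]
  have key : ∀ x z : L₂, ∀ ψ : C₀(H₂, ℂ), (∀ t, ψ t = ⟪z, α₂ t⁻¹ x⟫_ℂ) →
      E₁ ψ = ⟪z, p x⟫_ℂ • (1 : L₁ →L[ℂ] L₁) := by
    intro x z ψ hψ
    refine ContinuousLinearMap.ext fun b => ?_
    refine ext_inner_left ℂ fun c => ?_
    obtain ⟨φ, ψ', hφ, hψ', e⟩ := h b c x z
    have a1 : ψ' = ψ := by ext s; rw [hψ, hψ']
    rw [a1] at e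
    rw [← e, hE₂ φ, hφ 1, map_one, smul_apply, inner_smul_right,
      smul_apply, inner_smul_right]
    simp only [one_apply_eq_self]
    ring
  obtain ⟨φ₀, b₀, c₀, x₀, z₀, hφ₀, hne₀⟩ := hne
  have hp0 : ⟪z₀, p x₀⟫_ℂ ≠ 0 := by
    intro h0
    apply hne₀
    rw [hE₂ φ₀, smul_apply, inner_smul_right, h0, mul_zero]
  obtain ⟨φ', ψ₀, hφ', hψ₀, e₀⟩ := h b₀ c₀ x₀ z₀
  have hE₁ : E₁ ψ₀ ≠ 0 := by
    intro h0
    have a1 : φ' = φ₀ := by ext s; rw [hφ₀, hφ']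
    rw [a1, h0] at e₀
    apply hne₀
    rw [e₀]
    simp
  obtain ⟨t, ht⟩ := exists_mem_supp E₁ hE₁
  have hprop : α₂ t⁻¹ = (⟪z₀, α₂ t⁻¹ x₀⟫_ℂ / ⟪z₀, p x₀⟫_ℂ) • p := by
    refine inner_proportional hp0 fun x z => ?_
    obtain ⟨-, ψ, -, hψ, -⟩ := h 0 0 x z
    have e1 : E₁ (⟪z₀, p x₀⟫_ℂ • ψ - ⟪z, p x⟫_ℂ • ψ₀) = 0 := by
      rw [map_sub, map_smul, map_smul, key x z ψ hψ, key x₀ z₀ ψ₀ hψ₀, smul_smul, smul_smul,
        mul_comm, sub_self]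
    have e2 := ht _ e1
    change ⟪z₀, p x₀⟫_ℂ * ψ t - ⟪z, p x⟫_ℂ * ψ₀ t = 0 at e2
    rw [hψ, hψ₀, sub_eq_zero] at e2
    exact e2
  have hinv : α₂ t * α₂ t⁻¹ = 1 := by rw [← map_mul, mul_inv_cancel, map_one]
  have hp1 : p = 1 := idem_eq_one hpp hinv hprop
  rw [hE₂ f, hp1]

end exch

/-- **[Q-DIFF], abstract form.** -/
theorem diff {Γ H₁ H₂ L₁ L₂ : Type} [Group Γ] [Group H₁] [TopologicalSpace H₁]
    [IsTopologicalGroup H₁] [T2Space H₁] [LocallyCompactSpace H₁] [Group H₂] [TopologicalSpace H₂]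
    [IsTopologicalGroup H₂] [MeasurableSpace (H₁ × H₂)] [OpensMeasurableSpace (H₁ × H₂)]
    [NormedAddCommGroup L₁] [InnerProductSpace ℂ L₁] [CompleteSpace L₁]
    [NormedAddCommGroup L₂] [InnerProductSpace ℂ L₂] [CompleteSpace L₂]
    {κ₁ : Γ →* H₁} {κ₂ : Γ →* H₂} {m : Measure (H₁ × H₂)}
    {α₁ : H₁ →* (L₁ →L[ℂ] L₁)} {α₂ : H₂ →* (L₂ →L[ℂ] L₂)}
    {E₁ : C₀(H₂, ℂ) →⋆ₙₐ[ℂ] (L₁ →L[ℂ] L₁)} {E₂ : C₀(H₁, ℂ) →⋆ₙₐ[ℂ] (L₂ →L[ℂ] L₂)}
    (hm : PA.Lat (κ₁.prod κ₂) m) (hα : ∀ h x, ‖α₂ h x‖ = ‖x‖)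
    (hc : ∀ x, Continuous fun h => α₂ h x)
    (hcov : ∀ g f, α₂ (κ₂ g) * E₂ f * α₂ (κ₂ g)⁻¹ = E₂ (cjF (κ₁ g) f))
    (hrec : ∀ z : H₁, z ≠ 1 → ∃ U ∈ 𝓝 z, ∃ a : ℕ → H₁,
      Pairwise fun i j => Disjoint ((fun y => a i * y * (a i)⁻¹) '' U)
        ((fun y => a j * y * (a j)⁻¹) '' U))
    (hex : Exch2 α₁ α₂ E₁ E₂)
    (hne : ∃ (φ : C₀(H₁, ℂ)) (b c : L₁) (x z : L₂), (∀ t, φ t = ⟪c, α₁ t b⟫_ℂ) ∧
      ⟪z, E₂ φ x⟫_ℂ ≠ 0) (f : C₀(H₁, ℂ)) : E₂ f = f 1 • (1 : L₂ →L[ℂ] L₂) :=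
  hex.eq_one (supp_sub_one hm hα hc hcov hrec) hne f

end Vale.Agent.P092.H821
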