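import Vale.Agent.P092.H821.Diff

/-!
P092-Q (helper821), block [Q-DIFF], abstract part, second form.

`E` is a star representation of `C₀(H₁)` on `M`, covariant under a representation `U` of the
lattice `Γ ≤ H₁ × H₂` on `M`; `J : L → M` intertwines a continuous unitary action `α` of `H₂` on `L`
with `U`.  Then `E f (J ξ) = f 1 • P (J ξ)`.
-/

set_option linter.all false

open MeasureTheory Filter Topology
open scoped ZeroAtInfty InnerProductSpace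

namespace Vale.Agent.P092.H821

open Vale.Agent.P092.H978

section ideal

variable {X : Type*} [TopologicalSpace X]

/-- a closed ideal of `C₀(X)` which is not contained in the kernel of the evaluation at any point
other than `x₀` contains all functions vanishing at `x₀`. -/
theorem mem_ideal (Z : C₀(X, ℂ) → Prop) (h0 : Z 0) (hadd : ∀ f g, Z f → Z g → Z (f + g))
    (hmul : ∀ f g, Z g → Z (f * g))
    (hcl : ∀ f, (∀ ε : ℝ, 0 < ε → ∃ g, Z g ∧ ‖f - g‖ ≤ ε) → Z f) {x₀ : X}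
    (hz : ∀ z, z ≠ x₀ → ∃ g, Z g ∧ g z ≠ 0) (f : C₀(X, ℂ)) (hf : f x₀ = 0) : Z f := by
  suffices h : ∀ ε : ℝ, ∀ hε : 0 < ε, Z (soft f ε hε) by
    exact hcl f fun ε hε => ⟨_, h ε hε, norm_sub_soft_le f ε hε⟩
  intro ε hε
  have hK : IsCompact {x | ε ≤ ‖f x‖} := by
    have h0 : ∀ᶠ x in cocompact X, ‖f x‖ < ε := by
      have := (f.zero_at_infty').norm
      rw [norm_zero] at this
      exact this.eventually (gt_mem_nhds hε)
    obtain ⟨K, hK, hKs⟩ := (mem_cocompact.1 h0)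
    refine hK.of_isClosed_subset (isClosed_le continuous_const (map_continuous f).norm) ?_
    intro x hx
    by_contra hxK
    have := hKs hxK
    simp only [Set.mem_ofPred_eq] at this hx
    linarith
  have hcov : ∀ x ∈ {x | ε ≤ ‖f x‖}, ∃ g : C₀(X, ℂ), Z g ∧ g x ≠ 0 := by
    intro x hx
    refine hz x fun hxe => ?_
    subst hxe
    simp only [Set.mem_ofPred_eq, hf, norm_zero] at hx
    linarith
  choose! g hg0 hgne using hcov
  obtain ⟨t, htc⟩ := hK.elim_nhds_subcover' (fun x _ => {y | g x y ≠ 0}) (fun x hx =>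
    (isOpen_ne_fun (map_continuous (g x)) continuous_const).mem_nhds (hgne x hx))
  set F : C₀(X, ℂ) := ∑ x ∈ t, star (g x.1) * g x.1 with hF
  have hZs : ∀ s : Finset {x | ε ≤ ‖f x‖}, Z (∑ x ∈ s, star (g x.1) * g x.1) := by
    intro s
    classical
    induction s using Finset.induction_on with
    | empty => simpa using h0
    | insert a s ha ih =>
      rw [Finset.sum_insert ha]
      exact hadd _ _ (hmul _ _ (hg0 _ a.2)) ih
  have hZF : Z F := hZs t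
  have hFx : ∀ y, F y = ((∑ x ∈ t, ‖g x.1 y‖ ^ 2 : ℝ) : ℂ) := by
    intro y
    have h1 : F y = ∑ x ∈ t, (star (g x.1) * g x.1 : C₀(X, ℂ)) y := by
      exact map_sum (evl y) (fun x : {x | ε ≤ ‖f x‖} => (star (g x.1) * g x.1 : C₀(X, ℂ))) t
    rw [h1]
    push_cast
    refine Finset.sum_congr rfl fun x _ => ?_
    rw [ZeroAtInftyContinuousMap.mul_apply, ZeroAtInftyContinuousMap.star_apply]
    exact Complex.conj_mul' _
  set G : X → ℝ := fun y => ∑ x ∈ t, ‖g x.1 y‖ ^ 2 with hG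
  have hGc : Continuous G := by
    rw [hG]
    exact continuous_finsetSum _ fun x _ => ((map_continuous (g x.1)).norm).pow 2
  have hGpos : ∀ y ∈ {x | ε ≤ ‖f x‖}, 0 < G y := by
    intro y hy
    obtain ⟨x, hx, hxy⟩ := Set.mem_iUnion₂.1 (htc hy)
    refine Finset.sum_pos' (fun _ _ => by positivity) ⟨x, hx, ?_⟩
    have : g x.1 y ≠ 0 := hxy
    positivity
  obtain ⟨δ, hδ, hδG⟩ : ∃ δ : ℝ, 0 < δ ∧ ∀ y ∈ {x | ε ≤ ‖f x‖}, δ ≤ G y := by
    rcases Set.eq_empty_or_nonempty {x | ε ≤ ‖f x‖} with h | h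
    · exact ⟨1, one_pos, by rw [h]; simp⟩
    · obtain ⟨y, hy, hmin⟩ := hK.exists_isMinOn h hGc.continuousOn
      exact ⟨G y, hGpos y hy, fun z hz => hmin hz⟩
  set q : C₀(X, ℂ) := bmul (soft f ε hε) (fun y => (((max (G y) δ)⁻¹ : ℝ) : ℂ))
    (by
      refine Complex.continuous_ofReal.comp (Continuous.inv₀ (hGc.max continuous_const) ?_)
      intro y
      exact (lt_of_lt_of_le hδ (le_max_right _ _)).ne')
    δ⁻¹ (by
      intro y
      rw [Complex.norm_real, Real.norm_eq_abs, abs_of_nonneg (by positivity)]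
      exact inv_anti₀ hδ (le_max_right _ _)) with hq
  have hqF : soft f ε hε = q * F := by
    ext y
    rw [ZeroAtInftyContinuousMap.mul_apply, hFx, hq, bmul_apply]
    by_cases hy : ε ≤ ‖f y‖
    · have h1 : max (G y) δ = G y := max_eq_left (hδG y hy)
      have h2 : G y ≠ 0 := (hGpos y hy).ne'
      have h3 : ((G y : ℝ) : ℂ) ≠ 0 := by exact_mod_cast h2
      rw [h1]
      change _ = soft f ε hε y * _ * ((G y : ℝ) : ℂ)
      push_cast
      rw [mul_assoc, inv_mul_cancel₀ h3, mul_one]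
    · rw [soft_zero f ε hε y (not_le.1 hy).le]
      simp
  rw [hqF]
  exact hmul _ _ hZF

end ideal

section main

variable {Γ H₁ H₂ L M : Type} [Group Γ] [Group H₁] [TopologicalSpace H₁] [IsTopologicalGroup H₁]
  [T2Space H₁] [LocallyCompactSpace H₁] [Group H₂] [TopologicalSpace H₂] [IsTopologicalGroup H₂]
  [MeasurableSpace (H₁ × H₂)] [OpensMeasurableSpace (H₁ × H₂)]
  [NormedAddCommGroup L] [InnerProductSpace ℂ L]
  [NormedAddCommGroup M] [InnerProductSpace ℂ M] [CompleteSpace M]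
  {κ₁ : Γ →* H₁} {κ₂ : Γ →* H₂} {m : Measure (H₁ × H₂)}
  {α : H₂ →* (L →L[ℂ] L)} {E : C₀(H₁, ℂ) →⋆ₙₐ[ℂ] (M →L[ℂ] M)} {U : Γ → M → M} {J : L →L[ℂ] M}

/-- the function which is averaged -/
noncomputable def Fj (α : H₂ →* (L →L[ℂ] L)) (E : C₀(H₁, ℂ) →⋆ₙₐ[ℂ] (M →L[ℂ] M)) (J : L →L[ℂ] M)
    (ξ : L) (g : C₀(H₁, ℂ)) (h : H₁ × H₂) : ℝ := ‖E (cjF h.1 g) (J (α h.2 ξ))‖ ^ 2

theorem Fj_nonneg (ξ : L) (g : C₀(H₁, ℂ)) (h : H₁ × H₂) : 0 ≤ Fj α E J ξ g h := by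
  unfold Fj; positivity

theorem norm_Jα (hα : ∀ h x, ‖α h x‖ = ‖x‖) (ξ : L) (h : H₂) : ‖J (α h ξ)‖ ≤ ‖J‖ * ‖ξ‖ := by
  rw [← hα h ξ]; exact J.le_opNorm _

theorem Fj_le (hα : ∀ h x, ‖α h x‖ = ‖x‖) (ξ : L) (g : C₀(H₁, ℂ)) (h : H₁ × H₂) :
    Fj α E J ξ g h ≤ (‖g‖ * (‖J‖ * ‖ξ‖)) ^ 2 := by
  unfold Fj
  refine pow_le_pow_left₀ (norm_nonneg _) ((norm_E_le E _ _).trans ?_) 2
  exact mul_le_mul (norm_cjF_le _ _) (norm_Jα hα ξ _) (norm_nonneg _) (norm_nonneg _)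

theorem continuous_Fj (hc : ∀ x, Continuous fun h => α h x) (ξ : L) (g : C₀(H₁, ℂ)) :
    Continuous (Fj α E J ξ g) := by
  have hE : Continuous E := AddMonoidHomClass.continuous_of_bound E 1 fun x => by
      rw [one_mul]; exact NonUnitalStarAlgHom.norm_apply_le E x
  unfold Fj
  refine Continuous.pow (Continuous.norm ?_) 2
  refine Continuous.clm_apply ?_ ?_
  · exact hE.comp ((continuous_cjF g).comp continuous_fst)
  · exact J.continuous.comp ((hc ξ).comp continuous_snd)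

theorem Fj_mul_right (ξ : L) (g : C₀(H₁, ℂ)) (h : H₁ × H₂) (s : H₁) :
    Fj α E J ξ g (h * (s, 1)) = Fj α E J ξ (cjF s g) h := by
  unfold Fj
  rw [cjF_cjF, Prod.fst_mul, Prod.snd_mul, mul_one]

theorem Fj_inv (hU : ∀ g x, ‖U g x‖ = ‖x‖) (hUJ : ∀ g ξ, J (α (κ₂ g) ξ) = U g (J ξ))
    (hcov : ∀ g f ξ, E (cjF (κ₁ g) f) (U g ξ) = U g (E f ξ)) (ξ : L) (g : C₀(H₁, ℂ))
    (v : Γ) (h : H₁ × H₂) : Fj α E J ξ g ((κ₁.prod κ₂) v * h) = Fj α E J ξ g h := by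
  unfold Fj
  have e1 : ((κ₁.prod κ₂) v * h).1 = κ₁ v * h.1 := rfl
  have e2 : ((κ₁.prod κ₂) v * h).2 = κ₂ v * h.2 := rfl
  have e3 : α (κ₂ v * h.2) ξ = α (κ₂ v) (α h.2 ξ) := by rw [map_mul]; rfl
  rw [e1, e2, ← cjF_cjF, e3, hUJ, hcov, hU]

/-- near every point other than `1` there is a function killed by `E` on `J L` -/
theorem exists_kill (hm : PA.Lat (κ₁.prod κ₂) m) (hα : ∀ h x, ‖α h x‖ = ‖x‖)
    (hc : ∀ x, Continuous fun h => α h x) (hU : ∀ g x, ‖U g x‖ = ‖x‖)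
    (hUJ : ∀ g ξ, J (α (κ₂ g) ξ) = U g (J ξ))
    (hcov : ∀ g f ξ, E (cjF (κ₁ g) f) (U g ξ) = U g (E f ξ))
    (hrec : ∀ z : H₁, z ≠ 1 → ∃ U ∈ 𝓝 z, ∃ a : ℕ → H₁,
      Pairwise fun i j => Disjoint ((fun y => a i * y * (a i)⁻¹) '' U)
        ((fun y => a j * y * (a j)⁻¹) '' U)) (z : H₁) (hne : z ≠ 1) :
    ∃ g : C₀(H₁, ℂ), (∀ ξ, E g (J ξ) = 0) ∧ g z ≠ 0 := by
  obtain ⟨W, hW, a, ha⟩ := hrec z hne
  obtain ⟨g, hg1, hg0⟩ := exists_bump hW
  have hprob : IsProbabilityMeasure m := hm.prob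
  refine ⟨g, fun ξ => ?_, by rw [hg1]; exact one_ne_zero⟩
  have hbd : ∀ (f : C₀(H₁, ℂ)) h, Fj α E J ξ f h ≤ (‖f‖ * (‖J‖ * ‖ξ‖)) ^ 2 :=
    fun f h => Fj_le hα ξ f h
  have hnn : ∀ (f : C₀(H₁, ℂ)) h, 0 ≤ Fj α E J ξ f h := fun f h => Fj_nonneg ξ f h
  have hcont : ∀ f : C₀(H₁, ℂ), Continuous (Fj α E J ξ f) := fun f => continuous_Fj hc ξ f
  have hint : ∀ f : C₀(H₁, ℂ), Integrable (Fj α E J ξ f) m := fun f =>
    Integrable.of_bound (hcont f).aestronglyMeasurable ((‖f‖ * (‖J‖ * ‖ξ‖)) ^ 2)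
      (Eventually.of_forall fun h => by
        rw [Real.norm_of_nonneg (hnn f h)]; exact hbd f h)
  have hav : ∀ s : H₁, ∫ h, Fj α E J ξ (cjF s g) h ∂m = ∫ h, Fj α E J ξ g h ∂m := by
    intro s
    have h1 := hm.inv (fun h => ((Fj α E J ξ g h : ℝ) : ℂ))
      (Complex.continuous_ofReal.comp (hcont g))
      ⟨(‖g‖ * (‖J‖ * ‖ξ‖)) ^ 2, fun h => by
        rw [Complex.norm_real, Real.norm_of_nonneg (hnn g h)]; exact hbd g h⟩
      (fun v h => by rw [Fj_inv hU hUJ hcov]) (s, 1)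
    simp only [Fj_mul_right] at h1
    rw [integral_complex_ofReal, integral_complex_ofReal] at h1
    exact_mod_cast h1
  have hsum : ∀ N : ℕ, (N : ℝ) * ∫ h, Fj α E J ξ g h ∂m ≤ (‖g‖ * (‖J‖ * ‖ξ‖)) ^ 2 := by
    intro N
    have h1 : ∑ i ∈ Finset.range N, ∫ h, Fj α E J ξ (cjF (a i) g) h ∂m =
        (N : ℝ) * ∫ h, Fj α E J ξ g h ∂m := by
      rw [Finset.sum_congr rfl fun i _ => hav (a i)]
      simp
    rw [← h1, ← integral_finsetSum _ fun i _ => hint _]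
    have h2 : ∀ h, ∑ i ∈ Finset.range N, Fj α E J ξ (cjF (a i) g) h ≤
        (‖g‖ * (‖J‖ * ‖ξ‖)) ^ 2 := by
      intro h
      unfold Fj
      have h3 := sum_le E (fun i => cjF h.1 (cjF (a i) g)) (C := ‖g‖) ?_ (norm_nonneg _) ?_
        (J (α h.2 ξ)) N
      · refine h3.trans (pow_le_pow_left₀ (by positivity) ?_ 2)
        exact mul_le_mul_of_nonneg_left (norm_Jα hα ξ _) (norm_nonneg _)
      · intro i j hij t
        by_contra hcon
        push Not at hcon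
        obtain ⟨h4, h5⟩ := hcon
        simp only [cjF_apply] at h4 h5
        set y := h.1⁻¹ * t * h.1 with hy
        have h6 : (a i)⁻¹ * y * a i ∈ W := by
          by_contra h7; exact h4 (hg0 _ h7)
        have h7 : (a j)⁻¹ * y * a j ∈ W := by
          by_contra h7; exact h5 (hg0 _ h7)
        have h8 : y ∈ (fun y => a i * y * (a i)⁻¹) '' W :=
          ⟨_, h6, by change a i * ((a i)⁻¹ * y * a i) * (a i)⁻¹ = y; group⟩
        have h9 : y ∈ (fun y => a j * y * (a j)⁻¹) '' W :=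
          ⟨_, h7, by change a j * ((a j)⁻¹ * y * a j) * (a j)⁻¹ = y; group⟩
        exact Set.disjoint_left.1 (ha hij) h8 h9
      · intro i t
        simp only [cjF_apply]
        exact apply_le_norm g _
    calc ∫ h, ∑ i ∈ Finset.range N, Fj α E J ξ (cjF (a i) g) h ∂m
        ≤ ∫ h, (‖g‖ * (‖J‖ * ‖ξ‖)) ^ 2 ∂m :=
          integral_mono (integrable_finsetSum _ fun i _ => hint _) (integrable_const _) h2
      _ = (‖g‖ * (‖J‖ * ‖ξ‖)) ^ 2 := by simp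
  have h0 : 0 ≤ ∫ h, Fj α E J ξ g h ∂m := integral_nonneg fun h => hnn g h
  have hzero : ∫ h, Fj α E J ξ g h ∂m = 0 := by
    by_contra hcon
    have hpos : 0 < ∫ h, Fj α E J ξ g h ∂m := lt_of_le_of_ne h0 (Ne.symm hcon)
    obtain ⟨N, hN⟩ := exists_nat_gt ((‖g‖ * (‖J‖ * ‖ξ‖)) ^ 2 / ∫ h, Fj α E J ξ g h ∂m)
    rw [div_lt_iff₀ hpos] at hN
    linarith [hsum N]
  have h1 := hm.faith (Fj α E J ξ g) (hcont g) ⟨_, hbd g⟩ (hnn g)
    (fun v h => Fj_inv hU hUJ hcov ξ g v h) hzero 1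
  unfold Fj at h1
  rw [Prod.fst_one, Prod.snd_one, cjF_one, map_one] at h1
  have h2 : ‖E g (J ξ)‖ = 0 := by
    have h3 : (1 : L →L[ℂ] L) ξ = ξ := rfl
    rw [h3] at h1
    exact pow_eq_zero_iff (two_ne_zero) |>.1 h1
  exact norm_eq_zero.1 h2

/-- **[Q-DIFF], second abstract form**: `E f` vanishes on `J L` if `f 1 = 0`. -/
theorem E_zero (hm : PA.Lat (κ₁.prod κ₂) m) (hα : ∀ h x, ‖α h x‖ = ‖x‖)
    (hc : ∀ x, Continuous fun h => α h x) (hU : ∀ g x, ‖U g x‖ = ‖x‖)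
    (hUJ : ∀ g ξ, J (α (κ₂ g) ξ) = U g (J ξ))
    (hcov : ∀ g f ξ, E (cjF (κ₁ g) f) (U g ξ) = U g (E f ξ))
    (hrec : ∀ z : H₁, z ≠ 1 → ∃ U ∈ 𝓝 z, ∃ a : ℕ → H₁,
      Pairwise fun i j => Disjoint ((fun y => a i * y * (a i)⁻¹) '' U)
        ((fun y => a j * y * (a j)⁻¹) '' U)) (f : C₀(H₁, ℂ)) (hf : f 1 = 0) (ξ : L) :
    E f (J ξ) = 0 := by
  refine mem_ideal (fun f => ∀ ξ, E f (J ξ) = 0) ?_ ?_ ?_ ?_
    (exists_kill hm hα hc hU hUJ hcov hrec) f hf ξ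
  · intro ξ; rw [map_zero]; rfl
  · intro f g h1 h2 ξ
    rw [map_add, add_apply, h1, h2, add_zero]
  · intro f g h ξ
    rw [map_mul, mul_apply_eq_comp, h, map_zero]
  · intro f h ξ
    refine norm_le_zero_iff.1 (le_of_forall_pos_le_add fun ε hε => ?_)
    obtain ⟨g, hg, hfg⟩ := h (ε / (‖J ξ‖ + 1)) (by positivity)
    have e : E f (J ξ) = E (f - g) (J ξ) := by
      rw [map_sub, sub_apply, hg, sub_zero]
    rw [e, zero_add]
    calc ‖E (f - g) (J ξ)‖ ≤ ‖f - g‖ * ‖J ξ‖ := norm_E_le E _ _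
      _ ≤ ε / (‖J ξ‖ + 1) * (‖J ξ‖ + 1) := by
          gcongr
          linarith
      _ = ε := by field_simp

/-- the values of `E` on `J L` -/
theorem E_eq (hm : PA.Lat (κ₁.prod κ₂) m) (hα : ∀ h x, ‖α h x‖ = ‖x‖)
    (hc : ∀ x, Continuous fun h => α h x) (hU : ∀ g x, ‖U g x‖ = ‖x‖)
    (hUJ : ∀ g ξ, J (α (κ₂ g) ξ) = U g (J ξ))
    (hcov : ∀ g f ξ, E (cjF (κ₁ g) f) (U g ξ) = U g (E f ξ))
    (hrec : ∀ z : H₁, z ≠ 1 → ∃ U ∈ 𝓝 z, ∃ a : ℕ → H₁,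
      Pairwise fun i j => Disjoint ((fun y => a i * y * (a i)⁻¹) '' U)
        ((fun y => a j * y * (a j)⁻¹) '' U)) :
    ∃ P : M →L[ℂ] M, ∀ (f : C₀(H₁, ℂ)) (ξ : L), E f (J ξ) = f 1 • P (J ξ) := by
  obtain ⟨u, hu⟩ := exists_unit_at (H := H₁)
  refine ⟨E u, fun f ξ => ?_⟩
  have h1 := E_zero hm hα hc hU hUJ hcov hrec (f - f 1 • u) (by
    change f 1 - f 1 * u 1 = 0
    rw [hu, mul_one, sub_self]) ξ
  rw [map_sub, map_smul, sub_apply, smul_apply, sub_eq_zero] at h1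
  exact h1

end main

end Vale.Agent.P092.H821
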