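import Vale.Agent.P092.H821.Diff2

/-!
P092-Q (helper821), block [Q-DIFF], abstract part, third form: as `Diff2`, for a lattice
`q : Γ → EE` in a group with two projections `π₁ : EE → H₁`, `π₂ : EE → H₂` such that the kernel of
`π₂` is mapped onto `H₁` by `π₁`.
-/

set_option linter.all false

open MeasureTheory Filter Topology
open scoped ZeroAtInfty InnerProductSpace

namespace Vale.Agent.P092.H821

open Vale.Agent.P092.H978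

section main

variable {Γ H₁ H₂ EE L M : Type} [Group Γ] [Group H₁] [TopologicalSpace H₁] [IsTopologicalGroup H₁]
  [T2Space H₁] [LocallyCompactSpace H₁] [Group H₂] [TopologicalSpace H₂] [IsTopologicalGroup H₂]
  [Group EE] [TopologicalSpace EE] [MeasurableSpace EE] [OpensMeasurableSpace EE]
  [NormedAddCommGroup L] [InnerProductSpace ℂ L]
  [NormedAddCommGroup M] [InnerProductSpace ℂ M] [CompleteSpace M]
  {κ₁ : Γ →* H₁} {κ₂ : Γ →* H₂} {q : Γ →* EE} {π₁ : EE →* H₁} {π₂ : EE →* H₂} {m : Measure EE}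
  {α : H₂ →* (L →L[ℂ] L)} {E : C₀(H₁, ℂ) →⋆ₙₐ[ℂ] (M →L[ℂ] M)} {U : Γ → M → M} {J : L →L[ℂ] M}

/-- the function which is averaged -/
noncomputable def Fk (π₁ : EE →* H₁) (π₂ : EE →* H₂) (α : H₂ →* (L →L[ℂ] L))
    (E : C₀(H₁, ℂ) →⋆ₙₐ[ℂ] (M →L[ℂ] M)) (J : L →L[ℂ] M)
    (ξ : L) (g : C₀(H₁, ℂ)) (h : EE) : ℝ := ‖E (cjF (π₁ h) g) (J (α (π₂ h) ξ))‖ ^ 2

theorem Fk_nonneg (ξ : L) (g : C₀(H₁, ℂ)) (h : EE) : 0 ≤ Fk π₁ π₂ α E J ξ g h := by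
  unfold Fk; positivity

theorem Fk_le (hα : ∀ h x, ‖α h x‖ = ‖x‖) (ξ : L) (g : C₀(H₁, ℂ)) (h : EE) :
    Fk π₁ π₂ α E J ξ g h ≤ (‖g‖ * (‖J‖ * ‖ξ‖)) ^ 2 := by
  unfold Fk
  refine pow_le_pow_left₀ (norm_nonneg _) ((norm_E_le E _ _).trans ?_) 2
  exact mul_le_mul (norm_cjF_le _ _) (norm_Jα hα ξ _) (norm_nonneg _) (norm_nonneg _)

theorem continuous_Fk (h₁ : Continuous π₁) (h₂ : Continuous π₂)
    (hc : ∀ x, Continuous fun h => α h x) (ξ : L) (g : C₀(H₁, ℂ)) :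
    Continuous (Fk π₁ π₂ α E J ξ g) := by
  have hE : Continuous E := AddMonoidHomClass.continuous_of_bound E 1 fun x => by
      rw [one_mul]; exact NonUnitalStarAlgHom.norm_apply_le E x
  unfold Fk
  refine Continuous.pow (Continuous.norm ?_) 2
  refine Continuous.clm_apply ?_ ?_
  · exact hE.comp ((continuous_cjF g).comp h₁)
  · exact J.continuous.comp ((hc ξ).comp h₂)

theorem Fk_mul_right (ξ : L) (g : C₀(H₁, ℂ)) (h s : EE) (hs : π₂ s = 1) :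
    Fk π₁ π₂ α E J ξ g (h * s) = Fk π₁ π₂ α E J ξ (cjF (π₁ s) g) h := by
  unfold Fk
  rw [cjF_cjF, map_mul, map_mul, hs, mul_one]

theorem Fk_inv (hq₁ : ∀ g, κ₁ g = π₁ (q g)) (hq₂ : ∀ g, κ₂ g = π₂ (q g))
    (hU : ∀ g x, ‖U g x‖ = ‖x‖) (hUJ : ∀ g ξ, J (α (κ₂ g) ξ) = U g (J ξ))
    (hcov : ∀ g f ξ, E (cjF (κ₁ g) f) (U g ξ) = U g (E f ξ)) (ξ : L) (g : C₀(H₁, ℂ))
    (v : Γ) (h : EE) : Fk π₁ π₂ α E J ξ g (q v * h) = Fk π₁ π₂ α E J ξ g h := by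
  unfold Fk
  have e3 : α (κ₂ v * π₂ h) ξ = α (κ₂ v) (α (π₂ h) ξ) := by rw [map_mul]; rfl
  rw [map_mul, map_mul, ← hq₁, ← hq₂, ← cjF_cjF, e3, hUJ, hcov, hU]

/-- near every point other than `1` there is a function killed by `E` on `J L` -/
theorem exists_kill3 (h₁ : Continuous π₁) (h₂ : Continuous π₂)
    (hs : ∀ k : H₁, ∃ e : EE, π₁ e = k ∧ π₂ e = 1)
    (hq₁ : ∀ g, κ₁ g = π₁ (q g)) (hq₂ : ∀ g, κ₂ g = π₂ (q g))
    (hm : PA.Lat q m) (hα : ∀ h x, ‖α h x‖ = ‖x‖)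
    (hc : ∀ x, Continuous fun h => α h x) (hU : ∀ g x, ‖U g x‖ = ‖x‖)
    (hUJ : ∀ g ξ, J (α (κ₂ g) ξ) = U g (J ξ))
    (hcov : ∀ g f ξ, E (cjF (κ₁ g) f) (U g ξ) = U g (E f ξ))
    (hrec : ∀ z : H₁, z ≠ 1 → ∃ U ∈ 𝓝 z, ∃ a : ℕ → H₁,
      Pairwise fun i j => Disjoint ((fun y => a i * y * (a i)⁻¹) '' U)
        ((fun y => a j * y * (a j)⁻¹) '' U)) (z : H₁) (hne : z ≠ 1) :
    ∃ g : C₀(H₁, ℂ), (∀ ξ, E g (J ξ) = 0) ∧ g z ≠ 0 := by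
  obtain ⟨W, hW, a, ha⟩ := hrec z hne
  obtain ⟨g, hg1, hg0⟩ := exists_bump hW
  have hprob : IsProbabilityMeasure m := hm.prob
  refine ⟨g, fun ξ => ?_, by rw [hg1]; exact one_ne_zero⟩
  have hbd : ∀ (f : C₀(H₁, ℂ)) h, Fk π₁ π₂ α E J ξ f h ≤ (‖f‖ * (‖J‖ * ‖ξ‖)) ^ 2 :=
    fun f h => Fk_le hα ξ f h
  have hnn : ∀ (f : C₀(H₁, ℂ)) h, 0 ≤ Fk π₁ π₂ α E J ξ f h := fun f h => Fk_nonneg ξ f h
  have hcont : ∀ f : C₀(H₁, ℂ), Continuous (Fk π₁ π₂ α E J ξ f) := fun f =>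
    continuous_Fk h₁ h₂ hc ξ f
  have hint : ∀ f : C₀(H₁, ℂ), Integrable (Fk π₁ π₂ α E J ξ f) m := fun f =>
    Integrable.of_bound (hcont f).aestronglyMeasurable ((‖f‖ * (‖J‖ * ‖ξ‖)) ^ 2)
      (Eventually.of_forall fun h => by
        rw [Real.norm_of_nonneg (hnn f h)]; exact hbd f h)
  have hav : ∀ s : H₁, ∫ h, Fk π₁ π₂ α E J ξ (cjF s g) h ∂m = ∫ h, Fk π₁ π₂ α E J ξ g h ∂m := by
    intro s
    obtain ⟨s', hs1, hs2⟩ := hs s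
    have h1 := hm.inv (fun h => ((Fk π₁ π₂ α E J ξ g h : ℝ) : ℂ))
      (Complex.continuous_ofReal.comp (hcont g))
      ⟨(‖g‖ * (‖J‖ * ‖ξ‖)) ^ 2, fun h => by
        rw [Complex.norm_real, Real.norm_of_nonneg (hnn g h)]; exact hbd g h⟩
      (fun v h => by rw [Fk_inv hq₁ hq₂ hU hUJ hcov]) s'
    simp only [Fk_mul_right _ _ _ _ hs2, hs1] at h1
    rw [integral_complex_ofReal, integral_complex_ofReal] at h1
    exact_mod_cast h1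
  have hsum : ∀ N : ℕ, (N : ℝ) * ∫ h, Fk π₁ π₂ α E J ξ g h ∂m ≤ (‖g‖ * (‖J‖ * ‖ξ‖)) ^ 2 := by
    intro N
    have h1 : ∑ i ∈ Finset.range N, ∫ h, Fk π₁ π₂ α E J ξ (cjF (a i) g) h ∂m =
        (N : ℝ) * ∫ h, Fk π₁ π₂ α E J ξ g h ∂m := by
      rw [Finset.sum_congr rfl fun i _ => hav (a i)]
      simp
    rw [← h1, ← integral_finsetSum _ fun i _ => hint _]
    have h2 : ∀ h, ∑ i ∈ Finset.range N, Fk π₁ π₂ α E J ξ (cjF (a i) g) h ≤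
        (‖g‖ * (‖J‖ * ‖ξ‖)) ^ 2 := by
      intro h
      unfold Fk
      have h3 := sum_le E (fun i => cjF (π₁ h) (cjF (a i) g)) (C := ‖g‖) ?_ (norm_nonneg _) ?_
        (J (α (π₂ h) ξ)) N
      · refine h3.trans (pow_le_pow_left₀ (by positivity) ?_ 2)
        exact mul_le_mul_of_nonneg_left (norm_Jα hα ξ _) (norm_nonneg _)
      · intro i j hij t
        by_contra hcon
        push Not at hcon
        obtain ⟨h4, h5⟩ := hcon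
        simp only [cjF_apply] at h4 h5
        set y := (π₁ h)⁻¹ * t * π₁ h with hy
        have h6 : (a i)⁻¹ * y * a i ∈ W := by
          by_contra h7; exact h4 (hg0 _ h7)
        have h7 : (a j)⁻¹ * y * a j ∈ W := by
          by_contra h7; exact h5 (hg0 _ h7)
        have h8 : y ∈ (fun y => a i * y * (a i)⁻¹) '' W :=
          ⟨_, h6, by change a i * ((a i)⁻¹ * y * a i) * (a i)⁻¹ = y; group⟩
        have h9 : y ∈ (fun y => a j * y * (a j)⁻¹) '' W :=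
          ⟨_, h7, by change a j * ((a j)⁻¹ * y * a j) * (a j)⁻¹ = y; group⟩
        exact Set.disjoint_left.1 (ha hij) h8 h9
      · intro i t
        simp only [cjF_apply]
        exact apply_le_norm g _
    calc ∫ h, ∑ i ∈ Finset.range N, Fk π₁ π₂ α E J ξ (cjF (a i) g) h ∂m
        ≤ ∫ h, (‖g‖ * (‖J‖ * ‖ξ‖)) ^ 2 ∂m :=
          integral_mono (integrable_finsetSum _ fun i _ => hint _) (integrable_const _) h2
      _ = (‖g‖ * (‖J‖ * ‖ξ‖)) ^ 2 := by simp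
  have h0 : 0 ≤ ∫ h, Fk π₁ π₂ α E J ξ g h ∂m := integral_nonneg fun h => hnn g h
  have hzero : ∫ h, Fk π₁ π₂ α E J ξ g h ∂m = 0 := by
    by_contra hcon
    have hpos : 0 < ∫ h, Fk π₁ π₂ α E J ξ g h ∂m := lt_of_le_of_ne h0 (Ne.symm hcon)
    obtain ⟨N, hN⟩ := exists_nat_gt ((‖g‖ * (‖J‖ * ‖ξ‖)) ^ 2 / ∫ h, Fk π₁ π₂ α E J ξ g h ∂m)
    rw [div_lt_iff₀ hpos] at hN
    linarith [hsum N]
  have h1 := hm.faith (Fk π₁ π₂ α E J ξ g) (hcont g) ⟨_, hbd g⟩ (hnn g)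
    (fun v h => Fk_inv hq₁ hq₂ hU hUJ hcov ξ g v h) hzero 1
  unfold Fk at h1
  rw [map_one π₁, map_one π₂, cjF_one, map_one α] at h1
  have h2 : ‖E g (J ξ)‖ = 0 := by
    have h3 : (1 : L →L[ℂ] L) ξ = ξ := rfl
    rw [h3] at h1
    exact pow_eq_zero_iff (two_ne_zero) |>.1 h1
  exact norm_eq_zero.1 h2

/-- **[Q-DIFF], third abstract form** -/
theorem E_zero3 (h₁ : Continuous π₁) (h₂ : Continuous π₂)
    (hs : ∀ k : H₁, ∃ e : EE, π₁ e = k ∧ π₂ e = 1)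
    (hq₁ : ∀ g, κ₁ g = π₁ (q g)) (hq₂ : ∀ g, κ₂ g = π₂ (q g))
    (hm : PA.Lat q m) (hα : ∀ h x, ‖α h x‖ = ‖x‖)
    (hc : ∀ x, Continuous fun h => α h x) (hU : ∀ g x, ‖U g x‖ = ‖x‖)
    (hUJ : ∀ g ξ, J (α (κ₂ g) ξ) = U g (J ξ))
    (hcov : ∀ g f ξ, E (cjF (κ₁ g) f) (U g ξ) = U g (E f ξ))
    (hrec : ∀ z : H₁, z ≠ 1 → ∃ U ∈ 𝓝 z, ∃ a : ℕ → H₁,
      Pairwise fun i j => Disjoint ((fun y => a i * y * (a i)⁻¹) '' U)
        ((fun y => a j * y * (a j)⁻¹) '' U)) (f : C₀(H₁, ℂ)) (hf : f 1 = 0) (ξ : L) :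
    E f (J ξ) = 0 := by
  refine mem_ideal (fun f => ∀ ξ, E f (J ξ) = 0) ?_ ?_ ?_ ?_
    (exists_kill3 h₁ h₂ hs hq₁ hq₂ hm hα hc hU hUJ hcov hrec) f hf ξ
  · intro ξ; rw [map_zero]; rfl
  · intro f g h1 h2 ξ
    rw [map_add, add_apply, h1, h2, add_zero]
  · intro f g h ξ
    rw [map_mul, mul_apply_eq_comp, h, map_zero]
  · intro f h ξ
    refine norm_le_zero_iff.1 (le_of_forall_pos_le_add fun ε hε => ?_)
    obtain ⟨g, hg, hfg⟩ := h (ε / (‖J ξ‖ + 1)) (by positivity)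
    have e : E f (J ξ) = E (f - g) (J ξ) := by
      rw [map_sub, sub_apply, hg, sub_zero]
    rw [e, zero_add]
    calc ‖E (f - g) (J ξ)‖ ≤ ‖f - g‖ * ‖J ξ‖ := norm_E_le E _ _
      _ ≤ ε / (‖J ξ‖ + 1) * (‖J ξ‖ + 1) := by
          gcongr
          linarith
      _ = ε := by field_simp

/-- the values of `E` on `J L` -/
theorem E_eq3 (h₁ : Continuous π₁) (h₂ : Continuous π₂)
    (hs : ∀ k : H₁, ∃ e : EE, π₁ e = k ∧ π₂ e = 1)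
    (hq₁ : ∀ g, κ₁ g = π₁ (q g)) (hq₂ : ∀ g, κ₂ g = π₂ (q g))
    (hm : PA.Lat q m) (hα : ∀ h x, ‖α h x‖ = ‖x‖)
    (hc : ∀ x, Continuous fun h => α h x) (hU : ∀ g x, ‖U g x‖ = ‖x‖)
    (hUJ : ∀ g ξ, J (α (κ₂ g) ξ) = U g (J ξ))
    (hcov : ∀ g f ξ, E (cjF (κ₁ g) f) (U g ξ) = U g (E f ξ))
    (hrec : ∀ z : H₁, z ≠ 1 → ∃ U ∈ 𝓝 z, ∃ a : ℕ → H₁,
      Pairwise fun i j => Disjoint ((fun y => a i * y * (a i)⁻¹) '' U)
        ((fun y => a j * y * (a j)⁻¹) '' U)) :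
    ∃ P : M →L[ℂ] M, ∀ (f : C₀(H₁, ℂ)) (ξ : L), E f (J ξ) = f 1 • P (J ξ) := by
  obtain ⟨u, hu⟩ := exists_unit_at (H := H₁)
  refine ⟨E u, fun f ξ => ?_⟩
  have h1 := E_zero3 h₁ h₂ hs hq₁ hq₂ hm hα hc hU hUJ hcov hrec (f - f 1 • u) (by
    change f 1 - f 1 * u 1 = 0
    rw [hu, mul_one, sub_self]) ξ
  rw [map_sub, map_smul, sub_apply, smul_apply, sub_eq_zero] at h1
  exact h1

end main

end Vale.Agent.P092.H821
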