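import Vale.Agent.P092.H183.DV1
import Vale.Agent.P092.H103.QH4

/-!
P092 (helper821), block CLASS-H: the isometry group is generated by the transvections and the dilations of
the hyperbolic planes; for hermitian forms (`ε = 1`) over a quaternion division algebra it is generated by
the transvections.
-/

set_option linter.all false

open Matrix

namespace Vale.Agent.P092.H821.HS

open Vale.Agent.P092.H103.QH
open Vale.Agent.P092.H183.DV

section basic

variable {n : Type*} [Fintype n] [DecidableEq n] {D : Type*} [DivisionRing D] [StarRing D]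
  {ε : D} {J : Matrix n n D}

section hyp
variable (hF : Frm ε J) {u w : n → D} (hu : hf J u u = 0) (hw : hf J w w = 0)
  (huw : hf J u w = 1)
include hF hu hw huw

/-- The product of an isotropic vector of the plane. -/
theorem iso_comb {a b : D} (h : hf J (a • u + b • w) (a • u + b • w) = 0) (hb : b ≠ 0) :
    CC ε (b⁻¹ * a) := by
  have hwu := hF.swap huw
  rw [hf_add_left, hf_add_right, hf_add_right, hf_smul_left, hf_smul_left, hf_smul_left,
    hf_smul_left, hf_smul_right, hf_smul_right, hf_smul_right, hf_smul_right, hu, hw, huw, hwu,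
    zero_mul, zero_mul, mul_zero, mul_zero, zero_add, add_zero, one_mul] at h
  have hsb : star b ≠ 0 := by rwa [Ne, star_eq_zero]
  have h1 : b⁻¹ * (a * star b + b * (ε * star a)) * (star b)⁻¹ = 0 := by
    rw [h, mul_zero, zero_mul]
  unfold CC
  rw [star_mul, star_inv₀]
  rw [← h1, mul_add, add_mul]
  congr 1
  · rw [mul_assoc, mul_assoc, mul_inv_cancel₀ hsb, mul_one]
  · rw [← mul_assoc b⁻¹ b, inv_mul_cancel₀ hb, one_mul, mul_assoc]

/-- Moving an isotropic vector of the plane to the line of `w`. -/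
theorem move_w {a b : D} (h : hf J (a • u + b • w) (a • u + b • w) = 0) (hb : b ≠ 0) :
    (a • u + b • w) ᵥ* (tv J u (-(ε * (b⁻¹ * a)))).1 = b • w := by
  have hwu := hF.swap huw
  rw [vecMul_tv hu, hf_add_left, hf_smul_left, hf_smul_left, hu, hwu, mul_zero, zero_add]
  have e : b * ε * -(ε * (b⁻¹ * a)) = -a := by
    have h1 : b * ε * -(ε * (b⁻¹ * a)) = -(b * (ε * ε) * (b⁻¹ * a)) := by
      rw [mul_neg]
      simp only [mul_assoc]
    rw [h1, eps_sq hF.eps, mul_one, mul_inv_cancel_left₀ hb]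
  rw [e, neg_smul]
  abel

/-- The Weyl elements. -/
theorem ww_u {c : D} (hc : CC ε c) (hc0 : c ≠ 0) :
    u ᵥ* (tv J u c * tv J w (-(ε * c⁻¹)) * tv J u c).1 = (-(ε * c⁻¹)) • w := by
  have hwu := hF.swap huw
  have a1 : u ᵥ* (tv J u c).1 = u := by rw [vecMul_tv hu, hu, zero_mul, zero_smul, add_zero]
  have a2 : u ᵥ* (tv J w (-(ε * c⁻¹))).1 = u + (-(ε * c⁻¹)) • w := by
    rw [vecMul_tv hw, huw, one_mul]
  rw [vecMul_mul', vecMul_mul', a1, a2, vecMul_tv hu, hf_add_left, hf_smul_left, hu, hwu, zero_add]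
  have e : -(ε * c⁻¹) * ε * c = -1 := by
    rw [neg_mul, neg_mul, mul_assoc ε, ← eps_comm hF.eps c⁻¹, ← mul_assoc ε,
      eps_sq hF.eps, one_mul, inv_mul_cancel₀ hc0]
  rw [e, neg_one_smul]
  abel

theorem ww_w {c : D} (hc : CC ε c) (hc0 : c ≠ 0) :
    w ᵥ* (tv J u c * tv J w (-(ε * c⁻¹)) * tv J u c).1 = (ε * c) • u := by
  have hwu := hF.swap huw
  have a1 : w ᵥ* (tv J u c).1 = w + (ε * c) • u := by rw [vecMul_tv hu, hwu]
  rw [vecMul_mul', vecMul_mul', a1, vecMul_tv hw, hf_add_left, hf_smul_left, hw,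
    huw, zero_add, mul_one]
  have e : ε * c * -(ε * c⁻¹) = -1 := by
    rw [mul_neg, eps_comm hF.eps c, mul_assoc, ← mul_assoc ε, eps_sq hF.eps, one_mul,
      mul_inv_cancel₀ hc0]
  rw [e, neg_one_smul]
  have e2 : w + (ε * c) • u + -w = (ε * c) • u := by abel
  rw [e2, vecMul_tv hu, hf_smul_left, hu, mul_zero, zero_mul, zero_smul, add_zero]

theorem ww_y {c : D} {y : n → D} (h1 : hf J y u = 0) (h2 : hf J y w = 0) :
    y ᵥ* (tv J u c * tv J w (-(ε * c⁻¹)) * tv J u c).1 = y := by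
  simp only [vecMul_mul', vecMul_tv hu, vecMul_tv hw, h1, h2, zero_mul, zero_smul, add_zero]

theorem ww_mem {c : D} (hc : CC ε c) (hc0 : c ≠ 0) :
    tv J u c * tv J w (-(ε * c⁻¹)) * tv J u c ∈ GT ε J :=
  mul_mem (mul_mem (tv_mem_GT hu hc)
    (tv_mem_GT hw ((hc.inv hF.eps).smul hF.eps (eps_cs hF.eps)).neg)) (tv_mem_GT hu hc)

/-- Isometries which agree on the plane and on its complement. -/
theorem ext_hyp {g h : (Matrix n n D)ˣ} (h1 : u ᵥ* g.1 = u ᵥ* h.1) (h2 : w ᵥ* g.1 = w ᵥ* h.1)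
    (h3 : ∀ y, hf J y u = 0 → hf J y w = 0 → y ᵥ* g.1 = y ᵥ* h.1) : g = h := by
  have hwu := hF.swap huw
  refine ext_vecMul fun x => ?_
  obtain ⟨y, hy⟩ : ∃ y, y = x - (hf J x w) • u - (hf J x u * ε) • w := ⟨_, rfl⟩
  have hx : x = y + ((hf J x w) • u + (hf J x u * ε) • w) := by rw [hy]; abel
  have hy1 : hf J y u = 0 := by
    rw [hy, hf_sub_left, hf_sub_left, hf_smul_left, hf_smul_left, hu, hwu, mul_assoc,
      eps_sq hF.eps, mul_zero, mul_one]
    abel
  have hy2 : hf J y w = 0 := by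
    rw [hy, hf_sub_left, hf_sub_left, hf_smul_left, hf_smul_left, hw, huw, mul_zero, mul_one]
    abel
  rw [hx, add_vecMul, add_vecMul, add_vecMul, add_vecMul, smul_vecMul, smul_vecMul, smul_vecMul,
    smul_vecMul, h1, h2, h3 y hy1 hy2]

/-- **An isometry of the plane is the product of an element of `GT` and a dilation.** -/
theorem exists_dil {g : (Matrix n n D)ˣ} (hg : g ∈ FG J) {a b a' b' : D}
    (h1 : u ᵥ* g.1 = a • u + b • w) (h2 : w ᵥ* g.1 = a' • u + b' • w)
    (h3 : ∀ y, hf J y u = 0 → hf J y w = 0 → y ᵥ* g.1 = y) :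
    ∃ t ∈ GT ε J, ∃ x : D, x ≠ 0 ∧ u ᵥ* (g * t).1 = x • u ∧ w ᵥ* (g * t).1 = (star x)⁻¹ • w ∧
      ∀ y, hf J y u = 0 → hf J y w = 0 → y ᵥ* (g * t).1 = y := by
  have hwu := hF.swap huw
  have hu0 : u ≠ 0 := by
    rintro rfl
    rw [hf_zero_left] at huw
    exact zero_ne_one huw
  have hmem := mem_FG.1 hg
  have key : ∃ t ∈ GT ε J, ∃ x : D, x ≠ 0 ∧ u ᵥ* (g * t).1 = x • u ∧
      (∃ p r : D, w ᵥ* (g * t).1 = p • u + r • w) ∧
      ∀ y, hf J y u = 0 → hf J y w = 0 → y ᵥ* (g * t).1 = y := by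
    by_cases hb : b = 0
    · refine ⟨1, one_mem _, a, ?_, ?_, ⟨a', b', ?_⟩, fun y hy hy' => ?_⟩
      · rintro rfl
        rw [hb, zero_smul, zero_smul, add_zero] at h1
        have h4 := vecMul_cancel_inv u g
        rw [h1, zero_vecMul] at h4
        exact hu0 h4.symm
      · rw [mul_one, h1, hb, zero_smul, add_zero]
      · rw [mul_one, h2]
      · rw [mul_one, h3 y hy hy']
    · have hiso : hf J (a • u + b • w) (a • u + b • w) = 0 := by rw [← h1, hmem, hu]
      obtain ⟨c, hc0, hc⟩ := hF.cc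
      refine ⟨tv J u (-(ε * (b⁻¹ * a))) * (tv J u c * tv J w (-(ε * c⁻¹)) * tv J u c),
        mul_mem (tv_mem_GT hu ((iso_comb hF hu hw huw hiso hb).smul hF.eps
          (eps_cs hF.eps)).neg) (ww_mem hF hu hw huw hc hc0), b * (ε * c), ?_, ?_, ?_,
        fun y hy hy' => ?_⟩
      · exact mul_ne_zero hb (mul_ne_zero (eps_ne hF.eps) hc0)
      · rw [vecMul_mul', vecMul_mul', h1, move_w hF hu hw huw hiso hb, smul_vecMul,
          ww_w hF hu hw huw hc hc0, smul_smul]
      · rw [vecMul_mul', vecMul_mul', h2, vecMul_tv hu]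
        obtain ⟨s, hs⟩ : ∃ s, s = hf J (a' • u + b' • w) u * -(ε * (b⁻¹ * a)) := ⟨_, rfl⟩
        rw [← hs]
        refine ⟨b' * (ε * c), (a' + s) * (-(ε * c⁻¹)), ?_⟩
        have e : a' • u + b' • w + s • u = (a' + s) • u + b' • w := by
          rw [add_smul]; abel
        rw [e, add_vecMul, smul_vecMul, smul_vecMul, ww_u hF hu hw huw hc hc0,
          ww_w hF hu hw huw hc hc0, smul_smul, smul_smul, add_comm]
      · rw [vecMul_mul', vecMul_mul', h3 y hy hy', vecMul_tv hu, hy, zero_mul, zero_smul, add_zero,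
          ww_y hF hu hw huw hy hy']
  obtain ⟨t, ht, x, hx0, hux, ⟨p, r, hwx⟩, hyx⟩ := key
  have hgt : g * t ∈ FG J := mul_mem hg (GT_le hF ht)
  have hmem' := mem_FG.1 hgt
  have hr : x * star r = 1 := by
    have h4 := hmem' u w
    rw [hux, hwx, hf_smul_left, hf_add_right, hf_smul_right, hf_smul_right, hu, huw, zero_mul,
      zero_add, one_mul] at h4
    exact h4
  have hr0 : r ≠ 0 := by
    rintro rfl
    rw [star_zero, mul_zero] at hr
    exact zero_ne_one hr
  have hr' : r = (star x)⁻¹ := by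
    have h4 : r * star x = 1 := by
      have := congrArg star hr
      rwa [star_mul, star_star, star_one] at this
    exact eq_inv_of_mul_eq_one_left h4
  have hiso : hf J (p • u + r • w) (p • u + r • w) = 0 := by rw [← hwx, hmem', hw]
  refine ⟨t * tv J u (-(ε * (r⁻¹ * p))), mul_mem ht (tv_mem_GT hu
    ((iso_comb hF hu hw huw hiso hr0).smul hF.eps (eps_cs hF.eps)).neg), x, hx0, ?_, ?_,
    fun y hy hy' => ?_⟩
  · rw [← mul_assoc, vecMul_mul', hux, smul_vecMul, vecMul_tv hu, hu, zero_mul, zero_smul,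
      add_zero]
  · rw [← mul_assoc, vecMul_mul', hwx, move_w hF hu hw huw hiso hr0, hr']
  · rw [← mul_assoc, vecMul_mul', hyx y hy hy', vecMul_tv hu, hy, zero_mul, zero_smul, add_zero]

end hyp

/-- The group `H` contains the dilations of the hyperbolic planes. -/
def Dil (J : Matrix n n D) (H : Subgroup (Matrix n n D)ˣ) : Prop :=
  ∀ u w : n → D, hf J u u = 0 → hf J w w = 0 → hf J u w = 1 → ∀ x : D, x ≠ 0 →
    ∃ t ∈ H, u ᵥ* t.1 = x • u ∧ w ᵥ* t.1 = (star x)⁻¹ • w ∧
      ∀ y, hf J y u = 0 → hf J y w = 0 → y ᵥ* t.1 = y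

/-- **The isometry group is generated by the transvections and the dilations.** -/
theorem FG_le_dil (hF : Frm ε J) (hnc : ∃ a b : D, a * b ≠ b * a)
    {H : Subgroup (Matrix n n D)ˣ} (hGT : GT ε J ≤ H) (hH : Dil J H) : FG J ≤ H := by
  refine FG_le hF hnc fun v a h => ?_
  by_cases hv : hf J v v = 0
  · exact hGT (rq_iso hF h hv)
  obtain ⟨u, hu, huv⟩ : ∃ u, hf J u u = 0 ∧ hf J u v ≠ 0 := by
    obtain ⟨p, q, r, hp, hq, hr, hs⟩ := hF.iso_decomp v
    by_contra hcon
    push Not at hcon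
    apply hv
    have h1 : hf J v v = hf J (p + q + r) v := by rw [← hs]
    rw [h1, hf_add_left, hf_add_left, hcon p hp, hcon q hq, hcon r hr, add_zero, add_zero]
  obtain ⟨α, hα⟩ := hF.exists_corr hu huv
  have hsp : star (hf J u v) ≠ 0 := by rwa [Ne, star_eq_zero]
  obtain ⟨w, hw'⟩ : ∃ w, w = (star (hf J u v))⁻¹ • (v + α • u) := ⟨_, rfl⟩
  have hw : hf J w w = 0 := by rw [hw']; exact iso_smul hα _
  have huw : hf J u w = 1 := by
    rw [hw', hf_smul_right, hf_add_right, hf_smul_right, hu, zero_mul, add_zero, star_inv₀,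
      star_star, mul_inv_cancel₀ huv]
  have hvw : v = (-α) • u + star (hf J u v) • w := by
    rw [hw', smul_smul, mul_inv_cancel₀ hsp, one_smul, neg_smul]
    abel
  obtain ⟨g, hg⟩ : ∃ g, g = rq hF.eps h := ⟨_, rfl⟩
  have hgF : g ∈ FG J := by rw [hg]; exact rq_mem hF h
  have hgx : ∀ x, x ᵥ* g.1 = x + (hf J x v * a) • v := fun x => by
    rw [hg, rq_val, vecMul_tvm]
  rw [← hg]
  have hgv : ∀ s : D, s • v = (s * -α) • u + (s * star (hf J u v)) • w := by
    intro s
    conv_lhs => rw [hvw]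
    rw [smul_add, smul_smul, smul_smul]
  have e1 : u ᵥ* g.1 = (1 + hf J u v * a * -α) • u + (hf J u v * a * star (hf J u v)) • w := by
    rw [hgx, hgv, add_smul, one_smul]
    abel
  have e2 : w ᵥ* g.1 = (hf J w v * a * -α) • u + (1 + hf J w v * a * star (hf J u v)) • w := by
    rw [hgx, hgv, add_smul, one_smul]
    abel
  have e3 : ∀ y, hf J y u = 0 → hf J y w = 0 → y ᵥ* g.1 = y := by
    intro y hy hy'
    have h1 : hf J y v = 0 := by
      rw [hvw, hf_add_right, hf_smul_right, hf_smul_right, hy, hy', zero_mul, zero_mul, add_zero]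
    rw [hgx, h1, zero_mul, zero_smul, add_zero]
  obtain ⟨t, ht, x, hx0, h1, h2, h3⟩ := exists_dil hF hu hw huw hgF e1 e2 e3
  obtain ⟨d, hd, h4, h5, h6⟩ := hH u w hu hw huw x hx0
  have e : g * t = d := ext_hyp hF hu hw huw (by rw [h1, h4]) (by rw [h2, h5])
    fun y hy hy' => by rw [h3 y hy hy', h6 y hy hy']
  have e' : g = d * t⁻¹ := by rw [← e, mul_inv_cancel_right]
  rw [e']
  exact H.mul_mem hd (H.inv_mem (hGT ht))

/-- The dilations in `GT`. -/
theorem dil_GT (hF : Frm ε J) {u w : n → D} (hu : hf J u u = 0) (hw : hf J w w = 0)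
    (huw : hf J u w = 1) {c c' : D} (hc : CC ε c) (hc0 : c ≠ 0) (hc' : CC ε c') (hc0' : c' ≠ 0)
    {x : D} (hx : x = -(c⁻¹ * c')) :
    ∃ t ∈ GT ε J, u ᵥ* t.1 = x • u ∧ w ᵥ* t.1 = (star x)⁻¹ • w ∧
      ∀ y, hf J y u = 0 → hf J y w = 0 → y ᵥ* t.1 = y := by
  refine ⟨(tv J u c * tv J w (-(ε * c⁻¹)) * tv J u c) *
    (tv J u c' * tv J w (-(ε * c'⁻¹)) * tv J u c'), mul_mem (ww_mem hF hu hw huw hc hc0)
    (ww_mem hF hu hw huw hc' hc0'), ?_, ?_, fun y hy hy' => ?_⟩
  · rw [vecMul_mul', ww_u hF hu hw huw hc hc0, smul_vecMul, ww_w hF hu hw huw hc' hc0', smul_smul,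
      hx]
    congr 1
    rw [neg_mul, mul_assoc, eps_comm hF.eps (c⁻¹ * _), mul_assoc, mul_assoc, ← eps_comm hF.eps c',
      ← mul_assoc ε ε, eps_sq hF.eps, one_mul]
  · rw [vecMul_mul', ww_w hF hu hw huw hc hc0, smul_vecMul, ww_u hF hu hw huw hc' hc0', smul_smul]
    congr 1
    have hei : (-ε)⁻¹ = -ε := inv_eq_of_mul_eq_one_left (by rw [neg_mul_neg, eps_sq hF.eps])
    have h1 : star x = -(c' * c⁻¹) := by
      rw [hx, star_neg, star_mul, star_inv₀, hc.star_eq hF.eps, hc'.star_eq hF.eps, mul_inv_rev,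
        hei, neg_mul, mul_neg, neg_mul_neg, eps_comm hF.eps c', mul_assoc, ← mul_assoc ε,
        eps_comm hF.eps c⁻¹, mul_assoc c⁻¹, eps_sq hF.eps, mul_one]
    rw [h1, inv_neg, mul_inv_rev, inv_inv, mul_neg, eps_comm hF.eps c, mul_assoc, ← mul_assoc ε,
      eps_sq hF.eps, one_mul]
  · rw [vecMul_mul', ww_y hF hu hw huw hy hy', ww_y hF hu hw huw hy hy']

end basic

section quat

variable {n : Type*} [Fintype n] [DecidableEq n] {D : Type*} [DivisionRing D] [StarRing D]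
  {J : Matrix n n D}

/-- Every quaternion is the quotient of two pure ones. -/
theorem exists_pure (hQ : Qt D) {x : D} (hx : x ≠ 0) :
    ∃ c c' : D, Pu c ∧ c ≠ 0 ∧ Pu c' ∧ c' ≠ 0 ∧ x = -(c⁻¹ * c') := by
  suffices h : ∃ c : D, Pu c ∧ c ≠ 0 ∧ Pu (c * x) by
    obtain ⟨c, hc, hc0, hcx⟩ := h
    refine ⟨c, -(c * x), hc, hc0, ?_, neg_ne_zero.2 (mul_ne_zero hc0 hx), ?_⟩
    · unfold Pu at hcx ⊢
      rw [star_neg, hcx]
    · rw [mul_neg, neg_neg, inv_mul_cancel_left₀ hc0]
  obtain ⟨s, p, hs, hp, rfl⟩ := hQ.dec x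
  obtain ⟨c, hc, hc0, hcp⟩ : ∃ c : D, Pu c ∧ c ≠ 0 ∧ c * p = -(p * c) := by
    obtain ⟨y, z, hy, hz, hyz⟩ := hQ.exists_pu
    by_cases hcom : ∀ y : D, Pu y → p * y = y * p
    · -- `p` is central, hence zero
      have hcs : Cs p := hQ.cs_of_comm hy hz hyz (hcom y hy) (hcom z hz)
      have h1 : p = 0 := by
        have h2 : p = -p := by
          have h3 : star p = -p := hp
          rwa [hcs.st] at h3
        have h4 : 2 * p = 0 := by
          rw [two_mul]
          nth_rewrite 2 [h2]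
          rw [add_neg_cancel]
        exact (mul_eq_zero.1 h4).resolve_left hQ.two
      have hy0 : y ≠ 0 := by
        rintro rfl
        exact hyz (by rw [zero_mul, mul_zero])
      exact ⟨y, hy, hy0, by rw [h1, mul_zero, zero_mul, neg_zero]⟩
    · push Not at hcom
      obtain ⟨y, hy, hpy⟩ := hcom
      have h1 := (Pu.sq hQ hp).cm y
      refine ⟨p * y - y * p, Pu.comm hp hy, sub_ne_zero.2 hpy, ?_⟩
      have e1 : (p * y - y * p) * p = p * y * p - y * (p * p) := by noncomm_ring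
      have e2 : p * (p * y - y * p) = p * p * y - p * y * p := by noncomm_ring
      rw [e1, e2, h1]
      abel
  refine ⟨c, hc, hc0, ?_⟩
  unfold Pu at *
  rw [mul_add, star_add, star_mul, star_mul, hs.st, hc, hp, neg_mul_neg, mul_neg, hs.cm, hcp]
  abel

/-- **For hermitian forms over a quaternion division algebra the isometry group is generated by the
transvections.** -/
theorem FG_eq_GT (hQ : Qt D) (hF : Frm (1 : D) J) : FG J = GT (1 : D) J := by
  refine le_antisymm (FG_le_dil hF hQ.nc le_rfl fun u w hu hw huw x hx => ?_) (GT_le hF)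
  obtain ⟨c, c', hc, hc0, hc', hc0', h⟩ := exists_pure hQ hx
  exact dil_GT hF hu hw huw hc.cc hc0 hc'.cc hc0' h

end quat

end Vale.Agent.P092.H821.HS
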