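import Vale.Agent.P092.H821.DTgt

/-!
P092 (helper821), row CLASS-H (U3), part 1: matrix groups over a local field which preserve a family of
bilinear forms and commute with an algebra all of whose invariant subspaces have dimension divisible
by `δ`: target groups of rank `q`, the Witt index.
-/

set_option linter.all false

namespace Vale.Agent.P092.H821

open Matrix Filter Topology
open Vale.Agent.P092.H515 (Tgt GSys Dec exists_le_all norm_mul_apply_le isCompact_pairs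
  norm_det_form)
open Vale.Agent.P092.H933 (LocK BCart gsys_gl)

section bounded
variable {k : Type} [NormedField k] [ProperSpace k] {N q : ℕ} {τ : Type} [Fintype τ]
  {J : τ → Matrix (Fin N) (Fin N) k}

/-- The diagonal part is bounded beyond the Witt index of a family of forms. -/
theorem exists_bound_fam (hq : q < N)
    (hiso : ∀ v : Fin (q + 1) → Fin N → k, LinearIndependent k v →
      ∃ t i j, v i ⬝ᵥ (J t *ᵥ v j) ≠ 0) {M : ℝ} (hM : 0 ≤ M) :
    ∃ C : ℝ, ∀ (g κ κi κ' κi' : Matrix (Fin N) (Fin N) k) (a : Fin N → k),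
      Dec M g κ κi κ' κi' a → (∀ t, g * J t * gᵀ = J t) → ‖a ⟨q, hq⟩‖ ≤ C := by
  obtain ⟨F, hF⟩ : ∃ F : Matrix (Fin N) (Fin N) k × Matrix (Fin N) (Fin N) k → ℝ, F = fun p =>
    ∑ t, ∑ l : Fin (q + 1), ∑ m : Fin (q + 1),
      ‖(p.1 * J t * (p.1)ᵀ) (Fin.castLE hq l) (Fin.castLE hq m)‖ := ⟨_, rfl⟩
  have hFc : Continuous F := by
    rw [hF]
    refine continuous_finset_sum _ fun t _ => continuous_finset_sum _ fun l _ =>
      continuous_finset_sum _ fun m _ => ?_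
    refine Continuous.norm ?_
    refine Continuous.matrix_elem ?_ _ _
    exact (continuous_fst.matrix_mul continuous_const).matrix_mul
      (Continuous.matrix_transpose continuous_fst)
  obtain ⟨S, hS⟩ : ∃ S : Set (Matrix (Fin N) (Fin N) k × Matrix (Fin N) (Fin N) k), S =
    {p | p.1 * p.2 = 1 ∧ (∀ i j, ‖p.1 i j‖ ≤ M) ∧ ∀ i j, ‖p.2 i j‖ ≤ M} := ⟨_, rfl⟩
  have hSc : IsCompact S := by rw [hS]; exact isCompact_pairs M
  have hpos : ∀ p ∈ S, 0 < F p := by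
    intro p hp
    rw [hS] at hp
    have hu : LinearIndependent k (fun l : Fin N => p.1 l) :=
      Matrix.linearIndependent_rows_iff_isUnit.2 (isUnit_iff_exists.2
        ⟨p.2, hp.1, mul_eq_one_comm.1 hp.1⟩)
    obtain ⟨t, i, j, hij⟩ := hiso (fun l => p.1 (Fin.castLE hq l))
      (hu.comp _ (Fin.castLE_injective hq))
    have e : (p.1 * J t * (p.1)ᵀ) (Fin.castLE hq i) (Fin.castLE hq j) =
        p.1 (Fin.castLE hq i) ⬝ᵥ (J t *ᵥ (p.1 (Fin.castLE hq j))) := by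
      rw [Matrix.mul_assoc, Matrix.mul_apply]
      rfl
    rw [hF]
    refine Finset.sum_pos' (fun t _ => Finset.sum_nonneg fun l _ => Finset.sum_nonneg fun m _ =>
      norm_nonneg _) ⟨t, Finset.mem_univ _, ?_⟩
    refine Finset.sum_pos' (fun l _ => Finset.sum_nonneg fun m _ => norm_nonneg _)
      ⟨i, Finset.mem_univ _, Finset.sum_pos' (fun m _ => norm_nonneg _)
        ⟨j, Finset.mem_univ _, ?_⟩⟩
    rw [e]
    exact norm_pos_iff.2 hij
  obtain ⟨c, hc, hcF⟩ : ∃ c : ℝ, 0 < c ∧ ∀ p ∈ S, c ≤ F p := by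
    rcases S.eq_empty_or_nonempty with hE | hE
    · exact ⟨1, one_pos, fun p hp => by rw [hE] at hp; exact hp.elim⟩
    · obtain ⟨p, hp, h1⟩ := hSc.exists_isMinOn hE hFc.continuousOn
      exact ⟨F p, hpos p hp, fun p' hp' => h1 hp'⟩
  obtain ⟨B, hB0, hB⟩ : ∃ B : ℝ, 0 ≤ B ∧ ∀ t i j, ‖J t i j‖ ≤ B := by
    obtain ⟨B, hB0, hB⟩ := exists_le_all (I := τ × Fin N × Fin N) fun p => ‖J p.1 p.2.1 p.2.2‖
    exact ⟨B, hB0, fun t i j => hB (t, i, j)⟩
  obtain ⟨C1, hC1⟩ : ∃ C1 : ℝ, C1 = N * ((N * (M * B)) * M) := ⟨_, rfl⟩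
  have hC10 : 0 ≤ C1 := by rw [hC1]; positivity
  refine ⟨max 1 (Fintype.card τ * ((q + 1) * ((q + 1) * C1)) / c),
    fun g κ κi κ' κi' a h hg => ?_⟩
  have hmem : (κ', κi') ∈ S := by
    rw [hS]; exact ⟨h.mul', h.le', h.lei'⟩
  have h1 := hcF _ hmem
  have e3 : κᵀ * κiᵀ = 1 := by rw [← transpose_mul, h.comm, transpose_one]
  have e4 : gᵀ = κ'ᵀ * diagonal a * κᵀ := by
    rw [h.eq, transpose_mul, transpose_mul, diagonal_transpose, Matrix.mul_assoc]
  have e1 : ∀ t, diagonal a * (κ' * J t * κ'ᵀ) * diagonal a = κi * J t * κiᵀ := by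
    intro t
    have e5 : κi * (g * J t * gᵀ) * κiᵀ = diagonal a * (κ' * J t * κ'ᵀ) * diagonal a := by
      rw [e4]
      calc κi * (g * J t * (κ'ᵀ * diagonal a * κᵀ)) * κiᵀ
          = (κi * g) * J t * κ'ᵀ * diagonal a * (κᵀ * κiᵀ) := by simp only [Matrix.mul_assoc]
        _ = (κi * g) * J t * κ'ᵀ * diagonal a := by rw [e3, Matrix.mul_one]
        _ = _ := by
            have e6 : κi * g = diagonal a * κ' := by
              rw [h.eq, ← Matrix.mul_assoc, ← Matrix.mul_assoc, h.comm, Matrix.one_mul]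
            rw [e6]
            simp only [Matrix.mul_assoc]
    rw [← e5, hg]
  have hb : ∀ t l m, ‖a l‖ * ‖(κ' * J t * κ'ᵀ) l m‖ * ‖a m‖ ≤ C1 := by
    intro t l m
    have e7 := congrFun (congrFun (e1 t) l) m
    rw [mul_diagonal, diagonal_mul] at e7
    have e8 : ‖a l‖ * ‖(κ' * J t * κ'ᵀ) l m‖ * ‖a m‖ = ‖(κi * J t * κiᵀ) l m‖ := by
      rw [← e7, norm_mul, norm_mul]
    rw [e8, hC1]
    have h2 : ∀ i j, ‖(κi * J t) i j‖ ≤ N * (M * B) := fun i j => by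
      simpa using norm_mul_apply_le hM h.lei (hB t) i j
    have h3 := norm_mul_apply_le (by positivity : 0 ≤ N * (M * B)) h2 (B := κiᵀ) (y := M)
      (fun i j => by rw [transpose_apply]; exact h.lei _ _) l m
    simpa using h3
  rcases le_or_gt ‖a ⟨q, hq⟩‖ 1 with hle | hgt
  · exact hle.trans (le_max_left _ _)
  refine le_trans ?_ (le_max_right _ _)
  have hx0 : 0 < ‖a ⟨q, hq⟩‖ := zero_lt_one.trans hgt
  have hx1 : ‖a ⟨q, hq⟩‖ ≤ ‖a ⟨q, hq⟩‖ ^ 2 := by nlinarith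
  have h5 : ∀ t, ∀ l m : Fin (q + 1), ‖(κ' * J t * κ'ᵀ) (Fin.castLE hq l) (Fin.castLE hq m)‖ *
      ‖a ⟨q, hq⟩‖ ^ 2 ≤ C1 := by
    intro t l m
    have ha : ∀ l : Fin (q + 1), ‖a ⟨q, hq⟩‖ ≤ ‖a (Fin.castLE hq l)‖ := fun l =>
      h.anti (Fin.le_def.2 (Nat.lt_succ_iff.1 l.2))
    refine le_trans ?_ (hb t (Fin.castLE hq l) (Fin.castLE hq m))
    have h6 := mul_le_mul (ha l) (ha m) hx0.le (norm_nonneg _)
    have h7 := norm_nonneg ((κ' * J t * κ'ᵀ) (Fin.castLE hq l) (Fin.castLE hq m))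
    nlinarith
  have h8 : F (κ', κi') * ‖a ⟨q, hq⟩‖ ^ 2 ≤ Fintype.card τ * ((q + 1) * ((q + 1) * C1)) := by
    rw [hF]
    simp only
    rw [Finset.sum_mul]
    refine (Finset.sum_le_sum (g := fun _ => ((q : ℝ) + 1) * ((q + 1) * C1)) fun t _ => ?_).trans ?_
    · rw [Finset.sum_mul]
      refine (Finset.sum_le_sum (g := fun _ => ((q : ℝ) + 1) * C1) fun l _ => ?_).trans ?_
      · rw [Finset.sum_mul]
        refine (Finset.sum_le_sum fun m _ => h5 t l m).trans ?_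
        rw [Finset.sum_const, nsmul_eq_mul, Finset.card_univ, Fintype.card_fin]
        push_cast
        exact le_rfl
      · rw [Finset.sum_const, nsmul_eq_mul, Finset.card_univ, Fintype.card_fin]
        push_cast
        exact le_rfl
    · rw [Finset.sum_const, nsmul_eq_mul, Finset.card_univ]
  rw [le_div_iff₀ hc]
  calc ‖a ⟨q, hq⟩‖ * c ≤ ‖a ⟨q, hq⟩‖ ^ 2 * F (κ', κi') :=
        mul_le_mul hx1 h1 hc.le (by positivity)
    _ = F (κ', κi') * ‖a ⟨q, hq⟩‖ ^ 2 := mul_comm _ _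
    _ ≤ _ := h8

end bounded

section bcart
variable {k : Type} [NormedField k] {N : ℕ}

/-- Transposed Cartan decompositions. -/
theorem bcart_transpose {A : Matrix (Fin N) (Fin N) k} {x : Fin (N - 1) → ℝ} {c C : ℝ}
    (h : BCart A x c C) : BCart Aᵀ x c C := by
  obtain ⟨κ, κi, κ', κi', a, h1, h2, h3, h4, h5, h6, h7⟩ := h
  refine ⟨κ'ᵀ, κi'ᵀ, κᵀ, κiᵀ, a, ?_, ?_, fun i j => ⟨(h3 j i).2.2.1, (h3 j i).2.2.2,
    (h3 j i).1, (h3 j i).2.1⟩, h4, h5, ?_, h7⟩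
  · rw [← transpose_mul, mul_eq_one_comm.1 h2, transpose_one]
  · rw [← transpose_mul, mul_eq_one_comm.1 h1, transpose_one]
  · rw [h6, transpose_mul, transpose_mul, diagonal_transpose, Matrix.mul_assoc]

end bcart

section form
variable {G : Type} [Group G] [TopologicalSpace G] {k : Type} [NontriviallyNormedField k]
  [ProperSpace k] {N q δ : ℕ} {m : G → Matrix (Fin N) (Fin N) k}

/-- **Isometry groups of hermitian forms over division algebras, in matrix letters.** -/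
theorem tgt_fdiv (hk : LocK k) (hN : 0 < N) (hmul : ∀ g h, m (g * h) = m g * m h)
    (proper : ∀ R : ℝ, ∃ K : Set G, IsCompact K ∧ ∀ g, (∀ i j, ‖m g i j‖ ≤ R) → g ∈ K)
    {τ : Type} [Fintype τ] {J : τ → Matrix (Fin N) (Fin N) k} (t₀ : τ) (hJ : (J t₀).det ≠ 0)
    (hform : ∀ g t, m g * J t * (m g)ᵀ = J t)
    {S : Set (Matrix (Fin N) (Fin N) k)} (hcomm : ∀ g, ∀ X ∈ S, (m g)ᵀ * X = X * (m g)ᵀ)
    (hdiv : ∀ W : Submodule k (Fin N → k), (∀ X ∈ S, ∀ w ∈ W, X *ᵥ w ∈ W) →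
      δ ∣ Module.finrank k W)
    (hiso : ∀ v : Fin (q * δ + 1) → Fin N → k, LinearIndependent k v →
      ∃ t i j, v i ⬝ᵥ (J t *ᵥ v j) ≠ 0) : Tgt G q := by
  have hσ : ∀ x : k, ‖RingHom.id k x‖ = ‖x‖ := fun x => rfl
  have hform' : ∀ g, m g * J t₀ * ((m g).map (RingHom.id k))ᵀ = J t₀ := fun g => hform g t₀
  obtain ⟨gp, w, c, C, hc, hs, hw, hcar⟩ := gsys_gl hk hN hmul
    (fun g => norm_det_form hσ hJ (hform' g))
  have hδN : δ ∣ N := by
    have := hdiv ⊤ (fun _ _ _ _ => trivial)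
    rwa [finrank_top, Module.finrank_fin_fun] at this
  have hδ : 0 < δ := Nat.pos_of_dvd_of_pos hδN hN
  -- the gaps at positions which are not multiples of `δ`
  have hb : ∀ j : Fin (N - 1), ∃ R : ℝ, ¬ δ ∣ (j : ℕ) + 1 → ∀ g, gp j g ≤ R := by
    intro j
    by_cases h : δ ∣ (j : ℕ) + 1
    · exact ⟨0, fun h' => absurd h h'⟩
    · obtain ⟨R, hR⟩ := gap_bdd (m := fun g => (m g)ᵀ) hc (fun g => bcart_transpose (hcar g))
        hcomm hdiv j h
      exact ⟨R, fun _ => hR⟩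
  choose Rj hRj using hb
  obtain ⟨R0, hR0⟩ : ∃ R0 : ℝ, ∀ j, Rj j ≤ R0 := by
    obtain ⟨R0, -, h⟩ := exists_le_all Rj
    exact ⟨R0, h⟩
  have hC0 : 0 ≤ C := by
    obtain ⟨κ, κi, κ', κi', a, -, -, h1, -⟩ := hcar 1
    exact (norm_nonneg _).trans (h1 ⟨0, hN⟩ ⟨0, hN⟩).1
  have hdec : ∀ g, ∃ (κ κi κ' κi' : Matrix (Fin N) (Fin N) k) (a : Fin N → k),
      Dec C (m g) κ κi κ' κi' a ∧ ∀ j : Fin (N - 1),
        |gp j g - c * (Real.log ‖a ⟨j, by have := j.2; omega⟩‖ -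
          Real.log ‖a ⟨(j : ℕ) + 1, by have := j.2; omega⟩‖)| ≤ C := by
    intro g
    obtain ⟨κ, κi, κ', κi', a, h1, h2, h3, h4, h5, h6, h7⟩ := hcar g
    exact ⟨κ, κi, κ', κi', a, ⟨h1, h2, fun i j => (h3 i j).1, fun i j => (h3 i j).2.1,
      fun i j => (h3 i j).2.2.1, fun i j => (h3 i j).2.2.2, h6, h4, h5⟩, h7⟩
  -- bounds for the form
  obtain ⟨B, hB0, hB⟩ : ∃ B : ℝ, 0 ≤ B ∧ ∀ i j, ‖J t₀ i j‖ ≤ B := by
    obtain ⟨B, hB0, hB⟩ := exists_le_all (I := Fin N × Fin N) fun p => ‖J t₀ p.1 p.2‖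
    exact ⟨B, hB0, fun i j => hB (i, j)⟩
  obtain ⟨B', hB0', hB'⟩ : ∃ B : ℝ, 0 ≤ B ∧ ∀ i j, ‖(J t₀)⁻¹ i j‖ ≤ B := by
    obtain ⟨B, hB0, hB⟩ := exists_le_all (I := Fin N × Fin N) fun p => ‖(J t₀)⁻¹ p.1 p.2‖
    exact ⟨B, hB0, fun i j => hB (i, j)⟩
  have hJJ : J t₀ * (J t₀)⁻¹ = 1 := Matrix.mul_nonsing_inv (J t₀) (isUnit_iff_ne_zero.2 hJ)
  -- symmetry
  obtain ⟨C1, hC1⟩ : ∃ C1 : ℝ, C1 = (N * (N * (C * (N * (max B B' * C))))) *
    (N * (N * ((N * (max B B' * C)) * C))) := ⟨_, rfl⟩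
  obtain ⟨L1, hL1⟩ : ∃ L1 : ℝ, ∀ g κ κi κ' κi' a, Dec C (m g) κ κi κ' κi' a → ∀ i : Fin N,
      |Real.log ‖a i‖ + Real.log ‖a (Fin.rev i)‖| ≤ L1 := by
    refine ⟨Real.log C1, fun g κ κi κ' κi' a h i => ?_⟩
    obtain ⟨h1, h2⟩ := h.symm_le hC0 hσ hJJ (le_max_of_le_left hB0 : 0 ≤ max B B')
      (fun i j => (hB i j).trans (le_max_left _ _))
      (fun i j => (hB' i j).trans (le_max_right _ _)) (hform' g) hC1 i
    have hp1 : 0 < ‖a i‖ := norm_pos_iff.2 (h.ne i)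
    have hp2 : 0 < ‖a (Fin.rev i)‖ := norm_pos_iff.2 (h.ne _)
    rw [← Real.log_mul hp1.ne' hp2.ne']
    have hp : 0 < ‖a i‖ * ‖a (Fin.rev i)‖ := mul_pos hp1 hp2
    have hCp : 0 < C1 := by
      by_contra hneg
      have := mul_nonpos_of_nonpos_of_nonneg (not_lt.1 hneg) hp.le
      linarith
    rw [abs_le]
    constructor
    · have h3 := Real.log_le_log one_pos h1
      rw [Real.log_one, Real.log_mul hCp.ne' hp.ne'] at h3
      linarith
    · exact Real.log_le_log hp h2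
  -- boundedness beyond the Witt index
  obtain ⟨L2, hL2⟩ : ∃ L2 : ℝ, ∀ g κ κi κ' κi' a, Dec C (m g) κ κi κ' κi' a → ∀ i : Fin N,
      q * δ ≤ i → Real.log ‖a i‖ ≤ L2 := by
    by_cases hq : q * δ < N
    · obtain ⟨C2, hC2⟩ := exists_bound_fam hq hiso hC0
      refine ⟨Real.log (max C2 1), fun g κ κi κ' κi' a h i hi => ?_⟩
      refine Real.log_le_log (norm_pos_iff.2 (h.ne i)) ?_
      refine le_trans ?_ (le_max_left _ _)
      exact (h.anti (show (⟨q * δ, hq⟩ : Fin N) ≤ i from hi)).trans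
        (hC2 _ _ _ _ _ a h (hform g))
    · exact ⟨0, fun g κ κi κ' κi' a h i hi => absurd (lt_of_le_of_lt hi i.2) hq⟩
  -- the classes
  obtain ⟨e, he⟩ : ∃ e : {i : Fin (N - 1) // δ ∣ (i : ℕ) + 1 ∧
      min (i : ℕ) (N - 2 - i) < q * δ} ↪ Fin (N - 1), e = Function.Embedding.subtype _ := ⟨_, rfl⟩
  have hgap : ∀ g (i : Fin (N - 1)), (¬ min (i : ℕ) (N - 2 - i) < q * δ) →
      gp i g ≤ c * (2 * L2 + L1) + C := by
    intro g i hi
    obtain ⟨κ, κi, κ', κi', a, h, hg⟩ := hdec g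
    have h1 := (abs_le.1 (hg i)).2
    have hi2 := i.2
    have h2 := hL2 g κ κi κ' κi' a h ⟨i, by omega⟩ (by simp only; omega)
    have h3 := hL2 g κ κi κ' κi' a h (Fin.rev ⟨(i : ℕ) + 1, by omega⟩) (by
      rw [Fin.val_rev]; simp only; omega)
    have h4 := (abs_le.1 (hL1 g κ κi κ' κi' a h ⟨(i : ℕ) + 1, by omega⟩)).1
    have h5 : Real.log ‖a ⟨i, by omega⟩‖ - Real.log ‖a ⟨(i : ℕ) + 1, by omega⟩‖ ≤
      2 * L2 + L1 := by linarith
    have h6 := mul_le_mul_of_nonneg_left h5 hc.le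
    linarith
  have hcmp : ∀ g (i j : Fin (N - 1)), (i : ℕ) + j = N - 2 →
      gp j g ≤ gp i g + (2 * c * L1 + 2 * C) := by
    intro g i j hij
    obtain ⟨κ, κi, κ', κi', a, h, hg⟩ := hdec g
    have hi2 := i.2
    have hj2 := j.2
    have h1 := (abs_le.1 (hg i)).1
    have h2 := (abs_le.1 (hg j)).2
    have e1 : Fin.rev (⟨i, by omega⟩ : Fin N) = ⟨(j : ℕ) + 1, by omega⟩ := by
      ext; rw [Fin.val_rev]; simp only; omega
    have e2 : Fin.rev (⟨(i : ℕ) + 1, by omega⟩ : Fin N) = ⟨j, by omega⟩ := by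
      ext; rw [Fin.val_rev]; simp only; omega
    have h3 := (abs_le.1 (hL1 g κ κi κ' κi' a h ⟨i, by omega⟩)).1
    have h4 := (abs_le.1 (hL1 g κ κi κ' κi' a h ⟨(i : ℕ) + 1, by omega⟩)).2
    rw [e1] at h3
    rw [e2] at h4
    have h5 : Real.log ‖a ⟨j, by omega⟩‖ - Real.log ‖a ⟨(j : ℕ) + 1, by omega⟩‖ ≤
      Real.log ‖a ⟨i, by omega⟩‖ - Real.log ‖a ⟨(i : ℕ) + 1, by omega⟩‖ + 2 * L1 := by linarith
    have h6 := mul_le_mul_of_nonneg_left h5 hc.le
    linarith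
  have hc0 : 0 ≤ 2 * c * L1 + 2 * C := by
    have : 0 ≤ L1 := by
      obtain ⟨κ, κi, κ', κi', a, h, -⟩ := hdec 1
      exact (abs_nonneg _).trans (hL1 1 κ κi κ' κi' a h ⟨0, hN⟩)
    positivity
  -- divisibility of the position of the class
  have hmin : ∀ j : {i : Fin (N - 1) // δ ∣ (i : ℕ) + 1 ∧ min (i : ℕ) (N - 2 - i) < q * δ},
      δ ∣ min ((j : Fin (N - 1)) : ℕ) (N - 2 - (j : Fin (N - 1))) + 1 := by
    rintro ⟨j, hj, hj'⟩
    have hj2 := j.2
    simp only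
    rcases le_total (j : ℕ) (N - 2 - j) with h | h
    · rw [min_eq_left h]
      exact hj
    · rw [min_eq_right h]
      have e1 : N - 2 - (j : ℕ) + 1 = N - ((j : ℕ) + 1) := by omega
      rw [e1]
      exact Nat.dvd_sub hδN hj
  have hlt : ∀ j : {i : Fin (N - 1) // δ ∣ (i : ℕ) + 1 ∧ min (i : ℕ) (N - 2 - i) < q * δ},
      (min ((j : Fin (N - 1)) : ℕ) (N - 2 - (j : Fin (N - 1))) + 1) / δ - 1 < q := by
    intro j
    obtain ⟨x, hx⟩ := hmin j
    have h1 := j.2.2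
    have h2 : (min ((j : Fin (N - 1)) : ℕ) (N - 2 - (j : Fin (N - 1))) + 1) / δ = x := by
      rw [hx, Nat.mul_div_cancel_left _ hδ]
    rw [h2]
    have h3 : 0 < x := by
      rcases Nat.eq_zero_or_pos x with h | h
      · rw [h, mul_zero] at hx
        omega
      · exact h
    have h4 : δ * x ≤ q * δ := by omega
    have h5 : x ≤ q := by
      rw [mul_comm δ x] at h4
      exact Nat.le_of_mul_le_mul_right h4 hδ
    omega
  refine ⟨{i : Fin (N - 1) // δ ∣ (i : ℕ) + 1 ∧ min (i : ℕ) (N - 2 - i) < q * δ}, inferInstance,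
    fun j => gp (e j), w, fun j => ⟨_, hlt j⟩, hs.restrict e
      (R0 := max R0 (c * (2 * L2 + L1) + C)) (fun j hj g => ?_), fun R => ?_, fun R => ?_⟩
  · by_cases h : δ ∣ (j : ℕ) + 1
    · refine (hgap g j fun h' => hj ⟨j, h, h'⟩ ?_).trans (le_max_right _ _)
      rw [he]
      rfl
    · exact ((hRj j h g).trans (hR0 j)).trans (le_max_left _ _)
  · refine ⟨R + (2 * c * L1 + 2 * C), fun i j hij g hg => ?_⟩
    rw [he] at hg ⊢
    have h0 : (min ((i : Fin (N - 1)) : ℕ) (N - 2 - (i : Fin (N - 1))) + 1) / δ - 1 =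
        (min ((j : Fin (N - 1)) : ℕ) (N - 2 - (j : Fin (N - 1))) + 1) / δ - 1 :=
      congrArg Fin.val hij
    have h1 : min ((i : Fin (N - 1)) : ℕ) (N - 2 - (i : Fin (N - 1))) =
        min ((j : Fin (N - 1)) : ℕ) (N - 2 - (j : Fin (N - 1))) := by
      obtain ⟨x, hx⟩ := hmin i
      obtain ⟨y, hy⟩ := hmin j
      rw [hx, hy, Nat.mul_div_cancel_left _ hδ, Nat.mul_div_cancel_left _ hδ] at h0
      have hx0 : 0 < x := by
        rcases Nat.eq_zero_or_pos x with h | h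
        · rw [h, mul_zero] at hx
          omega
        · exact h
      have hy0 : 0 < y := by
        rcases Nat.eq_zero_or_pos y with h | h
        · rw [h, mul_zero] at hy
          omega
        · exact h
      have hxy : x = y := by omega
      rw [← hxy] at hy
      omega
    have hi2 := (i : Fin (N - 1)).2
    have hj2 := (j : Fin (N - 1)).2
    have h2 : (i : Fin (N - 1)) = j ∨ (((i : Fin (N - 1)) : ℕ) + ((j : Fin (N - 1)) : ℕ) = N - 2) := by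
      by_cases h : ((i : Fin (N - 1)) : ℕ) = ((j : Fin (N - 1)) : ℕ)
      · exact Or.inl (Fin.ext h)
      · right; omega
    rcases h2 with h2 | h2
    · change gp (j : Fin (N - 1)) g ≤ _
      rw [← h2]
      have hg' : gp (i : Fin (N - 1)) g ≤ R := hg
      linarith
    · have h3 := hcmp g i j h2
      have hg' : gp (i : Fin (N - 1)) g ≤ R := hg
      change gp (j : Fin (N - 1)) g ≤ _
      linarith
  · obtain ⟨R', hR⟩ := hw R
    obtain ⟨K, hK, h1⟩ := proper R'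
    exact ⟨K, hK, fun g hg => h1 g (hR g hg)⟩

end form

end Vale.Agent.P092.H821
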