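import Vale.Agent.P092.H465.DA3
import Vale.Agent.P092.H821.HTgt
import Vale.Agent.P092.H899.V0

/-!
P092 (helper821), row CLASS-H (U3), part 2: the closed groups of isometries of the `ε`-hermitian form
`hypD q ε J₀`, `J₀` anisotropic, over a finite-dimensional division algebra with involution over a local
field are target groups of rank `q`.
-/

set_option linter.all false

namespace Vale.Agent.P092.H821

open Matrix Filter Topology
open Vale.Agent.P092.H515 (Tgt GSys norm_det_form)
open Vale.Agent.P092.H933 (LocK)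
open Vale.Agent.P092.H465.DA
open Vale.Agent.P092.H103.QH
open Vale.Agent.P092.H899.Qu

section alg
variable {k : Type} [Field k] {D : Type} [DivisionRing D] [Algebra k D]
  [FiniteDimensional k D] {n : Type} [Fintype n]

/-- Subspaces of `D ^ n` invariant under the left multiplications. -/
theorem dvd_finrank_left (W : Submodule k (n → D)) (h : ∀ w ∈ W, ∀ d : D, d • w ∈ W) :
    Module.finrank k D ∣ Module.finrank k W := by
  let W' : Submodule D (n → D) :=
    { carrier := W
      add_mem' := fun ha hb => W.add_mem ha hb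
      zero_mem' := W.zero_mem
      smul_mem' := fun d w hw => h w hw d }
  have e : Module.finrank k W' = Module.finrank k W := by
    refine LinearEquiv.finrank_eq (?_ : W' ≃ₗ[k] W)
    exact { toFun := fun x => ⟨x.1, x.2⟩
            map_add' := fun _ _ => rfl
            map_smul' := fun _ _ => rfl
            invFun := fun x => ⟨x.1, x.2⟩
            left_inv := fun _ => rfl
            right_inv := fun _ => rfl }
  have e3 := Module.finrank_mul_finrank k D W'
  rw [e] at e3
  exact ⟨_, e3.symm⟩

variable [StarRing D]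

theorem star_smul_alg (hst : ∀ t : k, star (algebraMap k D t) = algebraMap k D t) (t : k) (x : D) :
    star (t • x) = t • star x := by
  rw [Algebra.smul_def, star_mul, hst, Algebra.smul_def, Algebra.commutes]

variable [DecidableEq n]

theorem hf_ksmul_left (J : Matrix n n D) (t : k) (x y : n → D) : hf J (t • x) y = t • hf J x y := by
  have e : t • x = (algebraMap k D t) • x := by
    funext i
    rw [Pi.smul_apply, Pi.smul_apply, smul_eq_mul, Algebra.smul_def]
  rw [e, hf_smul_left, Algebra.smul_def]

theorem hf_ksmul_right (hst : ∀ t : k, star (algebraMap k D t) = algebraMap k D t)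
    (J : Matrix n n D) (t : k) (x y : n → D) : hf J x (t • y) = t • hf J x y := by
  have e : t • y = (algebraMap k D t) • y := by
    funext i
    rw [Pi.smul_apply, Pi.smul_apply, smul_eq_mul, Algebra.smul_def]
  rw [e, hf_smul_right, hst, Algebra.smul_def, Algebra.commutes]

/-- The form as a `k`-bilinear map. -/
def hfB (hst : ∀ t : k, star (algebraMap k D t) = algebraMap k D t) (J : Matrix n n D) :
    (n → D) →ₗ[k] (n → D) →ₗ[k] D :=
  LinearMap.mk₂ k (hf J) (fun x x' y => hf_add_left J x x' y) (fun t x y => hf_ksmul_left J t x y)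
    (fun x y y' => hf_add_right J x y y') (fun t x y => hf_ksmul_right hst J t x y)

theorem hfB_apply (hst : ∀ t : k, star (algebraMap k D t) = algebraMap k D t) (J : Matrix n n D)
    (x y : n → D) : hfB hst J x y = hf J x y := rfl

end alg

section rank
variable {k : Type} [Field k] {D : Type} [DivisionRing D] [Algebra k D]
  [FiniteDimensional k D] [StarRing D] {q : ℕ}

/-- Dimension count. -/
theorem rank_auxD {V : Type} [AddCommGroup V] [Module k V] [Module.Finite k V]
    (hst : ∀ t : k, star (algebraMap k D t) = algebraMap k D t)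
    (πF πE : V →ₗ[k] (Fin q → D))
    (h1 : ∀ w, πF w = 0 → πE w = 0 → w = 0)
    (h2 : ∀ x w, πF w = 0 → ∑ i, πF x i * star (πE w i) = 0) :
    Module.finrank k V ≤ q * Module.finrank k D := by
  classical
  obtain ⟨T, hT⟩ : ∃ T : D →ₗ[k] k, T ≠ 0 :=
    ⟨(Module.finBasis k D).coord ⟨0, Module.finrank_pos⟩, fun h => by
      have := LinearMap.congr_fun h (Module.finBasis k D ⟨0, Module.finrank_pos⟩)
      simp at this⟩
  obtain ⟨d, hd⟩ : ∃ d, T d ≠ 0 := by
    by_contra h
    push Not at h
    exact hT (LinearMap.ext h)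
  have hrk := LinearMap.finrank_range_add_finrank_ker πF
  -- the pairing
  obtain ⟨Φ, hΦ⟩ : ∃ Φ : (Fin q → D) →ₗ[k] Module.Dual k (Fin q → D),
      ∀ y x, Φ y x = T (∑ i, x i * star (y i)) := by
    refine ⟨LinearMap.mk₂ k (fun y x => T (∑ i, x i * star (y i))) ?_ ?_ ?_ ?_, fun y x => rfl⟩
    · intro y y' x
      rw [← map_add, ← Finset.sum_add_distrib]
      congr 1
      refine Finset.sum_congr rfl fun i _ => ?_
      rw [Pi.add_apply, star_add, mul_add]
    · intro t y x
      rw [← map_smul, Finset.smul_sum]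
      congr 1
      refine Finset.sum_congr rfl fun i _ => ?_
      rw [Pi.smul_apply, star_smul_alg hst, mul_smul_comm]
    · intro y x x'
      rw [← map_add, ← Finset.sum_add_distrib]
      congr 1
      refine Finset.sum_congr rfl fun i _ => ?_
      rw [Pi.add_apply, add_mul]
    · intro t y x
      rw [← map_smul, Finset.smul_sum]
      congr 1
      refine Finset.sum_congr rfl fun i _ => ?_
      rw [Pi.smul_apply, smul_mul_assoc]
  have hΦ0 : ∀ y, Φ y = 0 → y = 0 := by
    intro y hy
    funext i
    by_contra hne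
    have hne' : star (y i) ≠ 0 := fun h => hne (by
      have := congrArg star h
      rwa [star_star, star_zero] at this)
    have h3 := LinearMap.congr_fun hy (Pi.single i (d * (star (y i))⁻¹))
    rw [hΦ, Finset.sum_eq_single i (fun j _ hj => by rw [Pi.single_eq_of_ne hj, zero_mul])
      (by simp), Pi.single_eq_same, inv_mul_cancel_right₀ hne', LinearMap.zero_apply] at h3
    exact hd h3
  -- the kernel embeds in the annihilator of the range
  have hann : ∀ w : LinearMap.ker πF, Φ (πE w) ∈ (LinearMap.range πF).dualAnnihilator := by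
    intro w
    rw [Submodule.mem_dualAnnihilator]
    rintro _ ⟨x, rfl⟩
    rw [hΦ, h2 x w (LinearMap.mem_ker.1 w.2), map_zero]
  obtain ⟨Ψ, hΨ⟩ : ∃ Ψ : LinearMap.ker πF →ₗ[k] (LinearMap.range πF).dualAnnihilator,
      ∀ w, (Ψ w : Module.Dual k (Fin q → D)) = Φ (πE w) :=
    ⟨LinearMap.codRestrict _ (Φ ∘ₗ πE ∘ₗ (LinearMap.ker πF).subtype) hann, fun w => rfl⟩
  have hΨi : Function.Injective Ψ := by
    refine (injective_iff_map_eq_zero Ψ).2 fun w hw => ?_
    have h3 : Φ (πE w) = 0 := by rw [← hΨ, hw]; rfl
    exact Subtype.ext (h1 _ (LinearMap.mem_ker.1 w.2) (hΦ0 _ h3))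
  have h4 := LinearMap.finrank_le_finrank_of_injective hΨi
  have h5 := Subspace.finrank_add_finrank_dualAnnihilator_eq (LinearMap.range πF)
  have h6 : Module.finrank k (Fin q → D) = q * Module.finrank k D := by
    rw [Module.finrank_pi_fintype, Finset.sum_const, Finset.card_univ, Fintype.card_fin,
      smul_eq_mul]
  omega

variable {ι : Type} [Fintype ι] [DecidableEq ι] {ε : D} {J₀ : Matrix ι ι D}

/-- **The Witt index of `hypD q ε J₀` is `q`.** -/
theorem wittD (hst : ∀ t : k, star (algebraMap k D t) = algebraMap k D t) (he : ε = 1 ∨ ε = -1)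
    (hJ : ∀ v : ι → D, v ≠ 0 → hf J₀ v v ≠ 0) (W : Submodule k ((Fin q ⊕ Fin q) ⊕ ι → D))
    (hW : ∀ x ∈ W, ∀ y ∈ W, hf (hypD q ε J₀) x y = 0) :
    Module.finrank k W ≤ q * Module.finrank k D := by
  obtain ⟨πF, hF⟩ : ∃ π : W →ₗ[k] (Fin q → D),
      ∀ x i, π x i = (x : (Fin q ⊕ Fin q) ⊕ ι → D) (.inl (.inr i)) :=
    ⟨(LinearMap.funLeft k D (fun i : Fin q => (.inl (.inr i) : (Fin q ⊕ Fin q) ⊕ ι))).comp
      W.subtype, fun x i => rfl⟩
  obtain ⟨πE, hE⟩ : ∃ π : W →ₗ[k] (Fin q → D),
      ∀ x i, π x i = (x : (Fin q ⊕ Fin q) ⊕ ι → D) (.inl (.inl i)) :=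
    ⟨(LinearMap.funLeft k D (fun i : Fin q => (.inl (.inl i) : (Fin q ⊕ Fin q) ⊕ ι))).comp
      W.subtype, fun x i => rfl⟩
  have hker0 : ∀ w, πF w = 0 → ∀ i, (w : (Fin q ⊕ Fin q) ⊕ ι → D) (.inl (.inr i)) = 0 :=
    fun w hw i => by rw [← hF, hw]; rfl
  have hker1 : ∀ w, πF w = 0 → (fun l => (w : (Fin q ⊕ Fin q) ⊕ ι → D) (.inr l)) = 0 := by
    intro w hw
    have h1 := hW w w.2 w w.2
    rw [hf_hypD he] at h1
    simp only [hker0 w hw, star_zero, mul_zero, zero_mul, Finset.sum_const_zero, zero_add] at h1
    by_contra hne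
    exact hJ _ hne h1
  refine rank_auxD hst πF πE (fun w hw hw' => ?_) fun x w hw => ?_
  · apply Subtype.ext
    funext a
    rcases a with (i | i) | l
    · have := congrFun hw' i
      rw [hE] at this
      exact this
    · exact hker0 w hw i
    · exact congrFun (hker1 w hw) l
  · have h1 := hW x x.2 w w.2
    rw [hf_hypD he, hker1 w hw, hf_zero_right] at h1
    simp only [hker0 w hw, star_zero, mul_zero, Finset.sum_const_zero, zero_add, add_zero] at h1
    have h3 := (mul_eq_zero.1 h1).resolve_left (eps_ne he)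
    rw [← h3]
    exact Finset.sum_congr rfl fun i _ => by rw [hF, hE]

end rank

section top
variable (k : Type) [NontriviallyNormedField k] [ProperSpace k]
  (n D : Type) [Fintype n] [DecidableEq n] [NormedDivisionRing D] [NormedAlgebra k D]
  [FiniteDimensional k D]

/-- right multiplication by a matrix, as a `k`-linear map -/
def rvm : Matrix n n D →ₗ[k] (n → D) →ₗ[k] (n → D) :=
  LinearMap.mk₂ k (fun M x => x ᵥ* M) (fun M M' x => vecMul_add M M' x)
    (fun c M x => vecMul_smul x c M) (fun M x y => add_vecMul M x y)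
    (fun c M x => smul_vecMul c x M)

theorem rvm_apply (M : Matrix n n D) (x : n → D) : rvm k n D M x = x ᵥ* M := rfl

theorem rvm_mul (M M' : Matrix n n D) : rvm k n D (M * M') = rvm k n D M' ∘ₗ rvm k n D M :=
  LinearMap.ext fun x => (vecMul_vecMul x M M').symm

theorem rvm_injective : Function.Injective (rvm k n D) := by
  intro M M' h
  ext i j
  have h1 := congrFun (LinearMap.congr_fun h (Pi.single i 1)) j
  rw [rvm_apply, rvm_apply, single_one_vecMul, single_one_vecMul] at h1
  exact h1

/-- **the representation by rows** -/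
noncomputable def repT : Matrix n n D →ₗ[k] Matrix (Fin (dm k n D)) (Fin (dm k n D)) k :=
  (Matrix.transposeLinearEquiv _ _ k k).toLinearMap ∘ₗ
    (LinearMap.toMatrix (bs k n D) (bs k n D)).toLinearMap ∘ₗ rvm k n D

theorem repT_apply (M : Matrix n n D) :
    repT k n D M = (LinearMap.toMatrix (bs k n D) (bs k n D) (rvm k n D M))ᵀ := rfl

theorem repT_mul (M M' : Matrix n n D) : repT k n D (M * M') = repT k n D M * repT k n D M' := by
  rw [repT_apply, repT_apply, repT_apply, rvm_mul,
    LinearMap.toMatrix_comp (bs k n D) (bs k n D) (bs k n D), transpose_mul]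

theorem repT_injective : Function.Injective (repT k n D) := by
  intro M M' h
  rw [repT_apply, repT_apply] at h
  exact rvm_injective k n D ((LinearMap.toMatrix (bs k n D) (bs k n D)).injective
    (transpose_injective h))

theorem isClosedEmbedding_repT : IsClosedEmbedding (repT k n D) := by
  have h := LinearMap.isClosedEmbedding_of_injective
    (f := repT k n D) (LinearMap.ker_eq_bot.2 (repT_injective k n D))
  exact h

theorem repT_row (M : Matrix n n D) (a : Fin (dm k n D)) :
    (bs k n D).equivFun.symm (repT k n D M a) = bs k n D a ᵥ* M := by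
  rw [Module.Basis.equivFun_symm_apply]
  have h := (bs k n D).sum_repr (rvm k n D M (bs k n D a))
  rw [rvm_apply] at h
  conv_rhs => rw [← h]
  refine Finset.sum_congr rfl fun c _ => ?_
  rw [repT_apply, transpose_apply, LinearMap.toMatrix_apply]
  rfl

/-- left multiplication as a linear map -/
def lsm (d : D) : (n → D) →ₗ[k] (n → D) where
  toFun x := d • x
  map_add' x y := smul_add _ _ _
  map_smul' c x := by
    funext i
    show d * (c • x i) = c • (d * x i)
    rw [mul_smul_comm]

theorem lsm_rvm (M : Matrix n n D) (d : D) :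
    (rvm k n D M) ∘ₗ (lsm k n D d) = (lsm k n D d) ∘ₗ (rvm k n D M) :=
  LinearMap.ext fun x => smul_vecMul d x M

variable [StarRing D] {k n D}

/-- The matrix of the form. -/
noncomputable def JT (J : Matrix n n D) (T : D →ₗ[k] k) :
    Matrix (Fin (dm k n D)) (Fin (dm k n D)) k :=
  of fun a b => T (hf J (bs k n D a) (bs k n D b))

theorem JT_apply (hst : ∀ t : k, star (algebraMap k D t) = algebraMap k D t) (J : Matrix n n D)
    (T : D →ₗ[k] k) (v w : Fin (dm k n D) → k) :
    v ⬝ᵥ (JT J T *ᵥ w) =
      T (hf J ((bs k n D).equivFun.symm v) ((bs k n D).equivFun.symm w)) := by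
  rw [Module.Basis.equivFun_symm_apply, Module.Basis.equivFun_symm_apply, ← hfB_apply hst]
  simp only [map_sum, map_smul, LinearMap.sum_apply, LinearMap.smul_apply, smul_eq_mul,
    dotProduct, mulVec, hfB_apply, JT, of_apply, Finset.mul_sum]
  rw [Finset.sum_comm]
  refine Finset.sum_congr rfl fun a _ => Finset.sum_congr rfl fun b _ => ?_
  ring

theorem JT_form (hst : ∀ t : k, star (algebraMap k D t) = algebraMap k D t) {J : Matrix n n D}
    (T : D →ₗ[k] k) {g : (Matrix n n D)ˣ} (hg : g ∈ FG J) :
    repT k n D g.1 * JT J T * (repT k n D g.1)ᵀ = JT J T := by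
  ext a b
  have h1 : (repT k n D g.1 * JT J T * (repT k n D g.1)ᵀ) a b =
      repT k n D g.1 a ⬝ᵥ (JT J T *ᵥ repT k n D g.1 b) := by
    rw [Matrix.mul_assoc, Matrix.mul_apply]
    rfl
  rw [h1, JT_apply hst, repT_row, repT_row, mem_FG.1 hg]
  rfl

theorem JT_det (hst : ∀ t : k, star (algebraMap k D t) = algebraMap k D t) {J : Matrix n n D}
    (hnd : ∀ x, x ≠ 0 → ∃ y, hf J x y ≠ 0) {T : D →ₗ[k] k} (hT : T ≠ 0) :
    (JT J T).det ≠ 0 := by
  intro h0
  obtain ⟨v, hv, hv0⟩ := Matrix.exists_vecMul_eq_zero_iff.2 h0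
  obtain ⟨d, hd⟩ : ∃ d, T d ≠ 0 := by
    by_contra h
    push Not at h
    exact hT (LinearMap.ext h)
  obtain ⟨x, hx⟩ : ∃ x, x = (bs k n D).equivFun.symm v := ⟨_, rfl⟩
  have hx0 : x ≠ 0 := by
    rw [hx]
    intro h
    exact hv ((LinearEquiv.map_eq_zero_iff _).1 h)
  obtain ⟨y, hy⟩ := hnd x hx0
  have h1 : ∀ w : n → D, T (hf J x w) = 0 := by
    intro w
    have h2 := JT_apply hst J T v ((bs k n D).equivFun w)
    rw [LinearEquiv.symm_apply_apply, ← hx, dotProduct_mulVec, hv0, zero_dotProduct] at h2
    exact h2.symm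
  have h3 := h1 (star ((hf J x y)⁻¹ * d) • y)
  rw [hf_smul_right, star_star, mul_inv_cancel_left₀ hy] at h3
  exact hd h3

/-- **Target groups from hermitian forms.** -/
theorem tgt_FG_of (hk : LocK k) (hst : ∀ t : k, star (algebraMap k D t) = algebraMap k D t)
    [Nonempty n] {J : Matrix n n D} (hnd : ∀ x, x ≠ 0 → ∃ y, hf J x y ≠ 0) {q : ℕ}
    (hiso : ∀ W : Submodule k (n → D), (∀ x ∈ W, ∀ y ∈ W, hf J x y = 0) →
      Module.finrank k W ≤ q * Module.finrank k D) {G : Subgroup (Matrix n n D)ˣ}
    (hG : G ≤ FG J) (hcl : IsClosedEmbedding fun g : G => g.1.1) : Tgt G q := by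
  have hN : 0 < dm k n D := Module.finrank_pos
  have hδ : 0 < Module.finrank k D := Module.finrank_pos
  refine tgt_fdiv (m := fun g : G => repT k n D g.1.1) (τ := Fin (Module.finrank k D))
    (J := fun t => JT J ((Module.finBasis k D).coord t)) (δ := Module.finrank k D)
    (S := Set.range fun d : D => LinearMap.toMatrix (bs k n D) (bs k n D) (lsm k n D d))
    hk hN (fun g h => ?_) (fun R => ?_) ⟨0, hδ⟩ (JT_det hst hnd ?_) (fun g t => ?_)
    (fun g X hX => ?_) (fun W hW => ?_) (fun v hv => ?_)
  · exact repT_mul k n D g.1.1 h.1.1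
  · have h1 : IsClosedEmbedding fun g : G => repT k n D g.1.1 :=
      (isClosedEmbedding_repT k n D).comp hcl
    exact ⟨_, h1.isCompact_preimage (isCompact_bdd R), fun g hg => hg⟩
  · intro h
    have := LinearMap.congr_fun h (Module.finBasis k D ⟨0, hδ⟩)
    simp at this
  · exact JT_form hst _ (hG g.2)
  · obtain ⟨d, rfl⟩ := hX
    dsimp only
    rw [repT_apply, transpose_transpose, ← LinearMap.toMatrix_comp, ← LinearMap.toMatrix_comp,
      lsm_rvm]
  · have e : Module.finrank k W =
        Module.finrank k (W.comap (bs k n D).equivFun.toLinearMap) := by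
      refine (LinearEquiv.finrank_eq ?_).symm
      exact (bs k n D).equivFun.submoduleMap
        (W.comap (bs k n D).equivFun.toLinearMap) ≪≫ₗ
        LinearEquiv.ofEq _ _ (Submodule.map_comap_eq_of_surjective
          (bs k n D).equivFun.surjective W)
    rw [e]
    refine dvd_finrank_left _ fun w hw d => ?_
    rw [Submodule.mem_comap] at hw ⊢
    have h1 := hW _ ⟨d, rfl⟩ _ hw
    have h2 : LinearMap.toMatrix (bs k n D) (bs k n D) (lsm k n D d) *ᵥ
        ((bs k n D).equivFun w) = (bs k n D).equivFun (lsm k n D d w) := by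
      have := LinearMap.toMatrix_mulVec_repr (bs k n D) (bs k n D)
        (lsm k n D d) w
      exact this
    have h3 : LinearMap.toMatrix (bs k n D) (bs k n D) (lsm k n D d) *ᵥ
        ((bs k n D).equivFun.toLinearMap w) ∈ W := h1
    exact h2 ▸ h3
  · by_contra hcon
    push Not at hcon
    obtain ⟨u, hu⟩ : ∃ u : Fin (q * Module.finrank k D + 1) → n → D,
      u = fun i => (bs k n D).equivFun.symm (v i) := ⟨_, rfl⟩
    have hui : LinearIndependent k u := by
      rw [hu]
      exact hv.map' (bs k n D).equivFun.symm.toLinearMap (LinearEquiv.ker _)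
    have hu0 : ∀ i j, hf J (u i) (u j) = 0 := by
      intro i j
      refine (Module.finBasis k D).ext_elem fun t => ?_
      have h1 := hcon t i j
      rw [JT_apply hst] at h1
      rw [map_zero, hu]
      exact h1
    have hW0 : ∀ x ∈ Submodule.span k (Set.range u), ∀ y ∈ Submodule.span k (Set.range u),
        hf J x y = 0 := by
      intro x hx y hy
      induction hx using Submodule.span_induction with
      | mem x hx =>
        obtain ⟨i, rfl⟩ := hx
        induction hy using Submodule.span_induction with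
        | mem y hy =>
          obtain ⟨j, rfl⟩ := hy
          exact hu0 i j
        | zero => exact hf_zero_right J _
        | add y z _ _ h1 h2 => rw [hf_add_right, h1, h2, add_zero]
        | smul c y _ h1 => rw [hf_ksmul_right hst, h1, smul_zero]
      | zero => exact hf_zero_left J _
      | add x z _ _ h1 h2 => rw [hf_add_left, h1, h2, add_zero]
      | smul c x _ h1 => rw [hf_ksmul_left, h1, smul_zero]
    have h1 := hiso _ hW0
    rw [finrank_span_eq_card hui, Fintype.card_fin] at h1
    omega

end top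

end Vale.Agent.P092.H821
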