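import Vale.Agent.P092.H565.ThProd

/-!
P092-Q (helper821), block [Q-THETA], part 1: the operation
`th b c T = ∫ b(y) T c(y)* dy` on `B(K)` for square integrable families of operators.
-/

set_option linter.all false

open MeasureTheory Filter Topology ContinuousLinearMap
open scoped InnerProductSpace ENNReal

namespace Vale.Agent.P092.H821

open Vale.Agent.P092.H565 (SqFam memLp_prod integrable_inner_of_memLp)

section sq

variable {Y : Type*} [TopologicalSpace Y] [SecondCountableTopology Y] [MeasurableSpace Y]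
  [OpensMeasurableSpace Y] {ν : Measure Y}
variable {L L' L'' : Type*} [NormedAddCommGroup L] [InnerProductSpace ℂ L]
  [NormedAddCommGroup L'] [InnerProductSpace ℂ L'] [NormedAddCommGroup L'']
  [InnerProductSpace ℂ L'']

theorem sqFam_comp {T : Y → (L →L[ℂ] L')} {κ : ℝ} (h : SqFam ν T κ) (S : L' →L[ℂ] L'') :
    SqFam ν (fun y => S ∘L T y) (‖S‖ * κ) where
  cont := fun x => S.continuous.comp (h.cont x)
  bd := fun x => by
    have h1 : eLpNorm (fun y => (S ∘L T y) x) 2 ν ≤ ENNReal.ofReal ‖S‖ * eLpNorm (fun y => T y x) 2 ν := by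
      refine eLpNorm_le_mul_eLpNorm_of_ae_le_mul (Eventually.of_forall fun y => ?_) 2
      exact S.le_opNorm _
    refine h1.trans ?_
    rw [mul_assoc, ENNReal.ofReal_mul (norm_nonneg _)]
    gcongr
    exact h.bd x

theorem sqFam_mono {T : Y → (L →L[ℂ] L')} {κ κ' : ℝ} (h : SqFam ν T κ) (hk : κ ≤ κ') :
    SqFam ν T κ' where
  cont := h.cont
  bd := fun x => (h.bd x).trans (ENNReal.ofReal_le_ofReal (by gcongr))

end sq

section th

variable {G : Type*} [TopologicalSpace G] [SecondCountableTopology G] [MeasurableSpace G]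
  [OpensMeasurableSpace G] {μ : Measure G}
variable {K : Type*} [NormedAddCommGroup K] [InnerProductSpace ℂ K] [CompleteSpace K]

/-- a norm continuous family of operators which together with its adjoint is square integrable with
constant `B` -/
structure SqB (μ : Measure G) (b : G → K →L[ℂ] K) (B : ℝ) : Prop where
  nn : 0 ≤ B
  cont : Continuous b
  sq : SqFam μ b B
  sqa : SqFam μ (fun y => adjoint (b y)) B

theorem SqB.adj {b : G → K →L[ℂ] K} {B : ℝ} (h : SqB μ b B) : SqB μ (fun y => adjoint (b y)) B where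
  nn := h.nn
  cont := by
    have h1 : Continuous fun T : K →L[ℂ] K => adjoint T := (adjoint (𝕜 := ℂ) (E := K) (F := K)).continuous
    exact h1.comp h.cont
  sq := h.sqa
  sqa := by simpa only [adjoint_adjoint] using h.sq

/-- `th b c T = ∫ b(y) T c(y)* dy` -/
noncomputable def th (μ : Measure G) (b c : G → K →L[ℂ] K) (T : K →L[ℂ] K) : K →L[ℂ] K := by
  classical
  exact if h : (∃ B, SqB μ b B) ∧ (∃ C, SqB μ c C) then
    adjoint ((Exists.choose_spec h.1).sqa.W (Exists.choose_spec h.1).nn) ∘L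
      (sqFam_comp (Exists.choose_spec h.2).sqa T).W
        (mul_nonneg (norm_nonneg _) (Exists.choose_spec h.2).nn)
  else 0

variable {b c : G → K →L[ℂ] K} {B C : ℝ}

theorem inner_th (hb : SqB μ b B) (hc : SqB μ c C) (T : K →L[ℂ] K) (ζ η : K) :
    ⟪ζ, th μ b c T η⟫_ℂ = ∫ y, ⟪adjoint (b y) ζ, T (adjoint (c y) η)⟫_ℂ ∂μ := by
  have h : (∃ B, SqB μ b B) ∧ (∃ C, SqB μ c C) := ⟨⟨B, hb⟩, ⟨C, hc⟩⟩
  unfold th
  rw [dif_pos h, ContinuousLinearMap.comp_apply, adjoint_inner_right]
  exact (Exists.choose_spec h.1).sqa.inner_W _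
    (sqFam_comp (Exists.choose_spec h.2).sqa T) _ ζ η

theorem int_th (hb : SqB μ b B) (hc : SqB μ c C) (T : K →L[ℂ] K) (ζ η : K) :
    Integrable (fun y => ⟪adjoint (b y) ζ, T (adjoint (c y) η)⟫_ℂ) μ :=
  hb.sqa.integrable (sqFam_comp hc.sqa T) ζ η

theorem op_ext {S T : K →L[ℂ] K} (h : ∀ z x : K, ⟪z, S x⟫_ℂ = ⟪z, T x⟫_ℂ) : S = T :=
  ContinuousLinearMap.ext fun x => ext_inner_left ℂ fun z => h z x

theorem norm_le_of_inner {S : K →L[ℂ] K} {M : ℝ} (hM : 0 ≤ M)
    (h : ∀ z x : K, ‖⟪z, S x⟫_ℂ‖ ≤ M * ‖z‖ * ‖x‖) : ‖S‖ ≤ M := by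
  refine ContinuousLinearMap.opNorm_le_bound _ hM fun x => ?_
  by_cases h0 : ‖S x‖ = 0
  · rw [h0]; positivity
  have h1 := h (S x) x
  have h2 : ‖⟪S x, S x⟫_ℂ‖ = ‖S x‖ * ‖S x‖ := by
    rw [inner_self_eq_norm_sq_to_K, norm_pow]
    simp [sq]
  rw [h2] at h1
  have h3 : 0 < ‖S x‖ := lt_of_le_of_ne (norm_nonneg _) (Ne.symm h0)
  nlinarith

theorem norm_th_le (hb : SqB μ b B) (hc : SqB μ c C) (T : K →L[ℂ] K) :
    ‖th μ b c T‖ ≤ B * C * ‖T‖ := by
  have := hb.nn
  have := hc.nn
  refine norm_le_of_inner (by positivity) fun z x => ?_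
  rw [inner_th hb hc]
  refine (hb.sqa.norm_integral_le hb.nn (sqFam_comp hc.sqa T)
    (mul_nonneg (norm_nonneg _) hc.nn) z x).trans (le_of_eq ?_)
  ring

/-- the value at a vector -/
theorem norm_th_apply_le (hb : SqB μ b B) (hc : SqB μ c C) (T : K →L[ℂ] K) (η : K) :
    ‖th μ b c T η‖ₑ ≤ ENNReal.ofReal B * eLpNorm (fun y => T (adjoint (c y) η)) 2 μ := by
  set x := th μ b c T η with hx
  have hm : MemLp (fun y => T (adjoint (c y) η)) 2 μ := (sqFam_comp hc.sqa T).memLp η
  have h1 : ‖x‖ ^ 2 ≤ B * ‖x‖ * (eLpNorm (fun y => T (adjoint (c y) η)) 2 μ).toReal := by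
    have h2 : ((‖x‖ ^ 2 : ℝ) : ℂ) = ⟪x, x⟫_ℂ := by
      rw [inner_self_eq_norm_sq_to_K]; norm_cast
    have h3 : ‖x‖ ^ 2 = ‖⟪x, x⟫_ℂ‖ := by
      rw [← h2, Complex.norm_real, Real.norm_of_nonneg (by positivity)]
    rw [h3]
    conv_lhs => rw [hx]
    rw [← hx, inner_th hb hc]
    have h4 : ∫ y, ⟪adjoint (b y) x, T (adjoint (c y) η)⟫_ℂ ∂μ =
        ⟪hb.sqa.W hb.nn x, hm.toLp _⟫_ℂ := by
      rw [SqFam.W_apply, MeasureTheory.L2.inner_def]
      refine integral_congr_ae ?_
      filter_upwards [(hb.sqa.memLp x).coeFn_toLp, hm.coeFn_toLp] with y h1 h2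
      rw [h1, h2]
    rw [h4]
    refine (norm_inner_le_norm _ _).trans ?_
    rw [Lp.norm_toLp]
    gcongr
    exact (hb.sqa.W hb.nn).le_of_opNorm_le (hb.sqa.norm_W_le hb.nn) x
  have h5 : ‖x‖ ≤ B * (eLpNorm (fun y => T (adjoint (c y) η)) 2 μ).toReal := by
    by_cases h0 : ‖x‖ = 0
    · rw [h0]
      have := hb.nn
      positivity
    · have h6 : 0 < ‖x‖ := lt_of_le_of_ne (norm_nonneg _) (Ne.symm h0)
      nlinarith
  calc ‖x‖ₑ = ENNReal.ofReal ‖x‖ := (ofReal_norm_eq_enorm x).symm
    _ ≤ ENNReal.ofReal (B * (eLpNorm (fun y => T (adjoint (c y) η)) 2 μ).toReal) :=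
        ENNReal.ofReal_le_ofReal h5
    _ = _ := by rw [ENNReal.ofReal_mul hb.nn, ENNReal.ofReal_toReal hm.2.ne]

theorem th_add (hb : SqB μ b B) (hc : SqB μ c C) (S T : K →L[ℂ] K) :
    th μ b c (S + T) = th μ b c S + th μ b c T := by
  refine op_ext fun z x => ?_
  rw [add_apply, inner_add_right, inner_th hb hc, inner_th hb hc, inner_th hb hc,
    ← integral_add (int_th hb hc S z x) (int_th hb hc T z x)]
  refine integral_congr_ae (Eventually.of_forall fun y => ?_)
  simp only
  rw [add_apply, inner_add_right]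

theorem th_smul (hb : SqB μ b B) (hc : SqB μ c C) (t : ℂ) (T : K →L[ℂ] K) :
    th μ b c (t • T) = t • th μ b c T := by
  refine op_ext fun z x => ?_
  rw [smul_apply, inner_smul_right, inner_th hb hc, inner_th hb hc, ← integral_const_mul]
  refine integral_congr_ae (Eventually.of_forall fun y => ?_)
  simp only
  rw [smul_apply, inner_smul_right]

theorem th_sub (hb : SqB μ b B) (hc : SqB μ c C) (S T : K →L[ℂ] K) :
    th μ b c (S - T) = th μ b c S - th μ b c T := by
  have h := th_add hb hc (S - T) T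
  rw [sub_add_cancel] at h
  rw [h, add_sub_cancel_right]

theorem th_add_left {b' : G → K →L[ℂ] K} {B' B'' : ℝ} (hb : SqB μ b B) (hb' : SqB μ b' B')
    (hbb : SqB μ (fun y => b y + b' y) B'') (hc : SqB μ c C) (T : K →L[ℂ] K) :
    th μ (fun y => b y + b' y) c T = th μ b c T + th μ b' c T := by
  refine op_ext fun z x => ?_
  rw [add_apply, inner_add_right, inner_th hbb hc, inner_th hb hc, inner_th hb' hc,
    ← integral_add (int_th hb hc T z x) (int_th hb' hc T z x)]
  refine integral_congr_ae (Eventually.of_forall fun y => ?_)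
  simp only
  rw [map_add, add_apply, inner_add_left]

theorem th_add_right {c' : G → K →L[ℂ] K} {C' C'' : ℝ} (hb : SqB μ b B) (hc : SqB μ c C)
    (hc' : SqB μ c' C') (hcc : SqB μ (fun y => c y + c' y) C'') (T : K →L[ℂ] K) :
    th μ b (fun y => c y + c' y) T = th μ b c T + th μ b c' T := by
  refine op_ext fun z x => ?_
  rw [add_apply, inner_add_right, inner_th hb hcc, inner_th hb hc, inner_th hb hc',
    ← integral_add (int_th hb hc T z x) (int_th hb hc' T z x)]
  refine integral_congr_ae (Eventually.of_forall fun y => ?_)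
  simp only
  rw [map_add, add_apply, map_add, inner_add_right]

theorem th_smul_left {B' : ℝ} (hb : SqB μ b B) (t : ℂ) (hb' : SqB μ (fun y => t • b y) B')
    (hc : SqB μ c C) (T : K →L[ℂ] K) : th μ (fun y => t • b y) c T = t • th μ b c T := by
  refine op_ext fun z x => ?_
  rw [smul_apply, inner_smul_right, inner_th hb' hc, inner_th hb hc, ← integral_const_mul]
  refine integral_congr_ae (Eventually.of_forall fun y => ?_)
  simp only
  rw [LinearIsometryEquiv.map_smulₛₗ, smul_apply, inner_smul_left]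
  simp

theorem th_smul_right {C' : ℝ} (hb : SqB μ b B) (hc : SqB μ c C) (t : ℂ)
    (hc' : SqB μ (fun y => t • c y) C') (T : K →L[ℂ] K) :
    th μ b (fun y => t • c y) T = star t • th μ b c T := by
  refine op_ext fun z x => ?_
  rw [smul_apply, inner_smul_right, inner_th hb hc', inner_th hb hc, ← integral_const_mul]
  refine integral_congr_ae (Eventually.of_forall fun y => ?_)
  simp only
  rw [LinearIsometryEquiv.map_smulₛₗ, smul_apply, map_smul, inner_smul_right]
  simp

theorem adjoint_th (hb : SqB μ b B) (hc : SqB μ c C) (T : K →L[ℂ] K) :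
    adjoint (th μ b c T) = th μ c b (adjoint T) := by
  refine op_ext fun z x => ?_
  rw [adjoint_inner_right, ← inner_conj_symm, inner_th hb hc, inner_th hc hb, ← integral_conj]
  refine integral_congr_ae (Eventually.of_forall fun y => ?_)
  simp only
  rw [inner_conj_symm, adjoint_inner_right (b y), adjoint_inner_right T, adjoint_inner_right (b y)]

end th

section grp

variable {G : Type*} [Group G] [TopologicalSpace G] [IsTopologicalGroup G]
  [SecondCountableTopology G] [MeasurableSpace G] [BorelSpace G] {μ : Measure G}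
variable {K : Type*} [NormedAddCommGroup K] [InnerProductSpace ℂ K] [CompleteSpace K]
  {b c b' c' : G → K →L[ℂ] K} {B C B' C' : ℝ}

/-- equivariance for the left translations -/
theorem th_equiv [μ.IsMulLeftInvariant] (hb : SqB μ b B) (hc : SqB μ c C) {g : G}
    {U U' : K →L[ℂ] K} (hU : adjoint U = U') (hUU : U * U' = 1)  (hUU' : U' * U = 1)
    (eb : ∀ y, b (g * y) = U * b y * U') (ec : ∀ y, c (g * y) = U * c y * U')
    (T : K →L[ℂ] K) : th μ b c (U * T * U') = U * th μ b c T * U' := by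
  have hU' : adjoint U' = U := by rw [← hU, adjoint_adjoint]
  have eU : ∀ z : K, U' (U z) = z := fun z => by
    have := congrArg (fun S : K →L[ℂ] K => S z) hUU'
    exact this
  refine op_ext fun z x => ?_
  have e1 : ⟪z, (U * th μ b c T * U') x⟫_ℂ = ⟪U' z, th μ b c T (U' x)⟫_ℂ := by
    change ⟪z, U (th μ b c T (U' x))⟫_ℂ = _
    rw [← hU, adjoint_inner_left]
  rw [e1, inner_th hb hc, inner_th hb hc, ← integral_mul_left_eq_self _ g]
  refine integral_congr_ae (Eventually.of_forall fun y => ?_)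
  simp only
  have e2 : ∀ a : K →L[ℂ] K, adjoint (U * a * U') = U * adjoint a * U' := by
    intro a
    change star (U * a * U') = U * star a * U'
    rw [star_mul, star_mul, star_eq_adjoint U', star_eq_adjoint U, hU, hU', mul_assoc]
  rw [eb, ec, e2, e2]
  change ⟪U (adjoint (b y) (U' z)), U (T (U' (U (adjoint (c y) (U' x)))))⟫_ℂ = _
  rw [eU, ← adjoint_inner_right, hU, eU]

/-- covariance under conjugation -/
theorem th_conj (hb : SqB μ b B) (hc : SqB μ c C) {U U' : K →L[ℂ] K} (hU : adjoint U = U')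
    (hUU : U * U' = 1) (hUU' : U' * U = 1) (hb' : SqB μ (fun y => U * b y * U') B')
    (hc' : SqB μ (fun y => U * c y * U') C') (T : K →L[ℂ] K) :
    th μ (fun y => U * b y * U') (fun y => U * c y * U') (U * T * U') = U * th μ b c T * U' := by
  have hU' : adjoint U' = U := by rw [← hU, adjoint_adjoint]
  have eU : ∀ z : K, U' (U z) = z := fun z => by
    have := congrArg (fun S : K →L[ℂ] K => S z) hUU'
    exact this
  refine op_ext fun z x => ?_
  have e1 : ⟪z, (U * th μ b c T * U') x⟫_ℂ = ⟪U' z, th μ b c T (U' x)⟫_ℂ := by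
    change ⟪z, U (th μ b c T (U' x))⟫_ℂ = _
    rw [← hU, adjoint_inner_left]
  rw [e1, inner_th hb hc, inner_th hb' hc']
  refine integral_congr_ae (Eventually.of_forall fun y => ?_)
  simp only
  have e2 : ∀ a : K →L[ℂ] K, adjoint (U * a * U') = U * adjoint a * U' := by
    intro a
    change star (U * a * U') = U * star a * U'
    rw [star_mul, star_mul, star_eq_adjoint U', star_eq_adjoint U, hU, hU', mul_assoc]
  rw [e2, e2]
  change ⟪U (adjoint (b y) (U' z)), U (T (U' (U (adjoint (c y) (U' x)))))⟫_ℂ = _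
  rw [eU, ← adjoint_inner_right, hU, eU]

theorem mul_adj (a a' : K →L[ℂ] K) (z : K) : adjoint (a * a') z = adjoint a' (adjoint a z) := by
  change (star (a * a')) z = _
  rw [star_mul]
  rfl

theorem memLp_pair [SFinite μ] [μ.IsMulLeftInvariant] (hb : SqB μ b B) (hb' : SqB μ b' B') (z : K) :
    MemLp (fun p : G × G => adjoint (b' (p.1 * p.2)) (adjoint (b p.1) z)) 2 (μ.prod μ) := by
  have hca : Continuous fun T : K →L[ℂ] K => adjoint T :=
    (adjoint (𝕜 := ℂ) (E := K) (F := K)).continuous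
  refine memLp_prod (κ := B') (κ' := B * ‖z‖) (g := fun y => adjoint (b y) z) ?_ hb'.nn ?_
    (hb.sqa.bd z)
  · refine Continuous.aestronglyMeasurable ?_
    refine Continuous.clm_apply ?_ ?_
    · exact hca.comp (hb'.cont.comp (continuous_fst.mul continuous_snd))
    · exact (hca.comp (hb.cont.comp continuous_fst)).clm_apply continuous_const
  · intro y
    simp only
    have h1 := hb'.sqa.bd (adjoint (b y) z)
    have h2 : eLpNorm (fun w => adjoint (b' (y * w)) (adjoint (b y) z)) 2 μ =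
        eLpNorm (fun w => adjoint (b' w) (adjoint (b y) z)) 2 μ :=
      eLpNorm_comp_measurePreserving (g := fun w => adjoint (b' w) (adjoint (b y) z))
        (hb'.sqa.cont _).aestronglyMeasurable (measurePreserving_mul_left μ y)
    rw [h2]
    exact h1

/-- **the product formula** -/
theorem th_prod [SFinite μ] [μ.IsMulLeftInvariant] (hb : SqB μ b B) (hc : SqB μ c C)
    (hb' : SqB μ b' B') (hc' : SqB μ c' C')
    (hbb : ∀ w, ∃ D, SqB μ (fun y => b y * b' (y * w)) D)
    (hcc : ∀ w, ∃ D, SqB μ (fun y => c y * c' (y * w)) D) (T : K →L[ℂ] K) (z x : K) :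
    ⟪z, th μ b c (th μ b' c' T) x⟫_ℂ =
      ∫ w, ⟪z, th μ (fun y => b y * b' (y * w)) (fun y => c y * c' (y * w)) T x⟫_ℂ ∂μ := by
  have hI : Integrable (fun p : G × G => ⟪adjoint (b' (p.1 * p.2)) (adjoint (b p.1) z),
      T (adjoint (c' (p.1 * p.2)) (adjoint (c p.1) x))⟫_ℂ) (μ.prod μ) :=
    integrable_inner_of_memLp (memLp_pair hb hb' z) (T.comp_memLp' (memLp_pair hc hc' x))
  have h1 := integral_integral_swap
    (f := fun y w => ⟪adjoint (b' (y * w)) (adjoint (b y) z),
      T (adjoint (c' (y * w)) (adjoint (c y) x))⟫_ℂ) hI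
  have h2 : ∀ w, ⟪z, th μ (fun y => b y * b' (y * w)) (fun y => c y * c' (y * w)) T x⟫_ℂ =
      ∫ y, ⟪adjoint (b' (y * w)) (adjoint (b y) z),
        T (adjoint (c' (y * w)) (adjoint (c y) x))⟫_ℂ ∂μ := by
    intro w
    obtain ⟨D, hD⟩ := hbb w
    obtain ⟨D', hD'⟩ := hcc w
    rw [inner_th hD hD']
    refine integral_congr_ae (Eventually.of_forall fun y => ?_)
    simp only
    rw [mul_adj, mul_adj]
  simp only [h2]
  rw [← h1, inner_th hb hc]
  refine integral_congr_ae (Eventually.of_forall fun y => ?_)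
  simp only
  rw [inner_th hb' hc', ← integral_mul_left_eq_self _ y]

end grp

end Vale.Agent.P092.H821
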