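import Vale.Agent.P092.H821.Th1
import Vale.Agent.P092.H720.TwA
import Vale.Agent.P092.H978.Prod
import Vale.Agent.P092.H242.ThCK2

/-!
P092-Q (helper821), block [Q-THETA], part 2: product fields and the fields
`u ↦ ∫ b(y) x(u) c(y)* dy`.
-/

set_option linter.all false

open MeasureTheory Filter Topology ContinuousLinearMap
open scoped InnerProductSpace ENNReal

namespace Vale.Agent.P092.H821

open Vale.Agent.P092.H160
open Vale.Agent.P092.H156.Sm
open Vale.Agent.P092.H565 (SqFam)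

section norms

theorem eLpNorm_two_sq {α E : Type*} [MeasurableSpace α] [NormedAddCommGroup E] (f : α → E)
    (μ : Measure α) : eLpNorm f 2 μ ^ 2 = ∫⁻ x, ‖f x‖ₑ ^ 2 ∂μ := by
  have h := eLpNorm_nnreal_pow_eq_lintegral (f := f) (μ := μ) (p := 2) two_ne_zero
  simpa using h

theorem eLpNorm_le_of_sq {α E : Type*} [MeasurableSpace α] [NormedAddCommGroup E] {f : α → E}
    {μ : Measure α} {B : ℝ≥0∞} (h : ∫⁻ x, ‖f x‖ₑ ^ 2 ∂μ ≤ B ^ 2) : eLpNorm f 2 μ ≤ B := by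
  rw [← eLpNorm_two_sq] at h
  exact (ENNReal.pow_le_pow_left_iff two_ne_zero).1 h

end norms

section one

variable {Λ X G H K : Type} [Group Λ] [Group X] [Group G] [Group H] [Countable X]
  [TopologicalSpace G] [TopologicalSpace H] [IsTopologicalGroup G] [IsTopologicalGroup H]
  [MeasurableSpace G] [BorelSpace G] [SecondCountableTopology G]
  [NormedAddCommGroup K] [InnerProductSpace ℂ K] [CompleteSpace K]
  {V : Λ →* (K →L[ℂ] K)} {ρ : X →* (K →L[ℂ] K)} {ω : K}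
  {ι : X →* G} {κ : Λ →* H} {a b c : G → K →L[ℂ] K} {μ : Measure G}

theorem sq_toReal {x : ℝ≥0∞} (hx : x ≠ ⊤) : ENNReal.ofReal (Real.sqrt x.toReal) ^ 2 = x := by
  rw [← ENNReal.ofReal_pow (Real.sqrt_nonneg _), Real.sq_sqrt ENNReal.toReal_nonneg,
    ENNReal.ofReal_toReal hx]

theorem sqFam_smo (h1 : Vale.Agent.P092.H715.Q.F1 ι κ ρ V ω μ) (hb : Smo ι κ ρ V ω μ b) :
    SqFam μ b (Real.sqrt (nsq ω μ b).toReal) where
  cont := fun ζ => hb.toFd.continuous_apply ζ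
  bd := fun ζ => by
    refine eLpNorm_le_of_sq ?_
    rw [Vale.Agent.P092.H715.Q.F1.lint h1 hb ζ, ENNReal.ofReal_mul (Real.sqrt_nonneg _), mul_pow,
      sq_toReal (nsq_lt_top hb.l2).ne, ofReal_norm_eq_enorm]

theorem sqB_smo [μ.IsMulLeftInvariant] (h : Frm ρ V ω)
    (h1 : Vale.Agent.P092.H715.Q.F1 ι κ ρ V ω μ)
    (hb : Smo ι κ ρ V ω μ b) : SqB μ b (Real.sqrt (nsq ω μ b).toReal) where
  nn := Real.sqrt_nonneg _
  cont := hb.toFd.continuous
  sq := sqFam_smo h1 hb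
  sqa := by
    have h2 := sqFam_smo h1 (hb.adj h)
    rwa [nsq_adj h.reg hb.toFd.continuous hb.toFd.equiv] at h2

end one

section prod

variable {X G G' K : Type} [Group X] [Group G] [Group G'] [Countable X]
  [TopologicalSpace G] [IsTopologicalGroup G] [MeasurableSpace G] [BorelSpace G]
  [SecondCountableTopology G]
  [TopologicalSpace G'] [IsTopologicalGroup G'] [MeasurableSpace G'] [BorelSpace G']
  [SecondCountableTopology G']
  [NormedAddCommGroup K] [InnerProductSpace ℂ K] [CompleteSpace K]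
  {ρ : X →* (K →L[ℂ] K)} {ω : K} {ι : X →* G} {ι' : X →* G'} {b c c₁ c₂ : G → K →L[ℂ] K}
  {x z : G' → K →L[ℂ] K} {μ : Measure G} {μ' : Measure G'} {B C : ℝ}

theorem fd_fst (ι : X →* G) (hx : Fd ι' ρ x) : Fd (ι'.prod ι) ρ (fun w : G' × G => x w.1) where
  equiv := fun γ w => hx.equiv γ w.1
  bdd := by
    obtain ⟨C, hC⟩ := hx.bdd
    exact ⟨C, fun w => hC _⟩
  rcont := fun ε hε => by
    obtain ⟨U, hU, h1⟩ := hx.rcont ε hε
    exact ⟨Prod.fst ⁻¹' U, (continuous_fst.tendsto (1 : G' × G)) hU, fun y hy w => h1 _ hy _⟩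

theorem fd_snd (ι' : X →* G') (hb : Fd ι ρ b) : Fd (ι'.prod ι) ρ (fun w : G' × G => b w.2) where
  equiv := fun γ w => hb.equiv γ w.2
  bdd := by
    obtain ⟨C, hC⟩ := hb.bdd
    exact ⟨C, fun w => hC _⟩
  rcont := fun ε hε => by
    obtain ⟨U, hU, h1⟩ := hb.rcont ε hε
    exact ⟨Prod.snd ⁻¹' U, (continuous_snd.tendsto (1 : G' × G)) hU, fun y hy w => h1 _ hy _⟩

theorem nsq_left_le [SFinite μ] [SFinite μ'] (hb : SqB μ b B) (hx : Continuous x) :
    nsq ω (μ'.prod μ) (fun w => b w.2 * x w.1) ≤ ENNReal.ofReal B ^ 2 * nsq ω μ' x := by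
  unfold nsq
  have hc : Continuous fun w : G' × G => (b w.2 * x w.1) ω :=
    ((hb.cont.comp continuous_snd).mul (hx.comp continuous_fst)).clm_apply continuous_const
  rw [lintegral_prod _ (hc.enorm.measurable.pow_const 2).aemeasurable,
    ← lintegral_const_mul' _ _ (by simp)]
  refine lintegral_mono fun u => ?_
  have h1 := hb.sq.bd (x u ω)
  have h2 : (∫⁻ y, ‖b y (x u ω)‖ₑ ^ 2 ∂μ) ≤ ENNReal.ofReal (B * ‖x u ω‖) ^ 2 := by
    rw [← eLpNorm_two_sq]
    gcongr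
  refine h2.trans (le_of_eq ?_)
  rw [ENNReal.ofReal_mul hb.nn, mul_pow, ofReal_norm_eq_enorm]

theorem adj_mul' (S T : K →L[ℂ] K) : adjoint (S * T) = adjoint T * adjoint S := star_mul S T

theorem adj_adj' (S : K →L[ℂ] K) : adjoint (adjoint S) = S := star_star S

theorem nsq_right_le [SFinite μ] [SFinite μ'] [μ.IsMulLeftInvariant] [μ'.IsMulLeftInvariant]
    (h : RegRep ρ ω) (hb : SqB μ b B) (fb : Fd ι ρ b) (fx : Fd ι' ρ x) :
    nsq ω (μ'.prod μ) (fun w => x w.1 * b w.2) ≤ ENNReal.ofReal B ^ 2 * nsq ω μ' x := by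
  have h1 := (fd_fst ι fx).mul (fd_snd ι' fb)
  have h2 := nsq_adj (μ := μ'.prod μ) h h1.continuous h1.equiv
  rw [← h2, ← nsq_adj (μ := μ') h fx.continuous fx.equiv]
  have h3 := nsq_left_le (ω := ω) (μ := μ) (μ' := μ') hb.adj (fx.adj h).continuous
  refine le_trans (le_of_eq ?_) h3
  congr 1
  funext w
  rw [adj_mul']

theorem l2_left [SFinite μ] [SFinite μ'] (hb : SqB μ b B) (fx : Fd ι' ρ x) (lx : L2 ω μ' x) :
    L2 ω (μ'.prod μ) (fun w => b w.2 * x w.1) := by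
  refine l2_of_nsq ((hb.cont.comp continuous_snd).mul (fx.continuous.comp continuous_fst)) ?_
  exact (nsq_left_le hb fx.continuous).trans_lt (ENNReal.mul_lt_top (by simp) (nsq_lt_top lx))

theorem l2_right [SFinite μ] [SFinite μ'] [μ.IsMulLeftInvariant] [μ'.IsMulLeftInvariant]
    (h : RegRep ρ ω) (hb : SqB μ b B) (fb : Fd ι ρ b) (fx : Fd ι' ρ x) (lx : L2 ω μ' x) :
    L2 ω (μ'.prod μ) (fun w => x w.1 * b w.2) := by
  refine l2_of_nsq ((fx.continuous.comp continuous_fst).mul (hb.cont.comp continuous_snd)) ?_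
  exact (nsq_right_le h hb fb fx).trans_lt (ENNReal.mul_lt_top (by simp) (nsq_lt_top lx))

/-- the exchange formula for a product on the right -/
theorem exch_mul [SFinite μ] [SFinite μ'] [μ.IsMulLeftInvariant] [μ'.IsMulLeftInvariant]
    {C₁ : ℝ} (h : RegRep ρ ω) (hb : SqB μ b B) (fb : Fd ι ρ b) (h1 : SqB μ c₁ C₁)
    (f1 : Fd ι ρ c₁) {C₂ : ℝ} (h2 : SqB μ c₂ C₂) (f2 : Fd ι ρ c₂) (fx : Fd ι' ρ x)
    (lx : L2 ω μ' x) (fz : Fd ι' ρ z) (lz : L2 ω μ' z) :
    ip ω (μ'.prod μ) (fun w => z w.1 * (c₁ w.2 * c₂ w.2)) (fun w => b w.2 * x w.1) =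
      ip ω (μ'.prod μ) (fun w => adjoint (b w.2) * z w.1)
        (fun w => x w.1 * adjoint (c₁ w.2 * c₂ w.2)) := by
  have Fz := fd_fst ι fz
  have Fx := fd_fst ι fx
  have F1 := fd_snd ι' f1
  have F2 := fd_snd ι' f2
  have Fb := fd_snd ι' fb
  have L1 : L2 ω (μ'.prod μ) (fun w => z w.1 * c₁ w.2) := l2_right h h1 f1 fz lz
  have L2' : L2 ω (μ'.prod μ) (fun w => b w.2 * x w.1) := l2_left hb fx lx
  have L3 := l2_left (ω := ω) (μ' := μ') hb.adj fz lz
  have L4 := l2_right (μ := μ) (μ' := μ') h h2.adj (f2.adj h) fx lx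
  have F3 := (Fb.adj h).mul Fz
  have F4 := Fx.mul (F2.adj h)
  have e1 := ip_mul_right (μ := μ'.prod μ) (a := fun w : G' × G => z w.1 * c₁ w.2)
    (b := fun w => b w.2 * x w.1) (c := fun w => c₂ w.2) h (Fz.mul F1) (Fb.mul Fx) F2 L1 L2'
  have e2 := ip_mul_right (μ := μ'.prod μ) (a := fun w : G' × G => adjoint (b w.2) * z w.1)
    (b := fun w => x w.1 * adjoint (c₂ w.2)) (c := fun w => c₁ w.2) h F3 F4 F1 L3 L4
  have e3 : ip ω (μ'.prod μ) (fun w => z w.1 * c₁ w.2)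
      (fun w => b w.2 * x w.1 * adjoint (c₂ w.2)) =
      ip ω (μ'.prod μ) (fun w => adjoint (b w.2) * z w.1 * c₁ w.2)
        (fun w => x w.1 * adjoint (c₂ w.2)) := by
    refine integral_congr_ae (Eventually.of_forall fun w => ?_)
    change ⟪z w.1 (c₁ w.2 ω), b w.2 (x w.1 (adjoint (c₂ w.2) ω))⟫_ℂ =
      ⟪adjoint (b w.2) (z w.1 (c₁ w.2 ω)), x w.1 (adjoint (c₂ w.2) ω)⟫_ℂ
    rw [adjoint_inner_left]
  have e4 : (fun w : G' × G => z w.1 * (c₁ w.2 * c₂ w.2)) =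
      fun w => z w.1 * c₁ w.2 * c₂ w.2 := by
    funext w
    rw [mul_assoc]
  have e5 : (fun w : G' × G => x w.1 * adjoint (c₁ w.2 * c₂ w.2)) =
      fun w => x w.1 * adjoint (c₂ w.2) * adjoint (c₁ w.2) := by
    funext w
    rw [adj_mul', mul_assoc]
  rw [e4, e5, e1, e3, e2]

/-- the field `u ↦ ∫ b(y) x(u) c(y)* dy` -/
theorem fd_th [μ.IsMulLeftInvariant] (h : RegRep ρ ω) (hb : SqB μ b B) (hc : SqB μ c C)
    (fb : Fd ι ρ b) (fc : Fd ι ρ c) (fx : Fd ι' ρ x) : Fd ι' ρ (fun u => th μ b c (x u)) where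
  equiv := fun γ u => by
    rw [fx.equiv]
    refine th_equiv hb hc (g := ι γ) (h.adj γ) (rho_mul_inv ρ γ) (rho_inv_mul ρ γ)
      (fb.equiv γ) (fc.equiv γ) _
  bdd := by
    obtain ⟨D, hD⟩ := fx.bdd
    refine ⟨B * C * D, fun u => (norm_th_le hb hc _).trans ?_⟩
    have := hb.nn
    have := hc.nn
    gcongr
    exact hD u
  rcont := fun ε hε => by
    have h1 := hb.nn
    have h2 := hc.nn
    obtain ⟨U, hU, h3⟩ := fx.rcont (ε / (B * C + 1)) (by positivity)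
    refine ⟨U, hU, fun y hy u => ?_⟩
    rw [← th_sub hb hc]
    refine (norm_th_le hb hc _).trans ?_
    calc B * C * ‖x (u * y) - x u‖ ≤ (B * C + 1) * (ε / (B * C + 1)) := by
          gcongr
          · linarith
          · exact h3 y hy u
      _ = ε := by field_simp

theorem nsq_th_le [SFinite μ] [SFinite μ'] [μ.IsMulLeftInvariant] [μ'.IsMulLeftInvariant]
    (h : RegRep ρ ω) (hb : SqB μ b B) (hc : SqB μ c C)
    (fc : Fd ι ρ c) (fx : Fd ι' ρ x) : nsq ω μ' (fun u => th μ b c (x u)) ≤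
      ENNReal.ofReal B ^ 2 * (ENNReal.ofReal C ^ 2 * nsq ω μ' x) := by
  have h1 := nsq_right_le (μ := μ) (μ' := μ') h hc.adj (fc.adj h) fx
  refine le_trans ?_ (mul_le_mul_right h1 (ENNReal.ofReal B ^ 2))
  unfold nsq
  have hcn : Continuous fun w : G' × G => (x w.1 * adjoint (c w.2)) ω :=
    ((fx.continuous.comp continuous_fst).mul
      (hc.adj.cont.comp continuous_snd)).clm_apply continuous_const
  rw [lintegral_prod _ (hcn.enorm.measurable.pow_const 2).aemeasurable,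
    ← lintegral_const_mul' _ _ (by simp)]
  refine lintegral_mono fun u => ?_
  have h2 := norm_th_apply_le hb hc (x u) ω
  calc ‖th μ b c (x u) ω‖ₑ ^ 2 ≤
        (ENNReal.ofReal B * eLpNorm (fun y => x u (adjoint (c y) ω)) 2 μ) ^ 2 := by gcongr
    _ = _ := by
        rw [mul_pow, eLpNorm_two_sq]
        rfl

theorem l2_th [SFinite μ] [SFinite μ'] [μ.IsMulLeftInvariant] [μ'.IsMulLeftInvariant]
    (h : RegRep ρ ω) (hb : SqB μ b B) (hc : SqB μ c C) (fb : Fd ι ρ b)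
    (fc : Fd ι ρ c) (fx : Fd ι' ρ x) (lx : L2 ω μ' x) :
    L2 ω μ' (fun u => th μ b c (x u)) := by
  refine l2_of_nsq (fd_th h hb hc fb fc fx).continuous ?_
  refine (nsq_th_le h hb hc fc fx).trans_lt ?_
  exact ENNReal.mul_lt_top (by simp) (ENNReal.mul_lt_top (by simp) (nsq_lt_top lx))

theorem ip_th [SFinite μ] [SFinite μ'] [μ.IsMulLeftInvariant] [μ'.IsMulLeftInvariant]
    (h : RegRep ρ ω) (hb : SqB μ b B) (hc : SqB μ c C)
    (fc : Fd ι ρ c) (fx : Fd ι' ρ x) (lx : L2 ω μ' x) (fz : Fd ι' ρ z) (lz : L2 ω μ' z) :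
    ip ω μ' z (fun u => th μ b c (x u)) =
      ip ω (μ'.prod μ) (fun w => adjoint (b w.2) * z w.1) (fun w => x w.1 * adjoint (c w.2)) := by
  have h1 := integrable_ip (μ := μ'.prod μ) (l2_left hb.adj fz lz)
    (l2_right h hc.adj (fc.adj h) fx lx)
  unfold ip
  rw [integral_prod _ h1]
  refine integral_congr_ae (Eventually.of_forall fun u => ?_)
  simp only
  rw [inner_th hb hc]
  rfl

end prod

end Vale.Agent.P092.H821
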