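import Vale.Agent.P092.H821.Th2

/-!
P092-Q (helper821), block [Q-THETA], part 3: the operators `Θ b c` on a Hilbert space `M` of
square integrable fields.
-/

set_option linter.all false

open MeasureTheory Filter Topology ContinuousLinearMap
open scoped InnerProductSpace ENNReal

namespace Vale.Agent.P092.H821

open Vale.Agent.P092.H160
open Vale.Agent.P092.H156.Sm
open Vale.Agent.P092.H565 (SqFam)
open Vale.Agent.P092.H242.ThC
open Vale.Agent.P092.H978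

section defs

variable {A L X G G' K M : Type} [NonUnitalRing A] [StarRing A] [Module ℂ A]
  [NormedAddCommGroup L] [InnerProductSpace ℂ L] [Group X] [Group G] [TopologicalSpace G]
  [SecondCountableTopology G] [MeasurableSpace G] [OpensMeasurableSpace G]
  [Group G'] [TopologicalSpace G'] [MeasurableSpace G']
  [NormedAddCommGroup K] [InnerProductSpace ℂ K] [CompleteSpace K]
  [NormedAddCommGroup M] [InnerProductSpace ℂ M]

/-- a realisation of `(A, j, r)` by square integrable fields on `G` -/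
structure Rl (j : A →ₗ[ℂ] L) (r : G → A → A) (ι : X →* G) (ρ : X →* (K →L[ℂ] K)) (μ : Measure G)
    (φ : A →ₗ[ℂ] (G → K →L[ℂ] K)) : Prop where
  fd : ∀ a, Fd ι ρ (φ a)
  sq : ∀ a, SqB μ (φ a) ‖j a‖
  mul : ∀ a b y, φ (a * b) y = φ a y * φ b y
  st : ∀ a y, φ (star a) y = adjoint (φ a y)
  rt : ∀ w a y, φ (r w a) y = φ a (y * w)

/-- a Hilbert space of square integrable fields on `G'` which is stable under `th` -/
structure Md (μ : Measure G) (φ : A →ₗ[ℂ] (G → K →L[ℂ] K)) (ι' : X →* G')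
    (ρ : X →* (K →L[ℂ] K)) (ω : K) (μ' : Measure G') (𝒳 : Submodule ℂ (G' → K →L[ℂ] K))
    (e : 𝒳 →ₗ[ℂ] M) : Prop where
  fd : ∀ x ∈ 𝒳, Fd ι' ρ x
  l2 : ∀ x ∈ 𝒳, L2 ω μ' x
  inn : ∀ z x : 𝒳, ⟪e z, e x⟫_ℂ = ip ω μ' z.1 x.1
  dense : DenseRange e
  inv : ∀ a b : A, ∀ x ∈ 𝒳, (fun u => th μ (φ a) (φ b) (x u)) ∈ 𝒳

end defs

section op

variable {A L X G G' H K M : Type} [NonUnitalRing A] [StarRing A] [Module ℂ A]
  [SMulCommClass ℂ A A] [IsScalarTower ℂ A A]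
  [NormedAddCommGroup L] [InnerProductSpace ℂ L] [CompleteSpace L]
  [Group X] [Countable X]
  [Group G] [TopologicalSpace G] [IsTopologicalGroup G]
  [SecondCountableTopology G] [MeasurableSpace G] [BorelSpace G]
  [Group G'] [TopologicalSpace G'] [IsTopologicalGroup G']
  [SecondCountableTopology G'] [MeasurableSpace G'] [BorelSpace G']
  [Group H] [TopologicalSpace H] [MeasurableSpace H]
  [NormedAddCommGroup K] [InnerProductSpace ℂ K] [CompleteSpace K]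
  [NormedAddCommGroup M] [InnerProductSpace ℂ M] [CompleteSpace M]
  {j : A →ₗ[ℂ] L} {r : G → A → A} {ι : X →* G} {ρ : X →* (K →L[ℂ] K)} {μ : Measure G}
  {φ : A →ₗ[ℂ] (G → K →L[ℂ] K)} {ι' : X →* G'} {ω : K} {μ' : Measure G'}
  {𝒳 : Submodule ℂ (G' → K →L[ℂ] K)} {e : 𝒳 →ₗ[ℂ] M}
  {α : H → A → A} {U : H →* (L →L[ℂ] L)} {m : Measure H} {R : G →* (L →L[ℂ] L)}

theorem Rl.add (hφ : Rl j r ι ρ μ φ) (a b : A) : φ (a + b) = fun y => φ a y + φ b y := by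
  rw [map_add]; rfl

theorem Rl.smul (hφ : Rl j r ι ρ μ φ) (t : ℂ) (a : A) : φ (t • a) = fun y => t • φ a y := by
  rw [map_smul]; rfl

theorem Rl.star_eq (hφ : Rl j r ι ρ μ φ) (a : A) : φ (star a) = fun y => adjoint (φ a y) :=
  funext (hφ.st a)

theorem Rl.th_add (hφ : Rl j r ι ρ μ φ) (a b : A) (S T : K →L[ℂ] K) :
    th μ (φ a) (φ b) (S + T) = th μ (φ a) (φ b) S + th μ (φ a) (φ b) T :=
  H821.th_add (hφ.sq a) (hφ.sq b) S T

theorem Rl.th_addl (hφ : Rl j r ι ρ μ φ) (a a' b : A) (S : K →L[ℂ] K) :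
    th μ (φ (a + a')) (φ b) S = th μ (φ a) (φ b) S + th μ (φ a') (φ b) S := by
  have h := hφ.sq (a + a')
  rw [hφ.add] at h ⊢
  exact th_add_left (hφ.sq a) (hφ.sq a') h (hφ.sq b) S

theorem Rl.th_addr (hφ : Rl j r ι ρ μ φ) (a b b' : A) (S : K →L[ℂ] K) :
    th μ (φ a) (φ (b + b')) S = th μ (φ a) (φ b) S + th μ (φ a) (φ b') S := by
  have h := hφ.sq (b + b')
  rw [hφ.add] at h ⊢
  exact th_add_right (hφ.sq a) (hφ.sq b) (hφ.sq b') h S

theorem Rl.th_smull (hφ : Rl j r ι ρ μ φ) (t : ℂ) (a b : A) (S : K →L[ℂ] K) :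
    th μ (φ (t • a)) (φ b) S = t • th μ (φ a) (φ b) S := by
  have h := hφ.sq (t • a)
  rw [hφ.smul] at h ⊢
  exact th_smul_left (hφ.sq a) t h (hφ.sq b) S

theorem Rl.th_smulr (hφ : Rl j r ι ρ μ φ) (t : ℂ) (a b : A) (S : K →L[ℂ] K) :
    th μ (φ a) (φ (t • b)) S = star t • th μ (φ a) (φ b) S := by
  have h := hφ.sq (t • b)
  rw [hφ.smul] at h ⊢
  exact th_smul_right (hφ.sq a) (hφ.sq b) t h S

theorem Rl.th_le (hφ : Rl j r ι ρ μ φ) (a b : A) (S : K →L[ℂ] K) :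
    ‖th μ (φ a) (φ b) S‖ ≤ ‖j a‖ * ‖j b‖ * ‖S‖ := norm_th_le (hφ.sq a) (hφ.sq b) S

/-- joint continuity -/
theorem Rl.th_cont (hφ : Rl j r ι ρ μ φ) {Z : Type*} [TopologicalSpace Z] {f g : Z → A}
    {S : Z → K →L[ℂ] K} (hf : Continuous fun x => j (f x)) (hg : Continuous fun x => j (g x))
    (hS : Continuous S) : Continuous fun x => th μ (φ (f x)) (φ (g x)) (S x) := by
  rw [continuous_iff_continuousAt]
  intro x₀
  rw [ContinuousAt, tendsto_iff_norm_sub_tendsto_zero]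
  have hb : ∀ x, ‖th μ (φ (f x)) (φ (g x)) (S x) - th μ (φ (f x₀)) (φ (g x₀)) (S x₀)‖ ≤
      ‖j (f x) - j (f x₀)‖ * ‖j (g x)‖ * ‖S x‖ + ‖j (f x₀)‖ * ‖j (g x) - j (g x₀)‖ * ‖S x‖ +
        ‖j (f x₀)‖ * ‖j (g x₀)‖ * ‖S x - S x₀‖ := by
    intro x
    have e1 := hφ.th_addl (f x - f x₀) (f x₀) (g x) (S x)
    have e2 := hφ.th_addr (f x₀) (g x - g x₀) (g x₀) (S x)
    have e3 := hφ.th_add (f x₀) (g x₀) (S x - S x₀) (S x₀)
    rw [sub_add_cancel] at e1 e2 e3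
    have e : th μ (φ (f x)) (φ (g x)) (S x) - th μ (φ (f x₀)) (φ (g x₀)) (S x₀) =
        th μ (φ (f x - f x₀)) (φ (g x)) (S x) + th μ (φ (f x₀)) (φ (g x - g x₀)) (S x) +
          th μ (φ (f x₀)) (φ (g x₀)) (S x - S x₀) := by
      rw [e1, e2, e3]; abel
    rw [e]
    refine (norm_add_le _ _).trans (add_le_add ((norm_add_le _ _).trans (add_le_add ?_ ?_)) ?_)
    · rw [← map_sub]; exact hφ.th_le _ _ _
    · rw [← map_sub]; exact hφ.th_le _ _ _
    · exact hφ.th_le _ _ _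
  refine squeeze_zero (fun _ => norm_nonneg _) hb ?_
  have hcont : Continuous fun x => ‖j (f x) - j (f x₀)‖ * ‖j (g x)‖ * ‖S x‖ +
      ‖j (f x₀)‖ * ‖j (g x) - j (g x₀)‖ * ‖S x‖ +
        ‖j (f x₀)‖ * ‖j (g x₀)‖ * ‖S x - S x₀‖ :=
    (((hf.sub continuous_const).norm.mul hg.norm).mul hS.norm).add
      (((continuous_const.mul (hg.sub continuous_const).norm)).mul hS.norm) |>.add
      (continuous_const.mul (hS.sub continuous_const).norm)
  have := hcont.tendsto x₀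
  simpa using this

/-! ### norms and inner products in `M` -/

theorem Md.norm_sq (hM : Md μ φ ι' ρ ω μ' 𝒳 e) (x : 𝒳) : ‖e x‖ ^ 2 = (nsq ω μ' x.1).toReal := by
  have h1 := hM.inn x x
  rw [ip_self (hM.l2 _ x.2), inner_self_eq_norm_sq_to_K] at h1
  have h2 : ((‖e x‖ ^ 2 : ℝ) : ℂ) = ((nsq ω μ' x.1).toReal : ℂ) := by
    rw [← h1]; push_cast; rfl
  exact_mod_cast h2

theorem Md.ext (hM : Md μ φ ι' ρ ω μ' 𝒳 e) {S T : M →L[ℂ] M} (h : ∀ x, S (e x) = T (e x)) :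
    S = T :=
  ContinuousLinearMap.coeFn_injective (hM.dense.equalizer S.continuous T.continuous (funext h))

theorem Md.ext2 (hM : Md μ φ ι' ρ ω μ' 𝒳 e) {S T : M →L[ℂ] M}
    (h : ∀ z x, ⟪e z, S (e x)⟫_ℂ = ⟪e z, T (e x)⟫_ℂ) : S = T :=
  hM.ext fun x => ext_inner_left ℂ fun v => by
    induction v using hM.dense.induction_on with
    | hp =>
      exact isClosed_eq (continuous_id.inner continuous_const)
        (continuous_id.inner continuous_const)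
    | ih z => exact h z x

/-- the field `u ↦ th (φ b) (φ c) (x u)` -/
noncomputable def tx (hM : Md μ φ ι' ρ ω μ' 𝒳 e) (b c : A) (x : 𝒳) : 𝒳 :=
  ⟨fun u => th μ (φ b) (φ c) (x.1 u), hM.inv b c x.1 x.2⟩

/-- the linear map `x ↦ e (tx b c x)` -/
noncomputable def tl (hφ : Rl j r ι ρ μ φ) (hM : Md μ φ ι' ρ ω μ' 𝒳 e) (b c : A) : 𝒳 →ₗ[ℂ] M where
  toFun := fun x => e (tx hM b c x)
  map_add' := fun x y => by
    rw [← map_add]
    congr 1
    refine Subtype.ext (funext fun u => ?_)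
    exact hφ.th_add b c (x.1 u) (y.1 u)
  map_smul' := fun t x => by
    rw [RingHom.id_apply, ← map_smul]
    congr 1
    refine Subtype.ext (funext fun u => ?_)
    exact th_smul (hφ.sq b) (hφ.sq c) t (x.1 u)

variable [SFinite μ] [SFinite μ'] [μ.IsMulLeftInvariant] [μ'.IsMulLeftInvariant]

theorem tl_le (h : RegRep ρ ω) (hφ : Rl j r ι ρ μ φ) (hM : Md μ φ ι' ρ ω μ' 𝒳 e) (b c : A)
    (x : 𝒳) : ‖tl hφ hM b c x‖ ≤ ‖j b‖ * ‖j c‖ * ‖e x‖ := by
  refine le_of_sq_le_sq (a := ‖tl hφ hM b c x‖) ?_ (by positivity)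
  have h1 : ‖tl hφ hM b c x‖ ^ 2 = (nsq ω μ' (tx hM b c x).1).toReal := hM.norm_sq _
  have h2 := nsq_th_le (μ := μ) (μ' := μ') h (hφ.sq b) (hφ.sq c) (hφ.fd c) (hM.fd _ x.2)
  have h3 := nsq_lt_top (hM.l2 _ x.2)
  rw [h1, mul_pow, mul_pow, hM.norm_sq]
  have h4 := ENNReal.toReal_mono (ENNReal.mul_ne_top (by simp)
    (ENNReal.mul_ne_top (by simp) h3.ne)) h2
  refine h4.trans (le_of_eq ?_)
  rw [ENNReal.toReal_mul, ENNReal.toReal_mul, ENNReal.toReal_pow, ENNReal.toReal_pow,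
    ENNReal.toReal_ofReal (norm_nonneg _), ENNReal.toReal_ofReal (norm_nonneg _), mul_assoc]

/-- **the operator `Θ b c`** -/
noncomputable def Tm (hφ : Rl j r ι ρ μ φ) (hM : Md μ φ ι' ρ ω μ' 𝒳 e) (b c : A) : M →L[ℂ] M :=
  (tl hφ hM b c).extendOfNorm e

variable (h : RegRep ρ ω) (hφ : Rl j r ι ρ μ φ) (hM : Md μ φ ι' ρ ω μ' 𝒳 e)

include h in
theorem Tm_e (b c : A) (x : 𝒳) : Tm hφ hM b c (e x) = e (tx hM b c x) :=
  LinearMap.extendOfNorm_eq hM.dense ⟨_, tl_le h hφ hM b c⟩ x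

include h in
theorem norm_Tm_le (b c : A) : ‖Tm hφ hM b c‖ ≤ ‖j b‖ * ‖j c‖ := by
  refine ContinuousLinearMap.opNorm_le_bound _ (by positivity) fun ξ => ?_
  induction ξ using hM.dense.induction_on with
  | hp =>
    exact isClosed_le (Tm hφ hM b c).continuous.norm (continuous_const.mul continuous_norm)
  | ih x =>
    rw [Tm_e h]
    exact tl_le h hφ hM b c x

include h in
theorem Tm_add_left (a b c : A) : Tm hφ hM (a + b) c = Tm hφ hM a c + Tm hφ hM b c := by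
  refine hM.ext fun x => ?_
  rw [add_apply, Tm_e h, Tm_e h, Tm_e h, ← map_add]
  congr 1
  exact Subtype.ext (funext fun u => hφ.th_addl a b c (x.1 u))

include h in
theorem Tm_add_right (a b c : A) : Tm hφ hM a (b + c) = Tm hφ hM a b + Tm hφ hM a c := by
  refine hM.ext fun x => ?_
  rw [add_apply, Tm_e h, Tm_e h, Tm_e h, ← map_add]
  congr 1
  exact Subtype.ext (funext fun u => hφ.th_addr a b c (x.1 u))

include h in
theorem Tm_smul_left (t : ℂ) (a b : A) : Tm hφ hM (t • a) b = t • Tm hφ hM a b := by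
  refine hM.ext fun x => ?_
  rw [smul_apply, Tm_e h, Tm_e h, ← map_smul]
  congr 1
  exact Subtype.ext (funext fun u => hφ.th_smull t a b (x.1 u))

include h in
theorem Tm_smul_right (t : ℂ) (a b : A) : Tm hφ hM a (t • b) = star t • Tm hφ hM a b := by
  refine hM.ext fun x => ?_
  rw [smul_apply, Tm_e h, Tm_e h, ← map_smul]
  congr 1
  exact Subtype.ext (funext fun u => hφ.th_smulr t a b (x.1 u))

/-! ### the exchange formula -/

/-- the field `(u, y) ↦ b(y) x(u)` -/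
def bx (b : G → K →L[ℂ] K) (x : G' → K →L[ℂ] K) : G' × G → K →L[ℂ] K := fun w => b w.2 * x w.1

/-- the field `(u, y) ↦ x(u) b(y)` -/
def xb (b : G → K →L[ℂ] K) (x : G' → K →L[ℂ] K) : G' × G → K →L[ℂ] K := fun w => x w.1 * b w.2

theorem l2_bx (hφ : Rl j r ι ρ μ φ) (b : A) {x : G' → K →L[ℂ] K} (fx : Fd ι' ρ x)
    (lx : L2 ω μ' x) : L2 ω (μ'.prod μ) (bx (φ b) x) := l2_left (hφ.sq b) fx lx

theorem l2_xb (h : RegRep ρ ω) (hφ : Rl j r ι ρ μ φ) (b : A) {x : G' → K →L[ℂ] K}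
    (fx : Fd ι' ρ x) (lx : L2 ω μ' x) : L2 ω (μ'.prod μ) (xb (φ b) x) :=
  l2_right h (hφ.sq b) (hφ.fd b) fx lx

theorem nsq_bx (hφ : Rl j r ι ρ μ φ) (b : A) {x : G' → K →L[ℂ] K} (fx : Fd ι' ρ x)
    (lx : L2 ω μ' x) : (nsq ω (μ'.prod μ) (bx (φ b) x)).toReal ≤
      ‖j b‖ ^ 2 * (nsq ω μ' x).toReal := by
  have h1 := nsq_left_le (ω := ω) (μ := μ) (μ' := μ') (hφ.sq b) fx.continuous
  have h3 := nsq_lt_top lx
  have h4 := ENNReal.toReal_mono (ENNReal.mul_ne_top (by simp) h3.ne) h1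
  rwa [ENNReal.toReal_mul, ENNReal.toReal_pow, ENNReal.toReal_ofReal (norm_nonneg _)] at h4

theorem nsq_xb (h : RegRep ρ ω) (hφ : Rl j r ι ρ μ φ) (b : A) {x : G' → K →L[ℂ] K}
    (fx : Fd ι' ρ x) (lx : L2 ω μ' x) : (nsq ω (μ'.prod μ) (xb (φ b) x)).toReal ≤
      ‖j b‖ ^ 2 * (nsq ω μ' x).toReal := by
  have h1 := nsq_right_le (μ := μ) (μ' := μ') h (hφ.sq b) (hφ.fd b) fx
  have h3 := nsq_lt_top lx
  have h4 := ENNReal.toReal_mono (ENNReal.mul_ne_top (by simp) h3.ne) h1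
  rwa [ENNReal.toReal_mul, ENNReal.toReal_pow, ENNReal.toReal_ofReal (norm_nonneg _)] at h4

theorem bx_add (hφ : Rl j r ι ρ μ φ) (b c : A) (x : G' → K →L[ℂ] K) :
    bx (φ (b + c)) x = fun w => bx (φ b) x w + bx (φ c) x w := by
  funext w
  simp only [bx, hφ.add]
  rw [add_mul]

theorem xb_add (hφ : Rl j r ι ρ μ φ) (b c : A) (x : G' → K →L[ℂ] K) :
    xb (φ (b + c)) x = fun w => xb (φ b) x w + xb (φ c) x w := by
  funext w
  simp only [xb, hφ.add]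
  rw [mul_add]

theorem xb_smul (hφ : Rl j r ι ρ μ φ) (t : ℂ) (b : A) (x : G' → K →L[ℂ] K) :
    xb (φ (t • b)) x = fun w => t • xb (φ b) x w := by
  funext w
  simp only [xb, hφ.smul]
  rw [mul_smul_comm]

theorem bd_of_sq {f : A → ℂ} {C : ℝ} (hC : 0 ≤ C) (hf : ∀ c, ‖f c‖ ^ 2 ≤ C * ‖j c‖ ^ 2) (c : A) :
    ‖f c‖ ≤ Real.sqrt C * ‖j c‖ := by
  refine le_of_sq_le_sq (a := ‖f c‖) ?_ (by positivity)
  rw [mul_pow, Real.sq_sqrt hC]
  exact hf c

/-- **the exchange formula** -/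
theorem exch_ip (h : RegRep ρ ω) (hφ : Rl j r ι ρ μ φ) (P : Pk j α U m r R μ)
    [StarModule ℂ A] (b c : A) {x z : G' → K →L[ℂ] K} (fx : Fd ι' ρ x) (lx : L2 ω μ' x)
    (fz : Fd ι' ρ z) (lz : L2 ω μ' z) :
    ip ω (μ'.prod μ) (xb (φ c) z) (bx (φ b) x) =
      ip ω (μ'.prod μ) (bx (φ (star b)) z) (xb (φ (star c)) x) := by
  let f₁ : A →ₗ[ℂ] ℂ :=
    { toFun := fun c => ip ω (μ'.prod μ) (bx (φ b) x) (xb (φ c) z)
      map_add' := fun c c' => by
        rw [xb_add hφ]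
        exact ip_add_right (l2_bx hφ b fx lx) (l2_xb h hφ c fz lz) (l2_xb h hφ c' fz lz)
      map_smul' := fun t c => by
        rw [xb_smul hφ]
        exact ip_smul_right t }
  let f₂ : A →ₗ[ℂ] ℂ :=
    { toFun := fun c => ip ω (μ'.prod μ) (xb (φ (star c)) x) (bx (φ (star b)) z)
      map_add' := fun c c' => by
        rw [star_add, xb_add hφ]
        exact ip_add_left (l2_xb h hφ _ fx lx) (l2_xb h hφ _ fx lx) (l2_bx hφ _ fz lz)
      map_smul' := fun t c => by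
        rw [star_smul, xb_smul hφ, RingHom.id_apply, ip_smul_left]
        simp }
  have b₁ : ∀ c, ‖f₁ c‖ ≤ Real.sqrt ((nsq ω (μ'.prod μ) (bx (φ b) x)).toReal *
      (nsq ω μ' z).toReal) * ‖j c‖ := by
    refine bd_of_sq (by positivity) fun c => ?_
    have h1 : ‖f₁ c‖ ^ 2 ≤ _ := norm_ip_le (l2_bx hφ b fx lx) (l2_xb h hφ c fz lz)
    refine h1.trans ?_
    rw [mul_assoc]
    refine mul_le_mul_of_nonneg_left ?_ ENNReal.toReal_nonneg
    rw [mul_comm (nsq ω μ' z).toReal]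
    exact nsq_xb h hφ c fz lz
  have b₂ : ∀ c, ‖f₂ c‖ ≤ Real.sqrt ((nsq ω (μ'.prod μ) (bx (φ (star b)) z)).toReal *
      (nsq ω μ' x).toReal) * ‖j c‖ := by
    refine bd_of_sq (by positivity) fun c => ?_
    have h1 : ‖f₂ c‖ ^ 2 ≤ _ := norm_ip_le (l2_xb h hφ (star c) fx lx) (l2_bx hφ (star b) fz lz)
    refine h1.trans ?_
    rw [mul_comm, mul_assoc]
    refine mul_le_mul_of_nonneg_left ?_ ENNReal.toReal_nonneg
    rw [mul_comm (nsq ω μ' x).toReal, ← P.ha.norm_star c]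
    exact nsq_xb h hφ (star c) fx lx
  have e₁ : ∀ c, f₁.extendOfNorm j (j c) = f₁ c := fun c =>
    LinearMap.extendOfNorm_eq P.ha.dense ⟨_, b₁⟩ c
  have e₂ : ∀ c, f₂.extendOfNorm j (j c) = f₂ c := fun c =>
    LinearMap.extendOfNorm_eq P.ha.dense ⟨_, b₂⟩ c
  have key := Vale.Agent.P092.H242.ThC.ext2 P.ha P.actY P.itgY (φ := f₁.extendOfNorm j)
    (ψ := f₂.extendOfNorm j) (fun c₁ c₂ => by
      rw [e₁, e₂]
      have h1 := exch_mul (μ := μ) (μ' := μ') h (hφ.sq b) (hφ.fd b) (hφ.sq c₁) (hφ.fd c₁)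
        (hφ.sq c₂) (hφ.fd c₂) fx lx fz lz
      have h2 := congrArg (starRingEnd ℂ) h1
      rw [ip_conj_symm, ip_conj_symm] at h2
      have g1 : xb (φ (c₁ * c₂)) z = fun w => z w.1 * (φ c₁ w.2 * φ c₂ w.2) := by
        funext w; simp only [xb]; rw [hφ.mul]
      have g2 : xb (φ (star (c₁ * c₂))) x = fun w => x w.1 * adjoint (φ c₁ w.2 * φ c₂ w.2) := by
        funext w; simp only [xb]; rw [hφ.st, hφ.mul]
      have g3 : bx (φ (star b)) z = fun w => adjoint (φ b w.2) * z w.1 := by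
        funext w; simp only [bx]; rw [hφ.st]
      change ip ω (μ'.prod μ) (bx (φ b) x) (xb (φ (c₁ * c₂)) z) =
        ip ω (μ'.prod μ) (xb (φ (star (c₁ * c₂))) x) (bx (φ (star b)) z)
      rw [g1, g2, g3]
      exact h2) (j c)
  rw [e₁, e₂] at key
  have key2 := congrArg (starRingEnd ℂ) key
  have h3 : (starRingEnd ℂ) (f₁ c) = ip ω (μ'.prod μ) (xb (φ c) z) (bx (φ b) x) :=
    ip_conj_symm _ _
  have h4 : (starRingEnd ℂ) (f₂ c) = ip ω (μ'.prod μ) (bx (φ (star b)) z) (xb (φ (star c)) x) :=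
    ip_conj_symm _ _
  rw [h3, h4] at key2
  exact key2

include h in
/-- the form of `Θ b c` -/
theorem inner_Tm (b c : A) (z x : 𝒳) : ⟪e z, Tm hφ hM b c (e x)⟫_ℂ =
    ip ω (μ'.prod μ) (bx (φ (star b)) z.1) (xb (φ (star c)) x.1) := by
  rw [Tm_e h, hM.inn]
  have h1 := ip_th (μ := μ) (μ' := μ') h (hφ.sq b) (hφ.sq c) (hφ.fd c) (hM.fd _ x.2)
    (hM.l2 _ x.2) (hM.fd _ z.2) (hM.l2 _ z.2)
  refine h1.trans ?_
  have g2 : xb (φ (star c)) x.1 = fun w => x.1 w.1 * adjoint (φ c w.2) := by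
    funext w; simp only [xb]; rw [hφ.st]
  have g3 : bx (φ (star b)) z.1 = fun w => adjoint (φ b w.2) * z.1 w.1 := by
    funext w; simp only [bx]; rw [hφ.st]
  rw [g2, g3]

include h in
/-- **the form of `Θ b c`, exchanged** -/
theorem inner_Tm' [StarModule ℂ A] (P : Pk j α U m r R μ) (b c : A) (z x : 𝒳) :
    ⟪e z, Tm hφ hM b c (e x)⟫_ℂ = ip ω (μ'.prod μ) (xb (φ c) z.1) (bx (φ b) x.1) := by
  rw [inner_Tm h, exch_ip h hφ P b c (hM.fd _ x.2) (hM.l2 _ x.2) (hM.fd _ z.2) (hM.l2 _ z.2)]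

include h in
theorem adjoint_Tm [StarModule ℂ A] (P : Pk j α U m r R μ) (b c : A) :
    adjoint (Tm hφ hM b c) = Tm hφ hM (star b) (star c) := by
  refine hM.ext2 fun z x => ?_
  rw [adjoint_inner_right, ← inner_conj_symm, inner_Tm' h hφ hM P, inner_Tm h, star_star,
    star_star, ip_conj_symm]

end op

end Vale.Agent.P092.H821
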