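import Vale.Agent.P092.H821.Th4
import Vale.Agent.P092.H720.Dn

/-!
P092-Q (helper821), block [Q-THETA], part 5: the two sided algebra as a realisation `Rl`; the Hilbert
spaces of fields.
-/

set_option linter.all false

open MeasureTheory Filter Topology ContinuousLinearMap
open scoped InnerProductSpace ENNReal

namespace Vale.Agent.P092.H821

open Vale.Agent.P092.H160
open Vale.Agent.P092.H156.Sm
open Vale.Agent.P092.H650
open Vale.Agent.P092.H565 (SqFam)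
open Vale.Agent.P092.H242.ThC
open Vale.Agent.P092.H978
open Vale.Agent.P092.H720
open Vale.Agent.P092.H715.Q (Dbl fl F1 TwS)

section ta

variable {Γ X Y G H K : Type} [Group Γ] [Group X] [Group Y] [Group G] [Group H]
  [Countable X] [Countable Y]
  [TopologicalSpace G] [TopologicalSpace H] [IsTopologicalGroup G] [IsTopologicalGroup H]
  [MeasurableSpace G] [BorelSpace G] [SecondCountableTopology G]
  [MeasurableSpace H] [BorelSpace H] [SecondCountableTopology H]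
  [NormedAddCommGroup K] [InnerProductSpace ℂ K] [CompleteSpace K]
  {V W : Γ →* (K →L[ℂ] K)} {f : X →* Γ} {ρ : X →* (K →L[ℂ] K)} {f' : Y →* Γ}
  {ρ' : Y →* (K →L[ℂ] K)} {ω : K} {κ : Γ →* H} {p : Γ →* G}
  (D : Dbl V W f ρ f' ρ' ω) (hκ : DenseRange κ) (hp : DenseRange p) (μ : Measure G)
  (ν : Measure H) [μ.IsMulLeftInvariant] [ν.IsMulLeftInvariant]

/-- the fields of the two sided algebra -/
noncomputable def cof (p : Γ →* G) : TA D hκ p μ ν →ₗ[ℂ] (G → K →L[ℂ] K) where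
  toFun := fun b => b.1
  map_add' := fun _ _ => rfl
  map_smul' := fun _ _ => rfl

theorem norm_jj_sqrt (b : TA D hκ p μ ν) :
    ‖jj D hκ p μ ν b‖ = Real.sqrt (nsq ω μ b.1).toReal := by
  have h2 : ‖jj D hκ p μ ν b‖ ^ 2 = (nsq ω μ b.1).toReal := norm_toLp_sq b.2.smo.l2
  rw [← h2, Real.sqrt_sq (norm_nonneg _)]

theorem rl_TA [μ.IsMulRightInvariant] (h1 : F1 (p.comp f) κ ρ V ω μ) :
    Rl (jj D hκ p μ ν) (rT D hκ hp μ ν) (p.comp f) ρ μ (cof D hκ μ ν p) where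
  fd := fun a => a.2.smo.toFd
  sq := fun a => by
    rw [norm_jj_sqrt]
    exact sqB_smo D.fr h1 a.2.smo
  mul := fun _ _ _ => rfl
  st := fun _ _ => rfl
  rt := fun _ _ _ => rfl

theorem cof_al [ν.IsMulRightInvariant] (v : Γ) (a : TA D hκ p μ ν) (y : G) :
    cof D hκ μ ν p (aT D hκ μ ν (κ v) a) y = V v * cof D hκ μ ν p a y * V v⁻¹ :=
  al_coe D.fr hκ a.2.smo.acont v y

end ta

section fl

variable {X G G' K : Type} [Group X] [Countable X]
  [Group G'] [TopologicalSpace G'] [IsTopologicalGroup G']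
  [SecondCountableTopology G'] [MeasurableSpace G'] [BorelSpace G']
  [NormedAddCommGroup K] [InnerProductSpace ℂ K] [CompleteSpace K]

/-- all square integrable fields -/
def FL (ι' : X →* G') (ρ : X →* (K →L[ℂ] K)) (ω : K) (μ' : Measure G') :
    Submodule ℂ (G' → K →L[ℂ] K) where
  carrier := {x | Fd ι' ρ x ∧ L2 ω μ' x}
  add_mem' := fun ha hb => ⟨ha.1.add hb.1, L2.add ha.2 hb.2⟩
  zero_mem' := ⟨Fd.zero, L2.zero⟩
  smul_mem' := fun c _ hb => ⟨hb.1.smul c, L2.smul c hb.2⟩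

variable {ι' : X →* G'} {ρ : X →* (K →L[ℂ] K)} {ω : K} {μ' : Measure G'}
  (𝒳 : Submodule ℂ (G' → K →L[ℂ] K)) (hl : ∀ x ∈ 𝒳, L2 ω μ' x)

/-- the map to `L²` -/
noncomputable def eL : 𝒳 →ₗ[ℂ] Lp K 2 μ' where
  toFun := fun x => (hl x.1 x.2).toLp _
  map_add' := fun x y => by
    rw [← MemLp.toLp_add]; rfl
  map_smul' := fun c x => by
    rw [RingHom.id_apply, ← MemLp.toLp_const_smul]; rfl

/-- the closure -/
noncomputable def ML : Submodule ℂ (Lp K 2 μ') := (LinearMap.range (eL 𝒳 hl)).topologicalClosure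

instance : CompleteSpace (ML 𝒳 hl) := by unfold ML; infer_instance

/-- the map to the closure -/
noncomputable def eM : 𝒳 →ₗ[ℂ] ML 𝒳 hl :=
  (eL 𝒳 hl).codRestrict (ML 𝒳 hl) fun x => Submodule.le_topologicalClosure _ ⟨x, rfl⟩

theorem eM_coe (x : 𝒳) : (eM 𝒳 hl x : Lp K 2 μ') = (hl x.1 x.2).toLp _ := rfl

theorem inner_eM (z x : 𝒳) : ⟪eM 𝒳 hl z, eM 𝒳 hl x⟫_ℂ = ip ω μ' z.1 x.1 :=
  (integral_inner_toLp (hl z.1 z.2) (hl x.1 x.2)).symm

theorem dense_eM : DenseRange (eM 𝒳 hl) := by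
  intro ξ
  have h1 : (ξ : Lp K 2 μ') ∈ closure (Set.range (eL 𝒳 hl)) := by
    have h2 := ξ.2
    unfold ML at h2
    rwa [← SetLike.mem_coe, Submodule.topologicalClosure_coe, LinearMap.coe_range] at h2
  rw [Metric.mem_closure_iff] at h1 ⊢
  intro ε hε
  obtain ⟨b, ⟨c, rfl⟩, hb⟩ := h1 ε hε
  exact ⟨_, ⟨c, rfl⟩, hb⟩

end fl

section md

variable {A L X G G' K : Type} [NonUnitalRing A] [StarRing A] [Module ℂ A]
  [SMulCommClass ℂ A A] [IsScalarTower ℂ A A]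
  [NormedAddCommGroup L] [InnerProductSpace ℂ L] [CompleteSpace L]
  [Group X] [Countable X]
  [Group G] [TopologicalSpace G] [IsTopologicalGroup G]
  [SecondCountableTopology G] [MeasurableSpace G] [BorelSpace G]
  [Group G'] [TopologicalSpace G'] [IsTopologicalGroup G']
  [SecondCountableTopology G'] [MeasurableSpace G'] [BorelSpace G']
  [NormedAddCommGroup K] [InnerProductSpace ℂ K] [CompleteSpace K]
  {j : A →ₗ[ℂ] L} {r : G → A → A} {ι : X →* G} {ρ : X →* (K →L[ℂ] K)} {μ : Measure G}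
  {φ : A →ₗ[ℂ] (G → K →L[ℂ] K)} {ι' : X →* G'} {ω : K} {μ' : Measure G'}

/-- the module of all square integrable fields -/
theorem md_FL [SFinite μ] [SFinite μ'] [μ.IsMulLeftInvariant] [μ'.IsMulLeftInvariant]
    (h : RegRep ρ ω) (hφ : Rl j r ι ρ μ φ) :
    Md μ φ ι' ρ ω μ' (FL ι' ρ ω μ') (eM (FL ι' ρ ω μ') fun _ hx => hx.2) where
  fd := fun x hx => hx.1
  l2 := fun x hx => hx.2
  inn := inner_eM _ _
  dense := dense_eM _ _
  inv := fun a b x hx => ⟨fd_th h (hφ.sq a) (hφ.sq b) (hφ.fd a) (hφ.fd b) hx.1,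
    l2_th h (hφ.sq a) (hφ.sq b) (hφ.fd a) (hφ.fd b) hx.1 hx.2⟩

end md

section cov

variable {A L Λ X G G' H K : Type} [NonUnitalRing A] [StarRing A] [Module ℂ A]
  [SMulCommClass ℂ A A] [IsScalarTower ℂ A A]
  [NormedAddCommGroup L] [InnerProductSpace ℂ L] [CompleteSpace L]
  [Group Λ] [Group X] [Countable X]
  [Group G] [TopologicalSpace G] [IsTopologicalGroup G]
  [SecondCountableTopology G] [MeasurableSpace G] [BorelSpace G]
  [Group G'] [TopologicalSpace G'] [IsTopologicalGroup G']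
  [SecondCountableTopology G'] [MeasurableSpace G'] [BorelSpace G']
  [Group H] [TopologicalSpace H] [IsTopologicalGroup H]
  [NormedAddCommGroup K] [InnerProductSpace ℂ K] [CompleteSpace K]
  {j : A →ₗ[ℂ] L} {r : G → A → A} {ι : X →* G} {ρ : X →* (K →L[ℂ] K)} {μ : Measure G}
  {φ : A →ₗ[ℂ] (G → K →L[ℂ] K)} {ι' : X →* G'} {ω : K} {μ' : Measure G'}
  {V : Λ →* (K →L[ℂ] K)} {κ : Λ →* H} {α : H → A → A} {U : H →* (L →L[ℂ] L)}

/-- covariance of `th` -/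
theorem th_cov (hF : Frm ρ V ω) (hφ : Rl j r ι ρ μ φ)
    (hα : ∀ v a y, φ (α (κ v) a) y = V v * φ a y * V v⁻¹) (v : Λ) (b c : A) (S : K →L[ℂ] K) :
    th μ (φ (α (κ v) b)) (φ (α (κ v) c)) (V v * S * V v⁻¹) = V v * th μ (φ b) (φ c) S * V v⁻¹ := by
  have h1 := hφ.sq (α (κ v) b)
  have h2 := hφ.sq (α (κ v) c)
  have e1 : φ (α (κ v) b) = fun y => V v * φ b y * V v⁻¹ := funext (hα v b)
  have e2 : φ (α (κ v) c) = fun y => V v * φ c y * V v⁻¹ := funext (hα v c)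
  rw [e1] at h1 ⊢
  rw [e2] at h2 ⊢
  exact th_conj (hφ.sq b) (hφ.sq c) (hF.adj v) (hF.mul_inv v) (hF.inv_mul v) h1 h2 S

theorem norm_conj_le (hF : Frm ρ V ω) (v : Λ) (S : K →L[ℂ] K) : ‖V v * S * V v⁻¹‖ ≤ ‖S‖ := by
  calc ‖V v * S * V v⁻¹‖ ≤ ‖V v‖ * ‖S‖ * ‖V v⁻¹‖ :=
        (norm_mul_le _ _).trans (by gcongr; exact norm_mul_le _ _)
    _ ≤ 1 * ‖S‖ * 1 := by
        gcongr
        · exact hF.norm_le v
        · exact hF.norm_le _
    _ = ‖S‖ := by ring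

/-- the fields `u ↦ th b c (x u)` are smooth for the same source place -/
theorem acont_th (hF : Frm ρ V ω) (hφ : Rl j r ι ρ μ φ) (hU : Act j α U)
    (hα : ∀ v a y, φ (α (κ v) a) y = V v * φ a y * V v⁻¹) (b c : A) {x : G' → K →L[ℂ] K}
    (fx : Fd ι' ρ x) (ax : ACont κ V x) : ACont κ V (fun u => th μ (φ b) (φ c) (x u)) := by
  intro ε hε
  obtain ⟨C, hC0, hC⟩ := fx.exists_bdd
  obtain ⟨U₁, hU₁, h1⟩ := ax (ε / (3 * (‖j b‖ * ‖j c‖ + 1))) (by positivity)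
  have h2 : ∀ a : A, ∀ δ > 0, ∀ᶠ h in 𝓝 (1 : H), ‖j (α h a) - j a‖ < δ := by
    intro a δ hδ
    have h3 : Tendsto (fun h => j (α h a)) (𝓝 1) (𝓝 (j a)) := by
      have := (hU.contj a).tendsto 1
      rwa [hU.one] at this
    have h4 := (tendsto_iff_norm_sub_tendsto_zero.1 h3).eventually (gt_mem_nhds hδ)
    exact h4
  have hb := h2 b (ε / (3 * (‖j c‖ * C + 1))) (by positivity)
  have hc := h2 c (ε / (3 * (‖j b‖ * C + 1))) (by positivity)
  refine ⟨_, inter_mem hU₁ (inter_mem hb hc), fun v hv u => ?_⟩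
  obtain ⟨hv1, hv2, hv3⟩ := hv
  rw [← th_cov hF hφ hα]
  set b' := α (κ v) b with hb'
  set c' := α (κ v) c with hc'
  set S := x u with hS
  set S' := V v * x u * V v⁻¹ with hS'
  have e1 := hφ.th_addl (b' - b) b c' S'
  have e2 := hφ.th_addr b (c' - c) c S'
  have e3 := hφ.th_add b c (S' - S) S
  rw [sub_add_cancel] at e1 e2 e3
  have e : th μ (φ b') (φ c') S' - th μ (φ b) (φ c) S =
      th μ (φ (b' - b)) (φ c') S' + th μ (φ b) (φ (c' - c)) S' + th μ (φ b) (φ c) (S' - S) := by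
    rw [e1, e2, e3]; abel
  have nS' : ‖S'‖ ≤ C := (norm_conj_le hF v _).trans (hC u)
  have n1 : ‖th μ (φ (b' - b)) (φ c') S'‖ ≤ ε / 3 := by
    refine (hφ.th_le _ _ _).trans ?_
    rw [map_sub]
    have h5 : ‖j c'‖ = ‖j c‖ := hU.norm _ _
    have h6 : ‖j b' - j b‖ ≤ ε / (3 * (‖j c‖ * C + 1)) := le_of_lt hv2
    rw [h5]
    calc ‖j b' - j b‖ * ‖j c‖ * ‖S'‖ ≤ ε / (3 * (‖j c‖ * C + 1)) * ‖j c‖ * C := by gcongr
      _ = ε / 3 * ((‖j c‖ * C) / (‖j c‖ * C + 1)) := by field_simp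
      _ ≤ ε / 3 * 1 := by
          gcongr
          rw [div_le_one (by positivity)]
          linarith
      _ = ε / 3 := by ring
  have n2 : ‖th μ (φ b) (φ (c' - c)) S'‖ ≤ ε / 3 := by
    refine (hφ.th_le _ _ _).trans ?_
    rw [map_sub]
    have h6 : ‖j c' - j c‖ ≤ ε / (3 * (‖j b‖ * C + 1)) := le_of_lt hv3
    calc ‖j b‖ * ‖j c' - j c‖ * ‖S'‖ ≤ ‖j b‖ * (ε / (3 * (‖j b‖ * C + 1))) * C := by gcongr
      _ = ε / 3 * ((‖j b‖ * C) / (‖j b‖ * C + 1)) := by field_simp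
      _ ≤ ε / 3 * 1 := by
          gcongr
          rw [div_le_one (by positivity)]
          linarith
      _ = ε / 3 := by ring
  have n3 : ‖th μ (φ b) (φ c) (S' - S)‖ ≤ ε / 3 := by
    refine (hφ.th_le _ _ _).trans ?_
    have h6 : ‖S' - S‖ ≤ ε / (3 * (‖j b‖ * ‖j c‖ + 1)) := h1 v hv1 u
    calc ‖j b‖ * ‖j c‖ * ‖S' - S‖ ≤ ‖j b‖ * ‖j c‖ * (ε / (3 * (‖j b‖ * ‖j c‖ + 1))) := by gcongr
      _ = ε / 3 * ((‖j b‖ * ‖j c‖) / (‖j b‖ * ‖j c‖ + 1)) := by field_simp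
      _ ≤ ε / 3 * 1 := by
          gcongr
          rw [div_le_one (by positivity)]
          linarith
      _ = ε / 3 := by ring
  rw [e]
  calc _ ≤ ‖th μ (φ (b' - b)) (φ c') S'‖ + ‖th μ (φ b) (φ (c' - c)) S'‖ +
        ‖th μ (φ b) (φ c) (S' - S)‖ := norm_add₃_le
    _ ≤ ε := by linarith

end cov

section sm

variable {A L Λ X G G' H K : Type} [NonUnitalRing A] [StarRing A] [Module ℂ A]
  [SMulCommClass ℂ A A] [IsScalarTower ℂ A A]
  [NormedAddCommGroup L] [InnerProductSpace ℂ L] [CompleteSpace L]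
  [Group Λ] [Group X] [Countable X]
  [Group G] [TopologicalSpace G] [IsTopologicalGroup G]
  [SecondCountableTopology G] [MeasurableSpace G] [BorelSpace G]
  [Group G'] [TopologicalSpace G'] [IsTopologicalGroup G']
  [SecondCountableTopology G'] [MeasurableSpace G'] [BorelSpace G']
  [Group H] [TopologicalSpace H] [IsTopologicalGroup H]
  [NormedAddCommGroup K] [InnerProductSpace ℂ K] [CompleteSpace K]
  {j : A →ₗ[ℂ] L} {r : G → A → A} {ι : X →* G} {ρ : X →* (K →L[ℂ] K)} {μ : Measure G}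
  {φ : A →ₗ[ℂ] (G → K →L[ℂ] K)} {ι' : X →* G'} {ω : K} {μ' : Measure G'}
  {V : Λ →* (K →L[ℂ] K)} {κ : Λ →* H} {α : H → A → A} {U : H →* (L →L[ℂ] L)}

/-- the map from the smooth fields to their closure -/
noncomputable def eQ (ι' : X →* G') (κ : Λ →* H) (ρ : X →* (K →L[ℂ] K)) (V : Λ →* (K →L[ℂ] K))
    (ω : K) (μ' : Measure G') : SmS ι' κ ρ V ω μ' →ₗ[ℂ] QQ ι' κ ρ V ω μ' :=
  (sv ι' κ ρ V ω μ').codRestrict (QQ ι' κ ρ V ω μ') fun x =>
    Submodule.le_topologicalClosure _ ⟨x, rfl⟩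

instance : CompleteSpace (QQ ι' κ ρ V ω μ') := by unfold QQ; infer_instance

/-- the module of the smooth fields of another leg, same source place -/
theorem md_SmS [SFinite μ] [SFinite μ'] [μ.IsMulLeftInvariant] [μ'.IsMulLeftInvariant]
    (hF : Frm ρ V ω) (hφ : Rl j r ι ρ μ φ) (hU : Act j α U)
    (hα : ∀ v a y, φ (α (κ v) a) y = V v * φ a y * V v⁻¹) :
    Md μ φ ι' ρ ω μ' (SmS ι' κ ρ V ω μ') (eQ ι' κ ρ V ω μ') where
  fd := fun x hx => hx.toFd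
  l2 := fun x hx => hx.l2
  inn := fun z x => (integral_inner_toLp z.2.l2 x.2.l2).symm
  dense := by
    intro ξ
    have h1 : (ξ : Lp K 2 μ') ∈ closure (Set.range (sv ι' κ ρ V ω μ')) := by
      have h2 := ξ.2
      unfold QQ at h2
      rwa [← SetLike.mem_coe, Submodule.topologicalClosure_coe, LinearMap.coe_range] at h2
    rw [Metric.mem_closure_iff] at h1 ⊢
    intro ε hε
    obtain ⟨b, ⟨c, rfl⟩, hb⟩ := h1 ε hε
    exact ⟨_, ⟨c, rfl⟩, hb⟩
  inv := fun a b x hx => ⟨fd_th hF.reg (hφ.sq a) (hφ.sq b) (hφ.fd a) (hφ.fd b) hx.toFd,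
    acont_th hF hφ hU hα a b hx.toFd hx.acont,
    l2_th hF.reg (hφ.sq a) (hφ.sq b) (hφ.fd a) (hφ.fd b) hx.toFd hx.l2⟩

end sm

end Vale.Agent.P092.H821
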