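import Vale.Agent.P092.H821.Th5

/-!
P092-Q (helper821), block [Q-THETA], part 6: the operators `Θ b c` of one leg on the completion of the
two sided algebra of the other leg (same source place).
-/

set_option linter.all false

open MeasureTheory Filter Topology ContinuousLinearMap
open scoped InnerProductSpace ENNReal

namespace Vale.Agent.P092.H821

open Vale.Agent.P092.H160
open Vale.Agent.P092.H156.Sm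
open Vale.Agent.P092.H650
open Vale.Agent.P092.H242.ThC
open Vale.Agent.P092.H978
open Vale.Agent.P092.H720
open Vale.Agent.P092.H715.Q (Dbl fl F1 TwS)

section pair

variable {Γ X Y₁ Y₂ K G₁ G₂ H : Type} [Group Γ] [Group X] [Countable X] [Group Y₁]
    [Countable Y₁] [Group Y₂] [Countable Y₂]
    [NormedAddCommGroup K] [InnerProductSpace ℂ K] [CompleteSpace K]
    [Group G₁] [TopologicalSpace G₁] [IsTopologicalGroup G₁]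
    [SecondCountableTopology G₁] [MeasurableSpace G₁] [BorelSpace G₁]
    [Group G₂] [TopologicalSpace G₂] [IsTopologicalGroup G₂]
    [SecondCountableTopology G₂] [MeasurableSpace G₂] [BorelSpace G₂]
    [Group H] [TopologicalSpace H] [IsTopologicalGroup H]
    [SecondCountableTopology H] [MeasurableSpace H] [BorelSpace H]
    {V R₁ R₂ : Γ →* (K →L[ℂ] K)} {f₁ f₂ : X →* Γ} {ρ : X →* (K →L[ℂ] K)} {f₁' : Y₁ →* Γ}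
    {ρ₁' : Y₁ →* (K →L[ℂ] K)} {f₂' : Y₂ →* Γ} {ρ₂' : Y₂ →* (K →L[ℂ] K)} {ω : K}
    {p₁ : Γ →* G₁} {p₂ : Γ →* G₂} {κ : Γ →* H}
    {μ₁ : Measure G₁} [μ₁.IsMulLeftInvariant] [μ₁.IsMulRightInvariant] [SFinite μ₁]
    {μ₂ : Measure G₂} [μ₂.IsMulLeftInvariant] [μ₂.IsMulRightInvariant] [SFinite μ₂]
    [μ₂.IsOpenPosMeasure]
    {ν : Measure H} [ν.IsMulLeftInvariant] [ν.IsMulRightInvariant]
  (D₁ : Dbl V R₁ f₁ ρ f₁' ρ₁' ω) (D₂ : Dbl V R₂ f₂ ρ f₂' ρ₂' ω) (hκ : DenseRange κ)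
  (hp₁ : DenseRange p₁) (hp₂ : DenseRange p₂)

/-- the smooth fields of the second leg in the completion of its two sided algebra -/
noncomputable def eLL (h2 : F1 (p₂.comp f₂) κ ρ V ω μ₂)
    (hne : ∃ a, TwS V f₂ ρ ω p₂ κ μ₂ ν a ∧ a ≠ 0) :
    SmS (p₂.comp f₂) κ ρ V ω μ₂ →ₗ[ℂ] LL D₂ hκ p₂ μ₂ ν :=
  (sv (p₂.comp f₂) κ ρ V ω μ₂).codRestrict (LL D₂ hκ p₂ μ₂ ν) fun x =>
    vec_mem_LL D₂ hκ hp₂ h2 hne x.2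

include hp₂ in
theorem exists_ThPair (h1 : F1 (p₁.comp f₁) κ ρ V ω μ₁) (h2 : F1 (p₂.comp f₂) κ ρ V ω μ₂)
    (hne : ∃ a, TwS V f₂ ρ ω p₂ κ μ₂ ν a ∧ a ≠ 0) {U : H →* (LL D₁ hκ p₁ μ₁ ν →L[ℂ] LL D₁ hκ p₁ μ₁ ν)}
    {S : G₁ →* (LL D₁ hκ p₁ μ₁ ν →L[ℂ] LL D₁ hκ p₁ μ₁ ν)} {m : Measure H}
    (P : Pk (jj D₁ hκ p₁ μ₁ ν) (aT D₁ hκ μ₁ ν) U m (rT D₁ hκ hp₁ μ₁ ν) S μ₁) :
    ∃ Θ : TA D₁ hκ p₁ μ₁ ν → TA D₁ hκ p₁ μ₁ ν → (LL D₂ hκ p₂ μ₂ ν →L[ℂ] LL D₂ hκ p₂ μ₂ ν),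
      ThF (jj D₁ hκ p₁ μ₁ ν) (rT D₁ hκ hp₁ μ₁ ν) μ₁ Θ ∧
      ∀ (b c : TA D₁ hκ p₁ μ₁ ν) (z x : TA D₂ hκ p₂ μ₂ ν),
        ⟪jj D₂ hκ p₂ μ₂ ν z, Θ b c (jj D₂ hκ p₂ μ₂ ν x)⟫_ℂ =
          ip ω (μ₂.prod μ₁) (fun w => z.1 w.1 * c.1 w.2) (fun w => b.1 w.2 * x.1 w.1) := by
  have hφ := rl_TA D₁ hκ hp₁ μ₁ ν h1
  have hM : Md μ₁ (cof D₁ hκ μ₁ ν p₁) (p₂.comp f₂) ρ ω μ₂ (SmS (p₂.comp f₂) κ ρ V ω μ₂)
      (eLL D₂ hκ hp₂ h2 hne) :=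
    { fd := fun x hx => hx.toFd
      l2 := fun x hx => hx.l2
      inn := fun z x => (integral_inner_toLp z.2.l2 x.2.l2).symm
      dense := by
        refine (dense_jj D₂ hκ p₂ μ₂ ν).mono ?_
        rintro _ ⟨x, rfl⟩
        exact ⟨⟨x.1, x.2.smo⟩, rfl⟩
      inv := (md_SmS D₁.fr hφ P.actH fun v a y => cof_al D₁ hκ μ₁ ν v a y).inv }
  refine ⟨Tm hφ hM, Tm_ThF D₁.fr.reg hφ hM P, fun b c z x => ?_⟩
  exact inner_Tm' D₁.fr.reg hφ hM P b c ⟨z.1, z.2.smo⟩ ⟨x.1, x.2.smo⟩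

end pair

end Vale.Agent.P092.H821
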